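import Vale.Agent.P048.MathlibUsed

set_option linter.all false

section

section

/-!
Basic working notions for cycles and paths as lists of vertices.
These are internal tools; they do not occur in the final statement.
-/

namespace Vale.Agent.P048

open Finset

variable {V : Type*}

/-- A path of `G`, given as the list of its vertices. -/
def IsP (G : SimpleGraph V) (l : List V) : Prop := l.IsChain G.Adj ∧ l.Nodup

/-- A cycle of `G`, given as the list of its vertices (for lists of length at least 3). -/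
def IsC (G : SimpleGraph V) (l : List V) : Prop :=
  l.IsChain G.Adj ∧ l.Nodup ∧ ∀ a ∈ l.getLast?, ∀ b ∈ l.head?, G.Adj a b

/-- `G` has a cycle with `k` vertices (for `k` at least 3). -/
def HasC (G : SimpleGraph V) (k : ℕ) : Prop := ∃ l : List V, l.length = k ∧ IsC G l

/-- A cycle of length `k` as a `k`-periodic sequence of vertices. -/
def IsF (G : SimpleGraph V) (k : ℕ) (x : ℕ → V) : Prop :=
  (∀ i, G.Adj (x i) (x (i + 1))) ∧ (∀ i, x (i + k) = x i) ∧
    ∀ i j, i < k → j < k → x i = x j → i = j

/-- Independent finite set. -/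
def Ind (G : SimpleGraph V) (s : Finset V) : Prop := ∀ a ∈ s, ∀ b ∈ s, ¬ G.Adj a b

/-- Number of neighbours of `v` in the finite set `s`. -/
noncomputable def dg (G : SimpleGraph V) (s : Finset V) (v : V) : ℕ := by
  classical exact (s.filter (G.Adj v)).card

end Vale.Agent.P048
end
end

section

section

/-!
Notions for the full range argument.
-/

namespace Vale.Agent.P048

open Finset

variable {V : Type*}

/-- every independent subset of `W` has at most `k` elements -/
def AlLe (G : SimpleGraph V) (W : Finset V) (k : ℕ) : Prop :=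
  ∀ I ⊆ W, Ind G I → I.card ≤ k

/-- closed neighbourhood of `J` inside `W` -/
noncomputable def nbc (G : SimpleGraph V) (W J : Finset V) : Finset V := by
  classical exact W.filter (fun v => v ∈ J ∨ ∃ j ∈ J, G.Adj j v)

/-- expansion of independent sets -/
def Expd (G : SimpleGraph V) (W : Finset V) (θ : ℕ) : Prop :=
  ∀ J ⊆ W, Ind G J → J.Nonempty → θ * J.card + 1 ≤ (nbc G W J).card

/-- `K` is a clique -/
def Clq (G : SimpleGraph V) (K : Finset V) : Prop :=
  ∀ u ∈ K, ∀ v ∈ K, u ≠ v → G.Adj u v

/-- the graph with only the edges inside `R` -/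
def GR (G : SimpleGraph V) (R : Finset V) : SimpleGraph V where
  Adj a b := a ∈ R ∧ b ∈ R ∧ G.Adj a b
  symm := ⟨fun _ _ h => ⟨h.2.1, h.1, h.2.2.symm⟩⟩
  loopless := ⟨fun _ h => G.loopless.irrefl _ h.2.2⟩

theorem mem_nbc {G : SimpleGraph V} {W J : Finset V} {v : V} :
    v ∈ nbc G W J ↔ v ∈ W ∧ (v ∈ J ∨ ∃ j ∈ J, G.Adj j v) := by
  classical
  simp only [nbc, mem_filter]

theorem nbc_subset (G : SimpleGraph V) (W J : Finset V) : nbc G W J ⊆ W := by
  intro v hv
  exact (mem_nbc.1 hv).1

theorem AlLe.mono {G : SimpleGraph V} {W W' : Finset V} {k : ℕ} (h : AlLe G W k)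
    (hW : W' ⊆ W) : AlLe G W' k := fun I hI hInd => h I (hI.trans hW) hInd

/-- existence of an expanding subset -/
theorem exists_expd (G : SimpleGraph V) (θ : ℕ) (n : ℕ) : ∀ (W : Finset V) (k : ℕ),
    W.card ≤ n → AlLe G W k → θ * k + 1 ≤ W.card →
    ∃ H ⊆ W, ∃ j ≤ k, AlLe G H j ∧ θ * j + 1 ≤ H.card ∧ Expd G H θ := by
  classical
  induction n with
  | zero =>
    intro W k hn _ hc
    omega
  | succ n ih =>
    intro W k hn hal hc
    by_cases hE : Expd G W θ
    · exact ⟨W, subset_rfl, k, le_rfl, hal, hc, hE⟩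
    · unfold Expd at hE
      push Not at hE
      obtain ⟨J, hJW, hJi, hJne, hJc⟩ := hE
      have hJk : J.card ≤ k := hal J hJW hJi
      have hJpos : 0 < J.card := Finset.card_pos.2 hJne
      set W' := W \ nbc G W J with hW'
      have hcard : W'.card + (nbc G W J).card = W.card :=
        Finset.card_sdiff_add_card_eq_card (nbc_subset _ _ _)
      have hJsub : J ⊆ nbc G W J := fun v hv => mem_nbc.2 ⟨hJW hv, Or.inl hv⟩
      have hJle := Finset.card_le_card hJsub
      have hmul : θ * k = θ * (k - J.card) + θ * J.card := by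
        rw [← Nat.mul_add]
        congr 1
        omega
      obtain ⟨H, hH, j, hj, h1, h2, h3⟩ := ih W' (k - J.card) (by omega) (by
        intro I hI hInd
        have hdisj : Disjoint I J := by
          rw [Finset.disjoint_left]
          intro v hv hvJ
          exact (Finset.mem_sdiff.1 (hI hv)).2 (hJsub hvJ)
        have hind : Ind G (I ∪ J) := by
          have hno : ∀ a ∈ I, ∀ b ∈ J, ¬ G.Adj a b := by
            intro a ha b hb hab
            have h1 := Finset.mem_sdiff.1 (hI ha)
            exact h1.2 (mem_nbc.2 ⟨h1.1, Or.inr ⟨b, hb, hab.symm⟩⟩)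
          intro a ha b hb hab
          rcases Finset.mem_union.1 ha with ha | ha <;> rcases Finset.mem_union.1 hb with hb | hb
          · exact hInd a ha b hb hab
          · exact hno a ha b hb hab
          · exact hno b hb a ha hab.symm
          · exact hJi a ha b hb hab
        have hle := hal (I ∪ J) (Finset.union_subset (hI.trans Finset.sdiff_subset) hJW) hind
        rw [Finset.card_union_of_disjoint hdisj] at hle
        omega) (by omega)
      exact ⟨H, hH.trans Finset.sdiff_subset, j, by omega, h1, h2, h3⟩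

/-- degrees in an expanding set -/
theorem Expd.deg {G : SimpleGraph V} {W : Finset V} {θ : ℕ} (h : Expd G W θ) {v : V}
    (hv : v ∈ W) : θ ≤ dg G W v := by
  classical
  have h1 := h {v} (by simpa using hv) (by
    intro a ha b hb
    simp only [Finset.mem_singleton] at ha hb
    rw [ha, hb]
    exact G.loopless.irrefl _) (by simp)
  rw [Finset.card_singleton, mul_one] at h1
  have h2 : nbc G W {v} ⊆ insert v (W.filter (G.Adj v)) := by
    intro w hw
    rw [mem_nbc] at hw
    rcases hw.2 with h3 | ⟨j, hj, h3⟩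
    · rw [Finset.mem_singleton.1 h3]
      exact Finset.mem_insert_self _ _
    · rw [Finset.mem_singleton.1 hj] at h3
      exact Finset.mem_insert_of_mem (Finset.mem_filter.2 ⟨hw.1, h3⟩)
  have h3 := (Finset.card_le_card h2).trans (Finset.card_insert_le _ _)
  have h4 : dg G W v = (W.filter (G.Adj v)).card := by
    unfold dg
    congr
  omega

end Vale.Agent.P048
end
end

section

section

/-!
Notions for the full range `m ≥ n`, `m ≥ 9`.
-/

namespace Vale.Agent.P048

open Finset

variable {V : Type*}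

/-- a list of vertices is a path of `G` from `u` to `v`, given with its ends -/
def IsPath (G : SimpleGraph V) (u v : V) (l : List V) : Prop :=
  IsP G l ∧ l.head? = some u ∧ l.getLast? = some v

/-- ears through `R` for the vertices of `U`: every nonempty subset `D` of `U` either lies in
the neighbourhood of one vertex of `R`, or has a nonconstant colouring such that differently
coloured vertices are joined through `R` by paths with exactly `2 j - 1` vertices. -/
def Ear (G : SimpleGraph V) (R U : Finset V) (h : ℕ) : Prop :=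
  ∀ D ⊆ U, D.Nonempty → (∃ z ∈ R, ∀ w ∈ D, G.Adj z w) ∨
    ∃ j, 2 ≤ j ∧ j ≤ h + 1 ∧ ∃ c : V → V, (∃ w ∈ D, ∃ w' ∈ D, c w ≠ c w') ∧
      ∀ w ∈ D, ∀ w' ∈ D, c w ≠ c w' → ∃ a b : V, ∃ Y : List V, IsPath G a b Y ∧
        Y.length = 2 * j - 1 ∧ (∀ v ∈ Y, v ∈ R) ∧ G.Adj w a ∧ G.Adj b w'

end Vale.Agent.P048
end
end

section

section

/-!
Triangle chains and anchored long paths (full range project).
-/

namespace Vale.Agent.P048

open Finset

variable {V : Type*}

theorem mem_of_getLast? {l : List V} {a : V} (h : l.getLast? = some a) : a ∈ l :=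
  List.mem_of_getLast? h

theorem IsP.append {G : SimpleGraph V} {l m : List V} (hl : IsP G l) (hm : IsP G m)
    (hd : ∀ x ∈ l, x ∉ m) (hj : ∀ a ∈ l.getLast?, ∀ b ∈ m.head?, G.Adj a b) :
    IsP G (l ++ m) := by
  refine ⟨List.isChain_append.2 ⟨hl.1, hm.1, hj⟩, ?_⟩
  rw [List.nodup_append]
  refine ⟨hl.2, hm.2, ?_⟩
  intro a ha b hb hab
  exact hd a ha (hab ▸ hb)

/-- rotation of a path at the vertex number `i` -/
theorem IsP.rotate {G : SimpleGraph V} {l : List V} (hl : IsP G l) {i : ℕ}
    (hi : i + 1 < l.length) {y : V} (hy : l.getLast? = some y) (hadj : G.Adj y (l[i]'(by omega))) :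
    IsP G (l.take (i + 1) ++ (l.drop (i + 1)).reverse) ∧
    (l.take (i + 1) ++ (l.drop (i + 1)).reverse).head? = l.head? ∧
    (l.take (i + 1) ++ (l.drop (i + 1)).reverse).getLast? = some (l[i + 1]) ∧
    (l.take (i + 1) ++ (l.drop (i + 1)).reverse).Perm l := by
  have hperm : (l.take (i + 1) ++ (l.drop (i + 1)).reverse).Perm l := by
    have h1 : (l.take (i + 1) ++ (l.drop (i + 1)).reverse).Perm
        (l.take (i + 1) ++ l.drop (i + 1)) :=
      List.Perm.append_left _ (List.reverse_perm _)
    rwa [List.take_append_drop] at h1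
  refine ⟨⟨?_, ?_⟩, ?_, ?_, hperm⟩
  · rw [List.isChain_append]
    refine ⟨hl.1.take _, ?_, ?_⟩
    · rw [List.isChain_reverse]
      have := hl.1.drop (i + 1)
      refine this.imp ?_
      intro a b hab
      exact hab.symm
    · intro a ha b hb
      rw [List.head?_reverse, List.getLast?_drop, if_neg (by omega), hy, Option.mem_def,
        Option.some.injEq] at hb
      rw [List.getLast?_take, if_neg (by omega)] at ha
      simp only [Nat.add_sub_cancel] at ha
      rw [List.getElem?_eq_getElem (by omega)] at ha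
      simp only [Option.some_or, Option.mem_def, Option.some.injEq] at ha
      rw [← ha, ← hb]
      exact hadj.symm
  · exact hperm.nodup_iff.2 hl.2
  · rw [List.head?_append, List.head?_take, if_neg (by omega)]
    cases l with
    | nil => simp at hi
    | cons a t => rfl
  · rw [List.getLast?_append, List.getLast?_reverse, List.head?_drop,
      List.getElem?_eq_getElem hi]
    rfl

end Vale.Agent.P048
end
end

section

section

/-!
Lemma LB: a cycle of length `ℓ` in a graph without a cycle of length `ℓ + 2`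
produces an independent set outside the cycle at least as large as the average
outside degree.
-/

namespace Vale.Agent.P048

open Finset

variable {V : Type*}

/-- adjacency inside `M` -/
def Rl (G : SimpleGraph V) (M : Finset V) (a b : V) : Prop := a ∈ M ∧ b ∈ M ∧ G.Adj a b

/-- component of `v` in `M` -/
noncomputable def cmp (G : SimpleGraph V) (M : Finset V) (v : V) : Finset V := by
  classical exact M.filter (fun w => Relation.ReflTransGen (Rl G M) v w)

theorem mem_cmp {G : SimpleGraph V} {M : Finset V} {v w : V} :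
    w ∈ cmp G M v ↔ w ∈ M ∧ Relation.ReflTransGen (Rl G M) v w := by
  classical
  simp [cmp]

theorem cmp_subset (G : SimpleGraph V) (M : Finset V) (v : V) : cmp G M v ⊆ M := by
  intro w hw
  exact (mem_cmp.1 hw).1

theorem self_mem_cmp {G : SimpleGraph V} {M : Finset V} {v : V} (hv : v ∈ M) :
    v ∈ cmp G M v := mem_cmp.2 ⟨hv, Relation.ReflTransGen.refl⟩

/-- a neighbour inside `M` of a member of the component is a member -/
theorem cmp_adj {G : SimpleGraph V} {M : Finset V} {v w w' : V} (hw : w ∈ cmp G M v)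
    (hw' : w' ∈ M) (h : G.Adj w w') : w' ∈ cmp G M v := by
  rw [mem_cmp] at hw ⊢
  exact ⟨hw', hw.2.tail ⟨hw.1, hw', h⟩⟩

/-- the component is connected from its root -/
theorem cmp_conn {G : SimpleGraph V} {M : Finset V} {v : V} (hv : v ∈ M) :
    ∀ w ∈ cmp G M v, Relation.ReflTransGen (Rl G (cmp G M v)) v w := by
  intro w hw
  have h := (mem_cmp.1 hw).2
  clear hw
  have key : ∀ w, Relation.ReflTransGen (Rl G M) v w →
      w ∈ cmp G M v ∧ Relation.ReflTransGen (Rl G (cmp G M v)) v w := by
    intro w h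
    induction h with
    | refl => exact ⟨self_mem_cmp hv, Relation.ReflTransGen.refl⟩
    | tail _ hbc ih =>
      have hc := cmp_adj ih.1 hbc.2.1 hbc.2.2
      exact ⟨hc, ih.2.tail ⟨ih.1, hc, hbc.2.2⟩⟩
  exact (key w h).2

/-- L1a. -/
theorem L1a (G : SimpleGraph V) (n : ℕ) : ∀ K : Finset V, K.card ≤ n → ∀ v0 ∈ K,
    (∀ w ∈ K, Relation.ReflTransGen (Rl G K) v0 w) → ∀ h : ℕ,
    (∀ p : List V, IsP G (v0 :: p) → (∀ w ∈ p, w ∈ K) → p.length + 1 ≤ h) →
    ∃ J ⊆ K, v0 ∉ J ∧ Ind G J ∧ K.card ≤ 1 + (h - 1) * J.card := by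
  classical
  induction n with
  | zero =>
    intro K hK v0 hv0
    have : K = ∅ := by
      apply Finset.card_eq_zero.1
      omega
    subst this
    simp at hv0
  | succ n ih =>
    intro K hK v0 hv0 hconn h hpath
    by_cases hone : K = {v0}
    · refine ⟨∅, by simp, by simp, ?_, by simp only [hone, card_singleton, card_empty, mul_zero, add_zero, Std.le_refl]⟩
      intro a ha
      simp at ha
    -- a neighbour of v0
    obtain ⟨v1, hv1K, hadj⟩ : ∃ v1 ∈ K, G.Adj v0 v1 := by
      obtain ⟨w, hwK, hw⟩ : ∃ w ∈ K, w ≠ v0 := by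
        by_contra hcon
        push Not at hcon
        apply hone
        ext z
        constructor
        · intro hz
          simp [hcon z hz]
        · intro hz
          simp only [Finset.mem_singleton] at hz
          rw [hz]
          exact hv0
      rcases (Relation.ReflTransGen.cases_head (hconn w hwK)) with h1 | ⟨c, hc, _⟩
      · exact absurd h1.symm hw
      · exact ⟨c, hc.2.1, hc.2.2⟩
    have hv10 : v1 ≠ v0 := hadj.ne'
    set K' := K.erase v0 with hK'
    have hv1K' : v1 ∈ K' := Finset.mem_erase.2 ⟨hv10, hv1K⟩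
    set K1 := cmp G K' v1 with hK1
    have hK1K' : K1 ⊆ K' := cmp_subset _ _ _
    have hK1K : K1 ⊆ K := fun z hz => Finset.mem_of_mem_erase (hK1K' hz)
    have hv0K1 : v0 ∉ K1 := fun hz => (Finset.mem_erase.1 (hK1K' hz)).1 rfl
    set K2 := K \ K1 with hK2
    have hv0K2 : v0 ∈ K2 := Finset.mem_sdiff.2 ⟨hv0, hv0K1⟩
    have hv1K1 : v1 ∈ K1 := self_mem_cmp hv1K'
    have hcard : K2.card + K1.card = K.card := Finset.card_sdiff_add_card_eq_card hK1K
    have hK2pos : 0 < K2.card := Finset.card_pos.2 ⟨v0, hv0K2⟩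
    have hK1pos : 0 < K1.card := Finset.card_pos.2 ⟨v1, hv1K1⟩
    -- connectivity of K2
    have hconn2 : ∀ w ∈ K2, Relation.ReflTransGen (Rl G K2) v0 w := by
      have key : ∀ w, Relation.ReflTransGen (Rl G K) v0 w → w ∈ K2 →
          Relation.ReflTransGen (Rl G K2) v0 w := by
        intro w hw
        induction hw with
        | refl => intro _; exact Relation.ReflTransGen.refl
        | @tail b c _ hbc ihb =>
          intro hc
          by_cases hb : b ∈ K2
          · exact (ihb hb).tail ⟨hb, hc, hbc.2.2⟩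
          · have hb1 : b ∈ K1 := by
              by_contra hb1
              exact hb (Finset.mem_sdiff.2 ⟨hbc.1, hb1⟩)
            have hc0 : c = v0 := by
              by_contra hc0
              have : c ∈ K1 := cmp_adj hb1 (Finset.mem_erase.2 ⟨hc0, hbc.2.1⟩) hbc.2.2
              exact (Finset.mem_sdiff.1 hc).2 this
            rw [hc0]
      intro w hw
      exact key w (hconn w (Finset.mem_sdiff.1 hw).1) hw
    -- h is at least 2
    have hh2 : 2 ≤ h := by
      have := hpath [v1] ⟨by simp [hadj], by simp [hadj.ne]⟩ (by simp [hv1K])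
      simpa only [ge_iff_le, List.length_cons, List.length_nil, zero_add, Nat.reduceAdd] using this
    obtain ⟨J2, hJ2, hv0J2, hJ2i, hJ2c⟩ := ih K2 (by omega) v0 hv0K2 hconn2 h
      (fun p hp hpK => hpath p hp (fun w hw => (Finset.mem_sdiff.1 (hpK w hw)).1))
    obtain ⟨J1, hJ1, hv1J1, hJ1i, hJ1c⟩ := ih K1 (by omega) v1 hv1K1 (cmp_conn hv1K') (h - 1) (by
      intro p hp hpK
      have := hpath (v1 :: p) ⟨by
          rw [List.isChain_cons_cons]
          exact ⟨hadj, hp.1⟩, by
          rw [List.nodup_cons]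
          refine ⟨?_, hp.2⟩
          intro hmem
          rcases List.mem_cons.1 hmem with h1 | h1
          · exact hv10 h1.symm
          · exact hv0K1 (hpK _ h1)⟩ (by
          intro w hw
          rcases List.mem_cons.1 hw with h1 | h1
          · rw [h1]; exact hv1K
          · exact hK1K (hpK _ h1))
      simp only [List.length_cons] at this
      omega)
    -- improve J1
    obtain ⟨J1', hJ1', hJ1'i, hJ1'c⟩ : ∃ J ⊆ K1, Ind G J ∧ K1.card ≤ (h - 1) * J.card := by
      rcases Nat.eq_zero_or_pos J1.card with h0 | h0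
      · refine ⟨{v1}, by simpa using hv1K1, ?_, ?_⟩
        · intro a ha b hb
          simp only [Finset.mem_singleton] at ha hb
          rw [ha, hb]
          exact G.loopless.irrefl _
        · rw [h0] at hJ1c
          simp only [Finset.card_singleton]
          (clear * - hh2 hJ1c; omega)
      · refine ⟨J1, hJ1, hJ1i, ?_⟩
        obtain ⟨k, hk⟩ : ∃ k, h - 1 = k + 1 := ⟨h - 2, by omega⟩
        rw [hk] at hJ1c ⊢
        simp only [Nat.add_sub_cancel] at hJ1c
        nlinarith only [h0, hJ1c]
    have hJ1'v0 : v0 ∉ J1' := fun hz => hv0K1 (hJ1' hz)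
    have hdisj : Disjoint J1' J2 := by
      rw [Finset.disjoint_left]
      intro z hz1 hz2
      exact (Finset.mem_sdiff.1 (hJ2 hz2)).2 (hJ1' hz1)
    refine ⟨J1' ∪ J2, ?_, ?_, ?_, ?_⟩
    · intro z hz
      rcases Finset.mem_union.1 hz with h1 | h1
      · exact hK1K (hJ1' h1)
      · exact (Finset.mem_sdiff.1 (hJ2 h1)).1
    · intro hz
      rcases Finset.mem_union.1 hz with h1 | h1
      · exact hJ1'v0 h1
      · exact hv0J2 h1
    · have cross : ∀ a ∈ J1', ∀ b ∈ J2, ¬ G.Adj a b := by
        intro a ha b hb hab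
        have hb2 := Finset.mem_sdiff.1 (hJ2 hb)
        have hbv0 : b ≠ v0 := fun hb0 => hv0J2 (hb0 ▸ hb)
        exact hb2.2 (cmp_adj (hJ1' ha) (Finset.mem_erase.2 ⟨hbv0, hb2.1⟩) hab)
      intro a ha b hb
      rcases Finset.mem_union.1 ha with h1 | h1 <;> rcases Finset.mem_union.1 hb with h2 | h2
      · exact hJ1'i a h1 b h2
      · exact cross a h1 b h2
      · exact fun hab => cross b h2 a h1 hab.symm
      · exact hJ2i a h1 b h2
    · rw [Finset.card_union_of_disjoint hdisj, Nat.mul_add]
      omega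

/-- L1b. -/
theorem L1b (G : SimpleGraph V) (K : Finset V) (v0 : V) (hv0 : v0 ∈ K)
    (hconn : ∀ w ∈ K, Relation.ReflTransGen (Rl G K) v0 w) (h : ℕ) (h1 : 1 ≤ h)
    (hpath : ∀ p : List V, IsP G (v0 :: p) → (∀ w ∈ p, w ∈ K) → p.length + 1 ≤ h) :
    ∃ J ⊆ K, Ind G J ∧ K.card ≤ h * J.card := by
  classical
  obtain ⟨J, hJ, _, hJi, hJc⟩ := L1a G K.card K le_rfl v0 hv0 hconn h hpath
  rcases Nat.eq_zero_or_pos J.card with h0 | h0
  · refine ⟨{v0}, by simpa using hv0, ?_, ?_⟩
    · intro a ha b hb
      simp only [Finset.mem_singleton] at ha hb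
      rw [ha, hb]
      exact G.loopless.irrefl _
    · rw [h0] at hJc
      simp only [Finset.card_singleton]
      omega
  · refine ⟨J, hJ, hJi, ?_⟩
    obtain ⟨k, rfl⟩ : ∃ k, h = k + 1 := ⟨h - 1, by omega⟩
    simp only [Nat.add_sub_cancel] at hJc
    linarith

/-- Heights: L1'. -/
theorem L1h (G : SimpleGraph V) (n : ℕ) : ∀ M : Finset V, M.card ≤ n →
    ∃ h : V → ℕ, ∃ J ⊆ M, Ind G J ∧
      (∀ v ∈ M, ∀ w ∈ M, G.Adj v w → h v = h w) ∧
      (∀ v ∈ M, ∃ p : List V, IsP G (v :: p) ∧ (∀ w ∈ p, w ∈ M) ∧ p.length + 1 = h v) ∧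
      M.card ≤ ∑ w ∈ J, h w := by
  classical
  induction n with
  | zero =>
    intro M hM
    have : M = ∅ := by
      apply Finset.card_eq_zero.1
      omega
    subst this
    exact ⟨fun _ => 0, ∅, by simp, by intro a ha; simp at ha, by simp, by simp, by simp⟩
  | succ n ih =>
    intro M hM
    rcases M.eq_empty_or_nonempty with hemp | hne
    · subst hemp
      exact ⟨fun _ => 0, ∅, by simp, by intro a ha; simp at ha, by simp, by simp, by simp⟩
    -- the minimal maximal path length
    let P : ℕ → Prop := fun h => ∀ v ∈ M, ∃ p : List V, IsP G (v :: p) ∧ (∀ w ∈ p, w ∈ M) ∧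
      h ≤ p.length + 1
    have hP1 : P 1 := by
      intro v hv
      exact ⟨[], ⟨by simp, by simp⟩, by simp, by simp⟩
    set h0 := Nat.findGreatest P M.card with hh0
    have hMpos : 1 ≤ M.card := Finset.card_pos.2 hne
    have hPh0 : P h0 := Nat.findGreatest_spec hMpos hP1
    have h01 : 1 ≤ h0 := Nat.le_findGreatest hMpos hP1
    have hnP : ¬ P (h0 + 1) := by
      by_cases hle : h0 + 1 ≤ M.card
      · exact Nat.findGreatest_is_greatest (Nat.lt_succ_self _) hle
      · intro hP
        obtain ⟨v, hv⟩ := hne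
        obtain ⟨p, hp, hpM, hlen⟩ := hP v hv
        have hsub : (v :: p).toFinset ⊆ M := by
          intro z hz
          rw [List.mem_toFinset] at hz
          rcases List.mem_cons.1 hz with h1 | h1
          · rw [h1]; exact hv
          · exact hpM z h1
        have := Finset.card_le_card hsub
        rw [List.toFinset_card_of_nodup hp.2] at this
        simp only [List.length_cons] at this
        omega
    have : ∃ v0 ∈ M, ∀ p : List V, IsP G (v0 :: p) → (∀ w ∈ p, w ∈ M) → p.length + 1 ≤ h0 := by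
      by_contra hcon
      push Not at hcon
      apply hnP
      intro v hv
      obtain ⟨p, hp, hpM, hlen⟩ := hcon v hv
      exact ⟨p, hp, hpM, by omega⟩
    obtain ⟨v0, hv0, hv0path⟩ := this
    set K := cmp G M v0 with hK
    have hKM : K ⊆ M := cmp_subset _ _ _
    have hv0K : v0 ∈ K := self_mem_cmp hv0
    obtain ⟨J1, hJ1, hJ1i, hJ1c⟩ := L1b G K v0 hv0K (cmp_conn hv0) h0 h01
      (fun p hp hpK => hv0path p hp (fun w hw => hKM (hpK w hw)))
    have hcard : (M \ K).card + K.card = M.card := Finset.card_sdiff_add_card_eq_card hKM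
    have hKpos : 0 < K.card := Finset.card_pos.2 ⟨v0, hv0K⟩
    obtain ⟨h', J2, hJ2, hJ2i, hadj', hpath', hJ2c⟩ := ih (M \ K) (by omega)
    refine ⟨fun v => if v ∈ K then h0 else h' v, J1 ∪ J2, ?_, ?_, ?_, ?_, ?_⟩
    · intro z hz
      rcases Finset.mem_union.1 hz with h1 | h1
      · exact hKM (hJ1 h1)
      · exact (Finset.mem_sdiff.1 (hJ2 h1)).1
    · have cross : ∀ a ∈ J1, ∀ b ∈ J2, ¬ G.Adj a b := by
        intro a ha b hb hab
        have hb2 := Finset.mem_sdiff.1 (hJ2 hb)
        exact hb2.2 (cmp_adj (hJ1 ha) hb2.1 hab)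
      intro a ha b hb
      rcases Finset.mem_union.1 ha with h1 | h1 <;> rcases Finset.mem_union.1 hb with h2 | h2
      · exact hJ1i a h1 b h2
      · exact cross a h1 b h2
      · exact fun hab => cross b h2 a h1 hab.symm
      · exact hJ2i a h1 b h2
    · intro v hv w hw hvw
      by_cases hvK : v ∈ K
      · have hwK : w ∈ K := cmp_adj hvK hw hvw
        simp [hvK, hwK]
      · have hwK : w ∉ K := fun hwK => hvK (cmp_adj hwK hv hvw.symm)
        simp only [hvK, hwK, if_false]
        exact hadj' v (Finset.mem_sdiff.2 ⟨hv, hvK⟩) w (Finset.mem_sdiff.2 ⟨hw, hwK⟩) hvw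
    · intro v hv
      by_cases hvK : v ∈ K
      · obtain ⟨p, hp, hpM, hlen⟩ := hPh0 v hv
        refine ⟨p.take (h0 - 1), ?_, ?_, ?_⟩
        · have : v :: p.take (h0 - 1) = (v :: p).take h0 := by
            obtain ⟨k, hk⟩ : ∃ k, h0 = k + 1 := ⟨h0 - 1, by omega⟩
            rw [hk]
            simp only [add_tsub_cancel_right, List.take_succ_cons]
          rw [this]
          exact ⟨hp.1.take _, hp.2.take⟩
        · intro w hw
          exact hpM w (List.mem_of_mem_take hw)
        · simp only [hvK, if_true, List.length_take]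
          omega
      · obtain ⟨p, hp, hpM, hlen⟩ := hpath' v (Finset.mem_sdiff.2 ⟨hv, hvK⟩)
        refine ⟨p, hp, fun w hw => (Finset.mem_sdiff.1 (hpM w hw)).1, ?_⟩
        simp [hvK, hlen]
    · have hdisj : Disjoint J1 J2 := by
        rw [Finset.disjoint_left]
        intro z hz1 hz2
        exact (Finset.mem_sdiff.1 (hJ2 hz2)).2 (hJ1 hz1)
      rw [Finset.sum_union hdisj]
      have e1 : ∑ w ∈ J1, (if w ∈ K then h0 else h' w) = h0 * J1.card := by
        rw [Finset.sum_congr rfl (fun w hw => if_pos (hJ1 hw)), Finset.sum_const, smul_eq_mul,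
          Nat.mul_comm]
      have e2 : ∑ w ∈ J2, (if w ∈ K then h0 else h' w) = ∑ w ∈ J2, h' w := by
        apply Finset.sum_congr rfl
        intro w hw
        exact if_neg (Finset.mem_sdiff.1 (hJ2 hw)).2
      rw [e1, e2]
      omega

end Vale.Agent.P048
end
end

section

section

/-!
Closing lemma and Lemma LB.
-/

namespace Vale.Agent.P048

open Finset

variable {V : Type*}

theorem IsF.mod {G : SimpleGraph V} {k : ℕ} {x : ℕ → V} (h : IsF G k x) (i : ℕ) :
    x (i % k) = x i :=
  Function.Periodic.map_mod_nat h.2.1 i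

theorem IsF.inj {G : SimpleGraph V} {k : ℕ} {x : ℕ → V} (h : IsF G k x) {i s t : ℕ}
    (hs : s < k) (ht : t < k) (hst : x (i + s) = x (i + t)) : s = t := by
  have hk : 0 < k := by omega
  rw [← h.mod (i + s), ← h.mod (i + t)] at hst
  have := h.2.2 _ _ (Nat.mod_lt _ hk) (Nat.mod_lt _ hk) hst
  have h2 : s ≡ t [MOD k] := Nat.ModEq.add_left_cancel' i this
  exact Nat.ModEq.eq_of_lt_of_lt h2 hs ht

/-- the arc `x i, ..., x (i + t)` as a list -/
def arc (x : ℕ → V) (i t : ℕ) : List V := (List.range (t + 1)).map (fun s => x (i + s))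

theorem arc_length (x : ℕ → V) (i t : ℕ) : (arc x i t).length = t + 1 := by
  simp [arc]

theorem arc_head (x : ℕ → V) (i t : ℕ) : (arc x i t).head? = some (x i) := by
  simp [arc, List.range_succ_eq_map]

theorem arc_last (x : ℕ → V) (i t : ℕ) : (arc x i t).getLast? = some (x (i + t)) := by
  simp [arc, List.range_succ]

theorem arc_succ (x : ℕ → V) (i t : ℕ) : arc x i (t + 1) = arc x i t ++ [x (i + t + 1)] := by
  simp only [arc]
  rw [List.range_succ, List.map_append]
  simp [Nat.add_assoc]

theorem mem_arc {x : ℕ → V} {i t : ℕ} {v : V} :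
    v ∈ arc x i t ↔ ∃ s ≤ t, x (i + s) = v := by
  simp only [arc, List.mem_map, List.mem_range, Order.lt_add_one_iff]

theorem arc_chain {G : SimpleGraph V} {k : ℕ} {x : ℕ → V} (h : IsF G k x) (i t : ℕ) :
    (arc x i t).IsChain G.Adj := by
  induction t with
  | zero => simp [arc]
  | succ t ih =>
    rw [arc_succ, List.isChain_append]
    refine ⟨ih, by simp, ?_⟩
    intro a ha b hb
    rw [arc_last] at ha
    simp only [Option.mem_def, Option.some.injEq] at ha
    simp only [List.head?_cons, Option.mem_def, Option.some.injEq] at hb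
    rw [← ha, ← hb]
    exact h.1 _

theorem arc_nodup {G : SimpleGraph V} {k : ℕ} {x : ℕ → V} (h : IsF G k x) (i t : ℕ)
    (ht : t < k) : (arc x i t).Nodup := by
  unfold arc
  apply List.Nodup.map_on _ List.nodup_range
  intro a ha b hb hab
  rw [List.mem_range] at ha hb
  exact h.inj (by omega) (by omega) hab

/-- Closing lemma. -/
theorem closing {G : SimpleGraph V} {ℓ : ℕ} {x : ℕ → V} (hx : IsF G ℓ x) (i d : ℕ)
    (hd : 1 ≤ d) (hdl : d ≤ ℓ) (q : List V) (hq : IsP G q) (hlen : q.length = d + 1)
    (hout : ∀ w ∈ q, ∀ j, x j ≠ w) (u v : V) (hu : u ∈ q.head?) (hv : v ∈ q.getLast?)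
    (hxu : G.Adj (x (i + (ℓ - d))) u) (hxv : G.Adj v (x i)) : HasC G (ℓ + 2) := by
  refine ⟨arc x i (ℓ - d) ++ q, ?_, ?_, ?_, ?_⟩
  · rw [List.length_append, arc_length, hlen]
    omega
  · rw [List.isChain_append]
    refine ⟨arc_chain hx _ _, hq.1, ?_⟩
    intro a ha b hb
    rw [arc_last] at ha
    simp only [Option.mem_def, Option.some.injEq] at ha
    have : b = u := by
      rw [Option.mem_def] at hb hu
      rw [hb] at hu
      exact Option.some.inj hu
    rw [← ha, this]
    exact hxu
  · rw [List.nodup_append']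
    refine ⟨arc_nodup hx _ _ (by omega), hq.2, ?_⟩
    intro w hw hwq
    obtain ⟨s, _, hs⟩ := mem_arc.1 hw
    exact hout w hwq _ hs
  · intro a ha b hb
    have hqne : q ≠ [] := by
      intro h0
      rw [h0] at hlen
      simp at hlen
    rw [List.getLast?_append_of_ne_nil _ hqne] at ha
    have hav : a = v := by
      rw [Option.mem_def] at ha hv
      rw [ha] at hv
      exact Option.some.inj hv
    rw [List.head?_append, arc_head] at hb
    simp only [Option.some_or, Option.mem_def, Option.some.injEq] at hb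
    rw [hav, ← hb]
    exact hxv

theorem sum_range_shift {F : ℕ → ℕ} {k : ℕ} (hF : ∀ i, F (i + k) = F i) (e : ℕ) :
    ∑ c ∈ range k, F (c + e) = ∑ c ∈ range k, F c := by
  induction e with
  | zero => simp
  | succ e ih =>
    rw [← ih]
    have h1 := Finset.sum_range_succ (fun c => F (c + e)) k
    have h2 := Finset.sum_range_succ' (fun c => F (c + e)) k
    have h3 : F (k + e) = F (0 + e) := by
      rw [Nat.add_comm k e, Nat.zero_add]
      exact hF e
    have h4 : ∑ c ∈ range k, F (c + 1 + e) = ∑ c ∈ range k, F (c + (e + 1)) := by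
      apply Finset.sum_congr rfl
      intro c _
      congr 1
      omega
    omega

/-- Lemma LB. -/
theorem LB (G : SimpleGraph V) (ℓ : ℕ) (hℓ : 1 ≤ ℓ) (x : ℕ → V) (hx : IsF G ℓ x)
    (U : Finset V) (hU : ∀ i, x i ∉ U) (hno : ¬ HasC G (ℓ + 2)) :
    ∃ J ⊆ U, Ind G J ∧ ∑ i ∈ range ℓ, dg G U (x i) ≤ ℓ * J.card := by
  classical
  have hall : ∀ v : V, ∃ h : V → ℕ, ∃ J ⊆ U.filter (G.Adj v), Ind G J ∧
      (∀ u ∈ U.filter (G.Adj v), ∀ w ∈ U.filter (G.Adj v), G.Adj u w → h u = h w) ∧
      (∀ u ∈ U.filter (G.Adj v), ∃ p : List V, IsP G (u :: p) ∧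
        (∀ w ∈ p, w ∈ U.filter (G.Adj v)) ∧ p.length + 1 = h u) ∧
      (U.filter (G.Adj v)).card ≤ ∑ w ∈ J, h w :=
    fun v => L1h G _ (U.filter (G.Adj v)) le_rfl
  choose h J hJ hJi hadj hpath hcard using hall
  -- every vertex of `N_i` starts a path with `t` vertices in `N_i`, for `t ≤ h`
  have hsub : ∀ v u : V, u ∈ U.filter (G.Adj v) → ∀ t, t + 1 ≤ h v u →
      ∃ p : List V, IsP G (u :: p) ∧ (∀ w ∈ p, w ∈ U.filter (G.Adj v)) ∧ p.length = t := by
    intro v u hu t ht
    obtain ⟨p, hp, hpM, hlen⟩ := hpath v u hu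
    refine ⟨p.take t, ?_, ?_, ?_⟩
    · have : u :: p.take t = (u :: p).take (t + 1) := by simp
      rw [this]
      exact ⟨hp.1.take _, hp.2.take⟩
    · intro w hw
      exact hpM w (List.mem_of_mem_take hw)
    · rw [List.length_take]
      omega
  -- paths in `N_i` close up
  have hclose : ∀ i d : ℕ, 1 ≤ d → d ≤ ℓ → ∀ u : V, ∀ p : List V, IsP G (u :: p) →
      p.length = d → u ∈ U → (∀ w ∈ p, w ∈ U.filter (G.Adj (x i))) →
      ¬ G.Adj (x (i + (ℓ - d))) u := by
    intro i d hd hdl u p hp hlen huU hpM hau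
    apply hno
    have hpne : p ≠ [] := by
      intro h0
      rw [h0] at hlen
      simp at hlen
      omega
    have hlast : p.getLast hpne ∈ U.filter (G.Adj (x i)) := hpM _ (List.getLast_mem _)
    refine closing hx i d hd hdl (u :: p) hp (by simp [hlen]) ?_ u (p.getLast hpne)
      (by simp) ?_ hau ?_
    · intro w hw j hj
      rcases List.mem_cons.1 hw with h1 | h1
      · rw [h1] at hj
        exact hU j (hj ▸ huU)
      · have := (Finset.mem_filter.1 (hpM w h1)).1
        exact hU j (hj ▸ this)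
    · rw [List.getLast?_cons, List.getLast?_eq_some_getLast hpne]
      simp
    · exact ((Finset.mem_filter.1 hlast).2).symm
  -- heights are at most `ℓ`
  have hle : ∀ i, ∀ w ∈ J (x i), h (x i) w ≤ ℓ := by
    intro i w hw
    by_contra hcon
    push Not at hcon
    have hwN := hJ _ hw
    obtain ⟨p, hp, hpM, hlen⟩ := hsub (x i) w hwN ℓ (by omega)
    have hwN2 := Finset.mem_filter.1 hwN
    refine hclose i ℓ hℓ le_rfl w p hp hlen hwN2.1 hpM ?_
    simpa using hwN2.2
  -- the pieces
  let X : ℕ → ℕ → Finset V := fun c e => (J (x (c + e))).filter (fun w => e < h (x (c + e)) w)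
  have hXsub : ∀ c e, X c e ⊆ U.filter (G.Adj (x (c + e))) := fun c e w hw =>
    hJ _ (Finset.mem_filter.1 hw).1
  have cross : ∀ c e e', e < e' → e' < ℓ → ∀ w ∈ X c e, ∀ w' ∈ X c e',
      w ≠ w' ∧ ¬ G.Adj w w' := by
    intro c e e' hee he' w hw w' hw'
    have hwN := hXsub _ _ hw
    have hw'N := hXsub _ _ hw'
    have hh' := (Finset.mem_filter.1 hw').2
    have hwA : G.Adj (x (c + e' + (ℓ - (e' - e)))) w := by
      have : c + e' + (ℓ - (e' - e)) = (c + e) + ℓ := by omega
      rw [this, hx.2.1]
      exact (Finset.mem_filter.1 hwN).2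
    have hwU : w ∈ U := (Finset.mem_filter.1 hwN).1
    have hstart : ∀ u ∈ U.filter (G.Adj (x (c + e'))), e' < h (x (c + e')) u →
        ¬ G.Adj (x (c + e' + (ℓ - (e' - e)))) u := by
      intro u hu hhu
      obtain ⟨p, hp, hpM, hlen⟩ := hsub _ u hu (e' - e) (by omega)
      exact hclose (c + e') (e' - e) (by omega) (by omega) u p hp hlen
        (Finset.mem_filter.1 hu).1 hpM
    refine ⟨?_, ?_⟩
    · intro heq
      rw [heq] at hwA
      exact hstart w' hw'N hh' hwA
    · intro hadj'
      by_cases hwN' : w ∈ U.filter (G.Adj (x (c + e')))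
      · have := hadj (x (c + e')) w hwN' w' hw'N hadj'
        exact hstart w hwN' (by omega) hwA
      · obtain ⟨p, hp, hpM, hlen⟩ := hsub _ w' hw'N (e' - e - 1) (by omega)
        have hpM' : ∀ z ∈ w' :: p, z ∈ U.filter (G.Adj (x (c + e'))) := by
          intro z hz
          rcases List.mem_cons.1 hz with h1 | h1
          · rw [h1]; exact hw'N
          · exact hpM z h1
        refine hclose (c + e') (e' - e) (by omega) (by omega) w (w' :: p) ?_ ?_ hwU hpM' hwA
        · refine ⟨?_, ?_⟩
          · rw [List.isChain_cons_cons]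
            exact ⟨hadj', hp.1⟩
          · rw [List.nodup_cons]
            exact ⟨fun hmem => hwN' (hpM' w hmem), hp.2⟩
        · simp only [List.length_cons, hlen]
          omega
  let Y : ℕ → Finset V := fun c => (range ℓ).biUnion (X c)
  have hYU : ∀ c, Y c ⊆ U := by
    intro c w hw
    obtain ⟨e, _, hwe⟩ := Finset.mem_biUnion.1 hw
    exact (Finset.mem_filter.1 (hXsub _ _ hwe)).1
  have hYi : ∀ c, Ind G (Y c) := by
    intro c w hw w' hw'
    obtain ⟨e, he, hwe⟩ := Finset.mem_biUnion.1 hw
    obtain ⟨e', he', hwe'⟩ := Finset.mem_biUnion.1 hw'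
    rw [Finset.mem_range] at he he'
    rcases lt_trichotomy e e' with h1 | h1 | h1
    · exact (cross c e e' h1 he' w hwe w' hwe').2
    · subst h1
      exact hJi _ w (Finset.mem_filter.1 hwe).1 w' (Finset.mem_filter.1 hwe').1
    · intro hadj'
      exact (cross c e' e h1 he w' hwe' w hwe).2 hadj'.symm
  have hYc : ∀ c, (Y c).card = ∑ e ∈ range ℓ, (X c e).card := by
    intro c
    apply Finset.card_biUnion
    intro e he e' he' hne
    rw [Finset.mem_coe, Finset.mem_range] at he he'
    rw [Function.onFun, Finset.disjoint_left]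
    intro w hwe hwe'
    rcases lt_or_gt_of_ne hne with h1 | h1
    · exact (cross c e e' h1 he' w hwe w hwe').1 rfl
    · exact (cross c e' e h1 he w hwe' w hwe).1 rfl
  -- double counting
  have hsum : ∑ i ∈ range ℓ, dg G U (x i) ≤ ∑ c ∈ range ℓ, (Y c).card := by
    have e1 : ∑ c ∈ range ℓ, (Y c).card
        = ∑ e ∈ range ℓ, ∑ c ∈ range ℓ, ((J (x c)).filter (fun w => e < h (x c) w)).card := by
      rw [Finset.sum_congr rfl (fun c _ => hYc c), Finset.sum_comm]
      apply Finset.sum_congr rfl
      intro e _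
      exact sum_range_shift
        (F := fun i => ((J (x i)).filter (fun w => e < h (x i) w)).card)
        (fun i => by simp only [hx.2.1]) e
    rw [e1, Finset.sum_comm]
    apply Finset.sum_le_sum
    intro c _
    have e2 : ∑ e ∈ range ℓ, ((J (x c)).filter (fun w => e < h (x c) w)).card
        = ∑ w ∈ J (x c), h (x c) w := by
      simp only [Finset.card_filter]
      rw [Finset.sum_comm]
      apply Finset.sum_congr rfl
      intro w hw
      have := hle c w hw
      rw [← Finset.card_filter]
      have : (range ℓ).filter (fun e => e < h (x c) w) = range (h (x c) w) := by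
        ext e
        simp only [Finset.mem_filter, Finset.mem_range]
        omega
      rw [this, Finset.card_range]
    rw [e2]
    unfold dg
    exact hcard (x c)
  obtain ⟨c, _, hc⟩ : ∃ c ∈ range ℓ, ∑ i ∈ range ℓ, dg G U (x i) ≤ ℓ * (Y c).card := by
    by_contra hcon
    push Not at hcon
    have : ∑ c ∈ range ℓ, ℓ * (Y c).card < ∑ c ∈ range ℓ, ∑ i ∈ range ℓ, dg G U (x i) :=
      Finset.sum_lt_sum_of_nonempty ⟨0, by simp only [mem_range]; omega⟩ hcon
    rw [← Finset.mul_sum, Finset.sum_const, Finset.card_range, smul_eq_mul] at this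
    have := lt_of_mul_lt_mul_left this (Nat.zero_le ℓ)
    omega
  exact ⟨Y c, hYU c, hYi c, hc⟩

end Vale.Agent.P048
end
end

section

section

/-!
Ore type closing, insertion of a vertex in a cycle, and the two stage lemma.
-/

namespace Vale.Agent.P048

open Finset

variable {V : Type*}

/-- from a cyclic list to a periodic sequence -/
theorem IsC.exists_isF (G : SimpleGraph V) (l : List V) (hl : IsC G l) (h : 1 ≤ l.length) :
    ∃ x : ℕ → V, IsF G l.length x ∧ ∀ v, v ∈ l ↔ ∃ i < l.length, x i = v := by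
  have hpos : 0 < l.length := h
  refine ⟨fun i => l[i % l.length]'(Nat.mod_lt _ hpos), ⟨?_, ?_, ?_⟩, ?_⟩
  · intro i
    have hm := Nat.mod_lt i hpos
    by_cases hcase : i % l.length + 1 < l.length
    · have e1 : (i + 1) % l.length = i % l.length + 1 := by
        rw [Nat.add_mod, Nat.mod_eq_of_lt (show 1 < l.length by omega),
          Nat.mod_eq_of_lt hcase]
      simp only [e1]
      exact List.isChain_iff_getElem.1 hl.1 _ hcase
    · have e0 : i % l.length = l.length - 1 := by omega
      have e1 : (i + 1) % l.length = 0 := by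
        have : i + 1 = l.length * (i / l.length) + l.length := by
          have := Nat.div_add_mod i l.length
          omega
        rw [this]
        simp
      simp only [e1, e0]
      apply hl.2.2
      · rw [List.getLast?_eq_getElem?, Option.mem_def, List.getElem?_eq_getElem (by omega)]
      · rw [List.head?_eq_getElem?, Option.mem_def, List.getElem?_eq_getElem (by omega)]
  · intro i
    simp only [Nat.add_mod_right]
  · intro i j hi hj hij
    simp only [Nat.mod_eq_of_lt hi, Nat.mod_eq_of_lt hj] at hij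
    exact (List.Nodup.getElem_inj_iff hl.2.1).1 hij
  · intro v
    rw [List.mem_iff_getElem]
    constructor
    · rintro ⟨i, hi, hiv⟩
      exact ⟨i, hi, by simpa only [Nat.mod_eq_of_lt hi] using hiv⟩
    · rintro ⟨i, hi, hiv⟩
      exact ⟨i, hi, by simpa only [Nat.mod_eq_of_lt hi] using hiv⟩

/-- a full arc is a cycle -/
theorem IsF.isC_arc {G : SimpleGraph V} {k : ℕ} {x : ℕ → V} (h : IsF G k x) (hk : 1 ≤ k)
    (i : ℕ) : IsC G (arc x i (k - 1)) := by
  refine ⟨arc_chain h _ _, arc_nodup h _ _ (by omega), ?_⟩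
  intro a ha b hb
  rw [arc_last, Option.mem_def, Option.some.injEq] at ha
  rw [arc_head, Option.mem_def, Option.some.injEq] at hb
  have := h.1 (i + (k - 1))
  rw [show i + (k - 1) + 1 = i + k by omega, h.2.1, ha, hb] at this
  exact this

theorem IsF.hasC (G : SimpleGraph V) (k : ℕ) (x : ℕ → V) (h : IsF G k x) (hk : 1 ≤ k) :
    HasC G k :=
  ⟨arc x 0 (k - 1), by rw [arc_length]; omega, h.isC_arc hk 0⟩

theorem dg_mono {G : SimpleGraph V} {s t : Finset V} (h : s ⊆ t) (u : V) :
    dg G s u ≤ dg G t u := by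
  classical
  unfold dg
  apply Finset.card_le_card
  exact Finset.filter_subset_filter _ h

theorem arc_append {x : ℕ → V} (i s t : ℕ) : arc x i s ++ arc x (i + s + 1) t =
    arc x i (s + t + 1) := by
  induction t with
  | zero =>
    rw [show s + 0 + 1 = s + 1 by omega, arc_succ]
    simp [arc]
  | succ t ih =>
    rw [arc_succ, ← List.append_assoc, ih, show s + (t + 1) + 1 = (s + t + 1) + 1 by omega,
      arc_succ x i (s + t + 1), show i + s + 1 + t + 1 = i + (s + t + 1) + 1 by omega]

end Vale.Agent.P048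
end
end

section

section

/-!
The long cycle lemma: an expanding set contains a large clique or a long cycle with many
closed vertices.
-/

namespace Vale.Agent.P048

open Finset

variable {V : Type*}

theorem gl_shift {G : SimpleGraph V} {k : ℕ} {x : ℕ → V} (h : IsF G k x) (a : ℕ) :
    IsF G k (fun i => x (i + a)) := by
  refine ⟨fun i => ?_, fun i => ?_, fun i j hi hj hij => ?_⟩
  · have := h.1 (i + a)
    rwa [show i + a + 1 = i + 1 + a by omega] at this
  · have := h.2.1 (i + a)
    rwa [show i + a + k = i + k + a by omega] at this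
  · simp only at hij
    rw [add_comm i a, add_comm j a] at hij
    exact h.inj hi hj hij

theorem gl_isF {G : SimpleGraph V} {N : ℕ} (hN : 2 ≤ N) (f : ℕ → V)
    (h1 : ∀ j, j + 1 < N → G.Adj (f j) (f (j + 1))) (h2 : G.Adj (f (N - 1)) (f 0))
    (h3 : ∀ i j, i < N → j < N → f i = f j → i = j) : IsF G N (fun i => f (i % N)) := by
  refine ⟨fun i => ?_, fun i => ?_, fun i j hi hj hij => ?_⟩
  · simp only
    have hm := Nat.mod_lt i (show 0 < N by omega)
    by_cases hcase : i % N + 1 < N
    · have e1 : (i + 1) % N = i % N + 1 := by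
        rw [Nat.add_mod, Nat.mod_eq_of_lt (show 1 < N by omega), Nat.mod_eq_of_lt hcase]
      rw [e1]
      exact h1 _ hcase
    · have e0 : i % N = N - 1 := by omega
      have e1 : (i + 1) % N = 0 := by
        have : i + 1 = N * (i / N) + N := by
          have := Nat.div_add_mod i N
          omega
        rw [this]
        simp
      rw [e1, e0]
      exact h2
  · simp only [Nat.add_mod_right]
  · simp only [Nat.mod_eq_of_lt hi, Nat.mod_eq_of_lt hj] at hij
    exact h3 i j hi hj hij

/-- choice of a longest path whose last vertex has a neighbour as early as possible -/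
theorem gl_path (G : SimpleGraph V) (U : Finset V) (κ : ℕ) (hκ : 1 ≤ κ)
    (hU : U.Nonempty) (hexp : Expd G U κ) :
    ∃ (l : List V) (s : ℕ) (y : V), IsP G l ∧ (∀ v ∈ l, v ∈ U) ∧ l.getLast? = some y ∧
      s + 1 < l.length ∧ (∀ h : s < l.length, G.Adj y l[s]) ∧
      ∀ i (hi : i + 1 < l.length), G.Adj y l[i] → s ≤ i ∧
        ∀ v ∈ U, G.Adj (l[i + 1]) v → ∃ j, ∃ hj : j < l.length, s ≤ j ∧ l[j] = v := by
  classical
  obtain ⟨b, hb⟩ := hU
  have hbound : ∀ l : List V, IsP G l → (∀ v ∈ l, v ∈ U) → l.length ≤ U.card := by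
    intro l hl hlm
    rw [← List.toFinset_card_of_nodup hl.2]
    apply card_le_card
    intro x hx
    exact hlm x (List.mem_toFinset.1 hx)
  -- the maximal length
  have hex : ∃ n : ℕ, ∃ l : List V, IsP G l ∧ (∀ v ∈ l, v ∈ U) ∧ l.length = n :=
    ⟨1, [b], ⟨by simp, by simp⟩, by simpa using hb, by simp⟩
  have hfin : ∀ n : ℕ, (∃ l : List V, IsP G l ∧ (∀ v ∈ l, v ∈ U) ∧ l.length = n) →
      n ≤ U.card := by
    rintro n ⟨l, h1, h3, rfl⟩
    exact hbound l h1 h3
  set n := Nat.findGreatest (fun n => ∃ l : List V, IsP G l ∧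
    (∀ v ∈ l, v ∈ U) ∧ l.length = n) U.card with hn
  obtain ⟨n0, hn0⟩ := hex
  have hspec : ∃ l : List V, IsP G l ∧ (∀ v ∈ l, v ∈ U) ∧
      l.length = n := Nat.findGreatest_spec (P := fun n => ∃ l : List V, IsP G l ∧
      (∀ v ∈ l, v ∈ U) ∧ l.length = n) (hfin n0 hn0) hn0
  have hmax : ∀ l : List V, IsP G l → (∀ v ∈ l, v ∈ U) →
      l.length ≤ n := fun l h1 h3 => Nat.le_findGreatest (hbound l h1 h3) ⟨l, h1, h3, rfl⟩
  have hn1 : 1 ≤ n := by
    have := hmax [b] ⟨by simp, by simp⟩ (by simpa using hb)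
    simpa only [ge_iff_le, List.length_cons, List.length_nil, zero_add] using this
  -- neighbours of the last vertex of a longest path
  have hend : ∀ l : List V, IsP G l → (∀ v ∈ l, v ∈ U) → l.length = n → ∀ y,
      l.getLast? = some y → ∀ v ∈ U, G.Adj y v → v ∈ l := by
    intro l' h1 h2 h3 y h4 v hv hyv
    by_contra hcon
    have h5 : IsP G (l' ++ [v]) := by
      refine h1.append ⟨by simp, by simp⟩ ?_ ?_
      · intro x hx hxv
        rw [List.mem_singleton] at hxv
        subst hxv
        exact hcon hx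
      · intro a ha c hc
        rw [h4, Option.mem_def, Option.some.injEq] at ha
        simp only [List.head?_cons, Option.mem_def, Option.some.injEq] at hc
        rw [← ha, ← hc]
        exact hyv
    have h6 := hmax (l' ++ [v]) h5 (by
      intro x hx
      rw [List.mem_append, List.mem_singleton] at hx
      rcases hx with hx | rfl
      · exact h2 x hx
      · exact hv)
    rw [List.length_append, h3, List.length_singleton] at h6
    omega
  let Q : ℕ → Prop := fun s => ∃ (l : List V) (y a : V), IsP G l ∧ (∀ v ∈ l, v ∈ U) ∧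
    l.length = n ∧ l.getLast? = some y ∧ l[s]? = some a ∧ G.Adj y a
  have hQ : ∃ s, Q s := by
    obtain ⟨l, hl, hlU, hln⟩ := hspec
    have hlne : l ≠ [] := by
      rintro rfl
      simp at hln
      omega
    obtain ⟨y, hy⟩ : ∃ y, l.getLast? = some y := by
      cases h : l.getLast? with
      | none => exact absurd (List.getLast?_eq_none_iff.1 h) hlne
      | some y => exact ⟨y, rfl⟩
    have hyU : y ∈ U := hlU y (mem_of_getLast? hy)
    have hdeg := hexp.deg hyU
    unfold dg at hdeg
    obtain ⟨v, hv⟩ := Finset.card_pos.1 (lt_of_lt_of_le hκ hdeg)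
    rw [mem_filter] at hv
    obtain ⟨j, hj, hjv⟩ := List.getElem_of_mem (hend l hl hlU hln y hy v hv.1 hv.2)
    exact ⟨j, l, y, v, hl, hlU, hln, hy, by rw [List.getElem?_eq_getElem hj, hjv], hv.2⟩
  set s := Nat.find hQ with hs
  obtain ⟨l, y, a, hl, hlU, hln, hy, ha, hya⟩ := Nat.find_spec hQ
  have hmin : ∀ j, Q j → s ≤ j := fun j hj => Nat.find_min' hQ hj
  rw [← hs] at ha
  have hsl : s < l.length := by
    by_contra hcon
    rw [List.getElem?_eq_none (by omega)] at ha
    exact absurd ha (by simp)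
  have hlast : l[l.length - 1]? = some y := by
    rw [← List.getLast?_eq_getElem?]
    exact hy
  have hs1 : s + 1 < l.length := by
    by_contra hcon
    have h1 : s = l.length - 1 := by omega
    rw [h1, hlast, Option.some.injEq] at ha
    rw [ha] at hya
    exact G.loopless.irrefl _ hya
  rw [List.getElem?_eq_getElem hsl, Option.some.injEq] at ha
  refine ⟨l, s, y, hl, hlU, hy, hs1, fun _ => by rw [ha]; exact hya, ?_⟩
  intro i hi hadj
  have hsi : s ≤ i := by
    apply hmin
    exact ⟨l, y, l[i], hl, hlU, hln, hy, List.getElem?_eq_getElem (by omega), hadj⟩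
  refine ⟨hsi, ?_⟩
  intro v hv hv2
  obtain ⟨h1, h2, h3, h4⟩ := hl.rotate hi hy hadj
  set l' := l.take (i + 1) ++ (l.drop (i + 1)).reverse with hl'
  have hl'U : ∀ w ∈ l', w ∈ U := fun w hw => hlU w (h4.mem_iff.1 hw)
  have hl'n : l'.length = n := by rw [h4.length_eq, hln]
  have hvl' := hend l' h1 hl'U hl'n _ h3 v hv hv2
  have hvl : v ∈ l := h4.mem_iff.1 hvl'
  obtain ⟨k, hk, hkv⟩ := List.getElem_of_mem hvl
  refine ⟨k, hk, ?_, hkv⟩
  by_contra hcon
  have hks : k < s := by omega
  have hQk : Q k := by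
    refine ⟨l', l[i + 1], v, h1, hl'U, hl'n, h3, ?_, hv2⟩
    rw [hl', List.getElem?_append_left (by rw [List.length_take]; omega),
      List.getElem?_take_of_lt (by omega), List.getElem?_eq_getElem hk, hkv]
  have := hmin k hQk
  omega

/-- the long cycle lemma, with a vertex of the clique which has no neighbours outside of it -/
theorem long_cycle_pend (G : SimpleGraph V) (U : Finset V) (κ : ℕ) (hκ : 1 ≤ κ)
    (hU : U.Nonempty) (hexp : Expd G U κ) :
    (∃ K ⊆ U, Clq G K ∧ κ + 1 ≤ K.card ∧ ∃ p ∈ K, ∀ v ∈ U, G.Adj p v → v ∈ K) ∨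
    ∃ N : ℕ, ∃ x : ℕ → V, 2 * κ + 1 ≤ N ∧ IsF G N x ∧ (∀ i, x i ∈ U) ∧
      ∀ t, G.Adj (x 0) (x t) → ∀ v ∈ U, G.Adj (x (t + 1)) v → ∃ i, x i = v := by
  classical
  obtain ⟨l, s, y, hl, hlU, hy, hs1, hys, hcl⟩ := gl_path G U κ hκ hU hexp
  have hlast : l[l.length - 1]'(by omega) = y := by
    rw [List.getLast?_eq_getElem?, List.getElem?_eq_getElem (by omega), Option.some.injEq] at hy
    exact hy
  have hys' := hys (by omega)
  set D : Finset V := (l.drop s).toFinset with hD
  have hmemD : ∀ v, v ∈ D ↔ ∃ j, ∃ hj : j < l.length, s ≤ j ∧ l[j] = v := by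
    intro v
    rw [hD, List.mem_toFinset, List.mem_iff_getElem]
    constructor
    · rintro ⟨j, hj, hjv⟩
      rw [List.length_drop] at hj
      rw [List.getElem_drop] at hjv
      exact ⟨s + j, by omega, by omega, hjv⟩
    · rintro ⟨j, hj, hsj, hjv⟩
      refine ⟨j - s, by rw [List.length_drop]; omega, ?_⟩
      rw [List.getElem_drop]
      rw [← hjv]
      congr 1
      omega
  have hDU : D ⊆ U := by
    intro v hv
    obtain ⟨j, hj, -, rfl⟩ := (hmemD v).1 hv
    exact hlU _ (List.getElem_mem hj)
  have hDcard : D.card = l.length - s := by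
    rw [hD, List.toFinset_card_of_nodup (hl.2.sublist (List.drop_sublist _ _)), List.length_drop]
  have hinj : ∀ i j (hi : i < l.length) (hj : j < l.length), l[i] = l[j] → i = j :=
    fun i j hi hj h => (List.Nodup.getElem_inj_iff hl.2).1 h
  -- closedness
  have hclD : ∀ i (hi : i + 1 < l.length), G.Adj y l[i] → ∀ v ∈ U, G.Adj (l[i + 1]) v → v ∈ D :=
    fun i hi h v hv h2 => (hmemD v).2 ((hcl i hi h).2 v hv h2)
  by_cases hbig : 2 * κ + 1 ≤ l.length - s
  · -- the cycle
    right
    set N := l.length - s with hN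
    let f : ℕ → V := fun j => if h : s + j < l.length then l[s + j] else y
    have hf : ∀ j (h : s + j < l.length), f j = l[s + j] := fun j h => by
      simp only [f, dif_pos h]
    have hfN : f (N - 1) = y := by
      rw [hf (N - 1) (by omega), ← hlast]
      congr 1
      omega
    have hF : IsF G N (fun i => f (i % N)) := by
      apply gl_isF (by omega)
      · intro j hj
        rw [hf j (by omega), hf (j + 1) (by omega)]
        exact List.isChain_iff_getElem.1 hl.1 _ (by omega)
      · rw [hfN, hf 0 (by omega)]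
        simpa using hys'
      · intro i j hi hj hij
        rw [hf i (by omega), hf j (by omega)] at hij
        have := hinj _ _ _ _ hij
        omega
    have hF2 : IsF G N (fun i => f ((i + (N - 1)) % N)) := gl_shift hF (N - 1)
    refine ⟨N, fun i => f ((i + (N - 1)) % N), hbig, hF2, ?_, ?_⟩
    · intro i
      change f ((i + (N - 1)) % N) ∈ U
      have hm := Nat.mod_lt (i + (N - 1)) (show 0 < N by omega)
      rw [hf _ (by omega)]
      exact hlU _ (List.getElem_mem _)
    · intro t ht v hv hv2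
      change G.Adj (f ((0 + (N - 1)) % N)) (f ((t + (N - 1)) % N)) at ht
      change G.Adj (f ((t + 1 + (N - 1)) % N)) v at hv2
      change ∃ i, f ((i + (N - 1)) % N) = v
      rw [zero_add, Nat.mod_eq_of_lt (show N - 1 < N by omega), hfN] at ht
      set t' := (t + (N - 1)) % N with ht'
      have hm : t' < N := Nat.mod_lt _ (by omega)
      have hne : t' ≠ N - 1 := by
        intro h
        rw [h, hfN] at ht
        exact G.loopless.irrefl _ ht
      have e1 : (t + 1 + (N - 1)) % N = t' + 1 := by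
        have h1 : t + 1 + (N - 1) = (t + (N - 1)) + 1 := by omega
        rw [h1, Nat.add_mod, ← ht', Nat.mod_eq_of_lt (show 1 < N by omega),
          Nat.mod_eq_of_lt (by omega)]
      rw [e1, hf (t' + 1) (by omega)] at hv2
      rw [hf t' (by omega)] at ht
      have h2 := hclD (s + t') (by omega) ht v hv hv2
      obtain ⟨j, hj, hsj, hjv⟩ := (hmemD v).1 h2
      refine ⟨j - s + 1, ?_⟩
      have h3 : j - s + 1 + (N - 1) = (j - s) + N := by omega
      rw [h3, Nat.add_mod_right, Nat.mod_eq_of_lt (by omega), hf _ (by omega), ← hjv]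
      congr 1
      omega
  · left
    -- the set of ends is a clique
    have hpair : ∀ i (hi : i + 1 < l.length) j (hj : j + 1 < l.length), G.Adj y l[i] →
        G.Adj y l[j] → l[i + 1] ≠ l[j + 1] → G.Adj l[i + 1] l[j + 1] := by
      intro i hi j hj h1 h2 hne
      by_contra hna
      have hJ := hexp {l[i + 1], l[j + 1]} (by
        intro v hv
        rw [mem_insert, mem_singleton] at hv
        rcases hv with rfl | rfl
        · exact hlU _ (List.getElem_mem _)
        · exact hlU _ (List.getElem_mem _)) (by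
        intro a ha b hb
        rw [mem_insert, mem_singleton] at ha hb
        rcases ha with rfl | rfl <;> rcases hb with rfl | rfl
        · exact G.loopless.irrefl _
        · exact hna
        · exact fun h => hna h.symm
        · exact G.loopless.irrefl _) ⟨_, mem_insert_self _ _⟩
      rw [card_pair hne] at hJ
      have hsub : nbc G U {l[i + 1], l[j + 1]} ⊆ D := by
        intro v hv
        rw [mem_nbc] at hv
        obtain ⟨hvU, hv⟩ := hv
        have hs1 := (hcl i hi h1).1
        have hs2 := (hcl j hj h2).1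
        rcases hv with hv | ⟨w, hw, hwv⟩
        · rw [mem_insert, mem_singleton] at hv
          rcases hv with rfl | rfl
          · exact (hmemD _).2 ⟨i + 1, hi, by omega, rfl⟩
          · exact (hmemD _).2 ⟨j + 1, hj, by omega, rfl⟩
        · rw [mem_insert, mem_singleton] at hw
          rcases hw with rfl | rfl
          · exact hclD i hi h1 v hvU hwv
          · exact hclD j hj h2 v hvU hwv
      have := card_le_card hsub
      omega
    -- all entries from s on are neighbours of the last vertex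
    have hall : ∀ d, ∀ (h : s + d + 1 < l.length), G.Adj y (l[s + d]'(by omega)) := by
      intro d
      induction d with
      | zero => intro h; exact hys'
      | succ d ih =>
        intro h
        have h1 := ih (by omega)
        -- y = l[L-1] is an end as well
        have hL : G.Adj y (l[l.length - 2]'(by omega)) := by
          have h2 := List.isChain_iff_getElem.1 hl.1 (l.length - 2) (by omega)
          have h3 : l[l.length - 2 + 1]'(by omega) = y := by
            rw [← hlast]
            congr 1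
            omega
          rw [h3] at h2
          exact h2.symm
        have h4 := hpair (l.length - 2) (by omega) (s + d) (by omega) hL h1 (by
          intro heq
          have := hinj _ _ _ _ heq
          omega)
        have h3 : l[l.length - 2 + 1]'(by omega) = y := by
          rw [← hlast]
          congr 1
          omega
        rw [h3] at h4
        exact h4
    have hall' : ∀ i, s ≤ i → ∀ h : i + 1 < l.length, G.Adj y (l[i]'(by omega)) := by
      intro i hi h
      have := hall (i - s) (by omega)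
      convert this using 2
      omega
    have hNv : ∀ i (hi : i + 1 < l.length), s ≤ i →
        κ + 1 ≤ (nbc G U {l[i + 1]}).card ∧ nbc G U {l[i + 1]} ⊆ D := by
      intro i hi hsi
      have h0 := hall' i hsi hi
      constructor
      · have := hexp {l[i + 1]} (by
          intro v hv
          rw [mem_singleton] at hv
          rw [hv]
          exact hlU _ (List.getElem_mem _)) (by
          intro a ha b hb
          rw [mem_singleton] at ha hb
          rw [ha, hb]
          exact G.loopless.irrefl _) (singleton_nonempty _)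
        rwa [card_singleton, mul_one] at this
      · intro v hv
        rw [mem_nbc] at hv
        obtain ⟨hvU, hv⟩ := hv
        rcases hv with hv | ⟨w, hw, hwv⟩
        · rw [mem_singleton] at hv
          rw [hv]
          exact (hmemD _).2 ⟨i + 1, hi, by omega, rfl⟩
        · rw [mem_singleton] at hw
          rw [hw] at hwv
          exact hclD i hi h0 v hvU hwv
    -- the entries after s form a clique
    have hclq : ∀ i j (hi : i < l.length) (hj : j < l.length), s < i → s < j → i ≠ j →
        G.Adj l[i] l[j] := by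
      intro i j hi hj hsi hsj hij
      have h1 := hall' (i - 1) (by omega) (by omega)
      have h2 := hall' (j - 1) (by omega) (by omega)
      have e1 : l[i - 1 + 1]'(by omega) = l[i] := by congr 1; omega
      have e2 : l[j - 1 + 1]'(by omega) = l[j] := by congr 1; omega
      have h3 := hpair (i - 1) (by omega) (j - 1) (by omega) h1 h2 (by
        rw [e1, e2]
        intro heq
        exact hij (hinj _ _ _ _ heq))
      rwa [e1, e2] at h3
    by_cases hDc : Clq G D
    · obtain ⟨h1, h2⟩ := hNv s hs1 le_rfl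
      refine ⟨D, hDU, hDc, h1.trans (card_le_card h2), l[s + 1],
        (hmemD _).2 ⟨s + 1, hs1, by omega, rfl⟩, ?_⟩
      intro v hv hadj
      exact hclD s hs1 hys' v hv hadj
    · -- the entry s is not adjacent to all others
      unfold Clq at hDc
      push Not at hDc
      obtain ⟨u, hu, v, hv, huv, hna⟩ := hDc
      obtain ⟨i, hi, hsi, rfl⟩ := (hmemD u).1 hu
      obtain ⟨j, hj, hsj, rfl⟩ := (hmemD v).1 hv
      have hij : i ≠ j := by
        rintro rfl
        exact huv rfl
      -- one of them is the entry s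
      obtain ⟨p, hp, hsp, hnp⟩ : ∃ p, ∃ hp : p < l.length, s < p ∧
          ¬ G.Adj (l[s]'(by omega)) l[p] := by
        by_cases h1 : s < i
        · by_cases h2 : s < j
          · exact absurd (hclq i j hi hj h1 h2 hij) hna
          · have : j = s := by omega
            subst this
            exact ⟨i, hi, h1, fun h => hna h.symm⟩
        · have : i = s := by omega
          subst this
          exact ⟨j, hj, by omega, hna⟩
      set E : Finset V := D.erase (l[s]'(by omega)) with hE
      obtain ⟨h1, h2⟩ := hNv (p - 1) (by omega) (by omega)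
      have e1 : l[p - 1 + 1]'(by omega) = l[p] := by congr 1; omega
      rw [e1] at h1 h2
      have hsub : nbc G U {l[p]} ⊆ E := by
        intro w hw
        rw [hE, mem_erase]
        refine ⟨?_, h2 hw⟩
        rintro rfl
        rw [mem_nbc] at hw
        rcases hw.2 with hw | ⟨w, hw, hwv⟩
        · rw [mem_singleton] at hw
          have := hinj _ _ _ _ hw
          omega
        · rw [mem_singleton] at hw
          rw [hw] at hwv
          exact hnp hwv.symm
      have hpU : l[p] ∈ U := hlU _ (List.getElem_mem _)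
      refine ⟨E, (erase_subset _ _).trans hDU, ?_, h1.trans (card_le_card hsub), l[p],
        hsub (mem_nbc.2 ⟨hpU, Or.inl (mem_singleton_self _)⟩), fun v hv hadj =>
        hsub (mem_nbc.2 ⟨hv, Or.inr ⟨_, mem_singleton_self _, hadj⟩⟩)⟩
      · intro a ha b hb hab
        rw [hE, mem_erase] at ha hb
        obtain ⟨i', hi', hsi', rfl⟩ := (hmemD a).1 ha.2
        obtain ⟨j', hj', hsj', rfl⟩ := (hmemD b).1 hb.2
        apply hclq
        · by_contra hcon
          have : i' = s := by omega
          subst this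
          exact ha.1 rfl
        · by_contra hcon
          have : j' = s := by omega
          subst this
          exact hb.1 rfl
        · rintro rfl
          exact hab rfl

theorem long_cycle (G : SimpleGraph V) (U : Finset V) (κ : ℕ) (hκ : 1 ≤ κ)
    (hU : U.Nonempty) (hexp : Expd G U κ) :
    (∃ K ⊆ U, Clq G K ∧ κ + 1 ≤ K.card) ∨
    ∃ N : ℕ, ∃ x : ℕ → V, 2 * κ + 1 ≤ N ∧ IsF G N x ∧ (∀ i, x i ∈ U) ∧
      ∀ t, G.Adj (x 0) (x t) → ∀ v ∈ U, G.Adj (x (t + 1)) v → ∃ i, x i = v := by
  rcases long_cycle_pend G U κ hκ hU hexp with ⟨K, h1, h2, h3, -⟩ | h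
  · exact Or.inl ⟨K, h1, h2, h3⟩
  · exact Or.inr h

end Vale.Agent.P048
end
end

section

section

/-!
The theta lemma: paths with prescribed length and differently coloured ends in a cycle with a
chord.
-/

namespace Vale.Agent.P048

open Finset

variable {V : Type*}

/-- a cycle as an integer indexed periodic sequence -/
def IsZ (G : SimpleGraph V) (N : ℕ) (X : ℤ → V) : Prop :=
  (∀ i, G.Adj (X i) (X (i + 1))) ∧ (∀ i, X (i + N) = X i) ∧
    ∀ i j : ℤ, i < j → j < i + N → X i ≠ X j

theorem IsF.toZ {G : SimpleGraph V} {N : ℕ} {x : ℕ → V} (h : IsF G N x) (hN : 0 < N) :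
    IsZ G N (fun i : ℤ => x (i % N).toNat) := by
  have hN' : (0 : ℤ) < N := by exact_mod_cast hN
  have hlt : ∀ i : ℤ, (i % N).toNat < N := fun i => by
    have h1 := Int.emod_lt_of_pos i hN'
    have h2 := Int.emod_nonneg i hN'.ne'
    omega
  refine ⟨fun i => ?_, fun i => ?_, fun i j hij hj hx => ?_⟩
  · have e : x ((i + 1) % N).toNat = x ((i % N).toNat + 1) := by
      have h2 := Int.emod_nonneg i hN'.ne'
      rw [← h.mod ((i % N).toNat + 1)]
      congr 1
      have h4 : (((i % N).toNat + 1 : ℕ) : ℤ) = i % N + 1 := by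
        rw [Nat.cast_add, Int.toNat_of_nonneg h2]
        rfl
      have h3 : (((i % N).toNat + 1 : ℕ) : ℤ) % N = (i + 1) % N := by
        rw [h4]
        simp only [Int.emod_add_emod]
      rw [← h3]
      omega
    dsimp only
    rw [e]
    exact h.1 _
  · dsimp only
    rw [Int.add_emod_right]
  · dsimp only at hx
    have h1 := h.2.2 _ _ (hlt i) (hlt j) hx
    have h2 := Int.emod_nonneg i hN'.ne'
    have h3 := Int.emod_nonneg j hN'.ne'
    have h4 : i % N = j % N := by omega
    have h5 : (N : ℤ) ∣ j - i := Int.ModEq.dvd h4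
    have h6 := Int.le_of_dvd (by linarith only [hij]) h5
    linarith only [hj, h6]

theorem IsZ.ne {G : SimpleGraph V} {N : ℕ} {X : ℤ → V} (h : IsZ G N X) {i j : ℤ} (hij : i ≠ j)
    (h1 : j < i + N) (h2 : i < j + N) : X i ≠ X j := by
  rcases lt_or_gt_of_ne hij with h3 | h3
  · exact h.2.2 i j h3 h1
  · exact (h.2.2 j i h3 h2).symm

/-- the arc `X a, X (a + e), ..., X (a + e p)` as a list -/
def zarc (X : ℤ → V) (a e : ℤ) (p : ℕ) : List V :=
  (List.range (p + 1)).map (fun s : ℕ => X (a + e * s))

theorem zarc_length (X : ℤ → V) (a e : ℤ) (p : ℕ) : (zarc X a e p).length = p + 1 := by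
  simp [zarc]

theorem zarc_head (X : ℤ → V) (a e : ℤ) (p : ℕ) : (zarc X a e p).head? = some (X a) := by
  simp [zarc, List.range_succ_eq_map]

theorem zarc_last (X : ℤ → V) (a e : ℤ) (p : ℕ) :
    (zarc X a e p).getLast? = some (X (a + e * p)) := by
  simp only [zarc, List.range_succ, List.map_append, List.map_cons, List.map_nil, List.getLast?_append, List.getLast?_singleton, List.getLast?_map, Option.some_or]

theorem zarc_succ (X : ℤ → V) (a e : ℤ) (p : ℕ) :
    zarc X a e (p + 1) = zarc X a e p ++ [X (a + e * (p + 1 : ℕ))] := by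
  simp only [zarc]
  rw [List.range_succ, List.map_append]
  simp

theorem mem_zarc {X : ℤ → V} {a e : ℤ} {p : ℕ} {v : V} :
    v ∈ zarc X a e p ↔ ∃ s ≤ p, X (a + e * (s : ℕ)) = v := by
  simp only [zarc, List.mem_map, List.mem_range, Order.lt_add_one_iff]

theorem zarc_isP {G : SimpleGraph V} {N : ℕ} {X : ℤ → V} (h : IsZ G N X) (a e : ℤ)
    (he : e = 1 ∨ e = -1) (p : ℕ) (hp : p < N) : IsP G (zarc X a e p) := by
  constructor
  · clear hp
    induction p with
    | zero => simp [zarc]
    | succ p ih =>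
      rw [zarc_succ, List.isChain_append]
      refine ⟨ih, by simp, ?_⟩
      intro u hu v hv
      rw [zarc_last] at hu
      simp only [Option.mem_def, Option.some.injEq] at hu
      simp only [List.head?_cons, Option.mem_def, Option.some.injEq] at hv
      rw [← hu, ← hv]
      rcases he with rfl | rfl
      · have := h.1 (a + 1 * (p : ℤ))
        convert! this using 2
        push_cast
        ring
      · have := (h.1 (a + -1 * ((p + 1 : ℕ) : ℤ))).symm
        convert! this using 2
        push_cast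
        ring
  · unfold zarc
    apply List.Nodup.map_on _ List.nodup_range
    intro s hs t ht hst
    rw [List.mem_range] at hs ht
    by_contra hne
    rcases he with rfl | rfl
    · exact h.ne (i := a + 1 * (s : ℤ)) (j := a + 1 * (t : ℤ)) (by omega) (by omega) (by omega) hst
    · exact h.ne (i := a + -1 * (s : ℤ)) (j := a + -1 * (t : ℤ)) (by omega) (by omega) (by omega)
        hst

theorem two_arcs {G : SimpleGraph V} {N : ℕ} {X : ℤ → V} (h : IsZ G N X) (a b e1 e2 : ℤ)
    (he1 : e1 = 1 ∨ e1 = -1) (he2 : e2 = 1 ∨ e2 = -1) (p q : ℕ) (hp : p < N) (hq : q < N)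
    (hadj : G.Adj (X (a + e1 * p)) (X b))
    (hdis : ∀ s ≤ p, ∀ t ≤ q, X (a + e1 * (s : ℕ)) ≠ X (b + e2 * (t : ℕ))) :
    ∃ l : List V, IsPath G (X a) (X (b + e2 * q)) l ∧ l.length = p + q + 2 ∧
      ∀ v ∈ l, ∃ i, X i = v := by
  refine ⟨zarc X a e1 p ++ zarc X b e2 q, ⟨?_, ?_, ?_⟩, ?_, ?_⟩
  · refine (zarc_isP h a e1 he1 p hp).append (zarc_isP h b e2 he2 q hq) ?_ ?_
    · intro v hv hv'
      obtain ⟨s, hs, rfl⟩ := mem_zarc.1 hv
      obtain ⟨t, ht, hst⟩ := mem_zarc.1 hv'
      exact hdis s hs t ht hst.symm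
    · intro u hu v hv
      rw [zarc_last, Option.mem_def, Option.some.injEq] at hu
      rw [zarc_head, Option.mem_def, Option.some.injEq] at hv
      rw [← hu, ← hv]
      exact hadj
  · rw [List.head?_append, zarc_head]
    rfl
  · rw [List.getLast?_append, zarc_last]
    rfl
  · rw [List.length_append, zarc_length, zarc_length]
    omega
  · intro v hv
    rcases List.mem_append.1 hv with hv | hv
    · obtain ⟨s, -, rfl⟩ := mem_zarc.1 hv
      exact ⟨_, rfl⟩
    · obtain ⟨s, -, rfl⟩ := mem_zarc.1 hv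
      exact ⟨_, rfl⟩

/-- a periodic statement holds everywhere if it holds on a full period -/
theorem cover_period (P : ℤ → Prop) (g : ℕ) (hg : 0 < g) (h1 : ∀ j, P j → P (j + g))
    (h2 : ∀ j, P (j + g) → P j) (lo : ℤ) (h : ∀ j, lo ≤ j → j < lo + g → P j) (j : ℤ) : P j := by
  have hg' : (0 : ℤ) < g := by exact_mod_cast hg
  have key : ∀ (n : ℕ) (i : ℤ), (P i → P (i + g * n)) ∧ (P i → P (i - g * n)) := by
    intro n
    induction n with
    | zero => intro i; simp
    | succ n ih =>
      intro i
      constructor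
      · intro hi
        have := h1 _ ((ih i).1 hi)
        convert! this using 1
        push_cast
        ring
      · intro hi
        apply h2
        have := (ih i).2 hi
        convert! this using 1
        push_cast
        ring
  have e := Int.emod_add_mul_ediv (j - lo) g
  have h3 := Int.emod_nonneg (j - lo) hg'.ne'
  have h4 := Int.emod_lt_of_pos (j - lo) hg'
  have h5 : P (lo + (j - lo) % g) := h _ (by linarith only [h3]) (by linarith only [h4])
  obtain ⟨n, hn⟩ := Int.eq_nat_or_neg ((j - lo) / g)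
  rcases hn with hn | hn
  · have := (key n _).1 h5
    rw [← hn] at this
    convert! this using 1
    linarith only [e]
  · have := (key n _).2 h5
    have e2 : (g : ℤ) * n = - (g * ((j - lo) / g)) := by rw [hn]; ring
    rw [e2] at this
    convert! this using 1
    linarith only [e]

/-- the periods of a function on the integers with a positive period -/
theorem exists_period {W : Type*} (d : ℤ → W) (N : ℕ) (hN : 0 < N) (hd : ∀ i, d (i + N) = d i) :
    ∃ g : ℕ, 0 < g ∧ (∀ m : ℤ, (g : ℤ) ∣ m → ∀ i, d (i + m) = d i) ∧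
      ∀ m : ℤ, (∀ i, d (i + m) = d i) → (g : ℤ) ∣ m := by
  let H : AddSubgroup ℤ :=
    { carrier := {m | ∀ i, d (i + m) = d i}
      zero_mem' := fun i => by rw [add_zero]
      add_mem' := fun {a b} ha hb i => by rw [← add_assoc, hb, ha]
      neg_mem' := fun {a} ha i => by
        have := ha (i + -a)
        rw [neg_add_cancel_right] at this
        exact this.symm }
  obtain ⟨g0, hg0⟩ := Int.subgroup_cyclic H
  have hmem : ∀ m : ℤ, m ∈ H ↔ (g0.natAbs : ℤ) ∣ m := by
    intro m
    rw [hg0, AddSubgroup.mem_closure_singleton, Int.natAbs_dvd]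
    constructor
    · rintro ⟨n, rfl⟩
      rw [smul_eq_mul]
      exact Dvd.intro_left n rfl
    · rintro ⟨n, rfl⟩
      exact ⟨n, by rw [smul_eq_mul, mul_comm]⟩
  have hNm : (N : ℤ) ∈ H := hd
  refine ⟨g0.natAbs, ?_, fun m hm => (hmem m).2 hm, fun m hm => (hmem m).1 hm⟩
  rw [hmem] at hNm
  by_contra h0
  have h1 : g0.natAbs = 0 := by omega
  rw [h1] at hNm
  simp only [CharP.cast_eq_zero, zero_dvd_iff, Int.natCast_eq_zero] at hNm
  omega

theorem theta_core {G : SimpleGraph V} {N r ℓ : ℕ} {X : ℤ → V} (hX : IsZ G N X) (hr : 2 ≤ r)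
    (hrN : r + 2 ≤ N) (hch : G.Adj (X 0) (X r)) {W : Type*} (c : V → W)
    (hc : ∃ i j, c (X i) ≠ c (X j)) (hℓ : 1 ≤ ℓ) (hℓN : ℓ < N)
    (hno : ∀ (a b : V) (l : List V), IsPath G a b l → l.length = ℓ + 1 →
      (∀ v ∈ l, ∃ i, X i = v) → c a = c b)
    (hcase : ℓ + r ≤ N ∨ (r < ℓ ∧ N < ℓ + r)) :
    (∀ i, c (X (i + 2)) = c (X i)) ∧ r % 2 = 1 ∧ N % 2 = 0 := by
  obtain ⟨g, hg, hper, hdiv⟩ := exists_period (fun i => c (X i)) N (by omega)
    (fun i => by rw [hX.2.1])
  have hgN : (g : ℤ) ∣ N := hdiv N (fun i => by rw [hX.2.1])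
  -- arcs
  have hgl : (g : ℤ) ∣ ℓ := by
    refine hdiv ℓ (fun i => ?_)
    have h1 := zarc_isP hX i 1 (Or.inl rfl) ℓ hℓN
    have h2 := hno (X i) (X (i + 1 * ℓ)) (zarc X i 1 ℓ) ⟨h1, zarc_head _ _ _ _,
      zarc_last _ _ _ _⟩ (zarc_length _ _ _ _) (fun v hv => by
        obtain ⟨s, -, hs⟩ := mem_zarc.1 hv
        exact ⟨_, hs⟩)
    rw [one_mul] at h2
    exact h2.symm
  have hg1 : ¬ (g : ℤ) ∣ 1 := by
    intro h1
    obtain ⟨i, j, hij⟩ := hc
    apply hij
    have := hper (j - i) (h1.trans (one_dvd _)) i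
    rw [add_sub_cancel] at this
    exact this.symm
  have hglN : g ≤ ℓ := Nat.le_of_dvd (by omega) (by exact_mod_cast hgl)
  -- the three types of paths
  have tA : ∀ j : ℤ, 0 ≤ j → j < ℓ → ℓ + r ≤ N → c (X (-j)) = c (X (r - 1 - j)) := by
    intro j h0 h1 h2
    obtain ⟨p, rfl⟩ := Int.eq_ofNat_of_zero_le h0
    obtain ⟨l, hl1, hl2, hl3⟩ := two_arcs hX (-(p : ℤ)) r 1 1 (Or.inl rfl) (Or.inl rfl) p
      (ℓ - 1 - p) (by omega) (by omega) (by
        have e : -(p : ℤ) + 1 * p = 0 := by ring
        rw [e]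
        exact hch) (fun s hs t ht => hX.ne (by omega) (by omega) (by omega))
    rw [hno _ _ l hl1 (by omega) hl3]
    have e : (r : ℤ) + 1 * ((ℓ - 1 - p : ℕ) : ℤ) = (r - 1 - p) + ℓ := by omega
    rw [e, hper ℓ hgl]
  have tB : ∀ j : ℤ, 0 ≤ j → j < r → j < ℓ → ℓ + r ≤ N + j → c (X j) = c (X (r - 1 - j)) := by
    intro j h0 h1 h2 h3
    obtain ⟨p, rfl⟩ := Int.eq_ofNat_of_zero_le h0
    obtain ⟨l, hl1, hl2, hl3⟩ := two_arcs hX (p : ℤ) r (-1) 1 (Or.inr rfl) (Or.inl rfl) p
      (ℓ - 1 - p) (by omega) (by omega) (by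
        have e : (p : ℤ) + -1 * p = 0 := by ring
        rw [e]
        exact hch) (fun s hs t ht => hX.ne (by omega) (by omega) (by omega))
    rw [hno _ _ l hl1 (by omega) hl3]
    have e : (r : ℤ) + 1 * ((ℓ - 1 - p : ℕ) : ℤ) = (r - 1 - p) + ℓ := by omega
    rw [e, hper ℓ hgl]
  have tC : ∀ j : ℤ, 0 ≤ j → j < ℓ → ℓ ≤ r + j → j + r < N → c (X (-j)) = c (X (r + 1 + j)) := by
    intro j h0 h1 h2 h3
    obtain ⟨p, rfl⟩ := Int.eq_ofNat_of_zero_le h0
    obtain ⟨l, hl1, hl2, hl3⟩ := two_arcs hX (-(p : ℤ)) r 1 (-1) (Or.inl rfl) (Or.inr rfl) p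
      (ℓ - 1 - p) (by omega) (by omega) (by
        have e : -(p : ℤ) + 1 * p = 0 := by ring
        rw [e]
        exact hch) (fun s hs t ht => hX.ne (by omega) (by (clear * - h3; omega)) (by omega))
    rw [hno _ _ l hl1 (by omega) hl3]
    have e : (r : ℤ) + 1 + p = ((r : ℤ) + -1 * ((ℓ - 1 - p : ℕ) : ℤ)) + ℓ := by omega
    rw [e, hper ℓ hgl]
  have hg2 : (∀ i, c (X (i + 2)) = c (X i)) → g = 2 := by
    intro h2
    have h3 := hdiv 2 h2
    have h4 : g ∣ 2 := by exact_mod_cast h3
    have h5 := (Nat.dvd_prime Nat.prime_two).1 h4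
    rcases h5 with h5 | h5
    · exfalso
      apply hg1
      rw [h5]
      norm_num
    · exact h5
  rcases hcase with hcase | ⟨hc1, hc2⟩
  · -- first case
    have hA : ∀ j : ℤ, c (X (-j)) = c (X (r - 1 - j)) := by
      refine cover_period _ g hg (fun j hj => ?_) (fun j hj => ?_) 0 (fun j h0 h1 => ?_)
      · have e1 : -(j + g) = -j + -(g : ℤ) := by ring
        have e2 : (r : ℤ) - 1 - (j + g) = (r - 1 - j) + -(g : ℤ) := by ring
        rw [e1, e2, hper _ (dvd_neg.2 (dvd_refl _)), hper _ (dvd_neg.2 (dvd_refl _))]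
        exact hj
      · have e1 : -(j + g) = -j + -(g : ℤ) := by ring
        have e2 : (r : ℤ) - 1 - (j + g) = (r - 1 - j) + -(g : ℤ) := by ring
        rw [e1, e2, hper _ (dvd_neg.2 (dvd_refl _)), hper _ (dvd_neg.2 (dvd_refl _))] at hj
        exact hj
      · exact tA j h0 (by omega) hcase
    have hgr : (g : ℤ) ∣ (r : ℤ) - 1 := by
      refine hdiv _ (fun i => ?_)
      have := hA (-i)
      rw [neg_neg] at this
      rw [this]
      congr 2
      ring
    have hgr' : g ≤ r - 1 := by
      have h1 : (g : ℤ) ≤ (r : ℤ) - 1 := Int.le_of_dvd (by omega) hgr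
      omega
    have hB : ∀ j : ℤ, c (X j) = c (X (r - 1 - j)) := by
      refine cover_period _ g hg (fun j hj => ?_) (fun j hj => ?_) 0 (fun j h0 h1 => ?_)
      · have e2 : (r : ℤ) - 1 - (j + g) = (r - 1 - j) + -(g : ℤ) := by ring
        rw [e2, hper _ (dvd_refl _), hper _ (dvd_neg.2 (dvd_refl _))]
        exact hj
      · have e2 : (r : ℤ) - 1 - (j + g) = (r - 1 - j) + -(g : ℤ) := by ring
        rw [e2, hper _ (dvd_refl _), hper _ (dvd_neg.2 (dvd_refl _))] at hj
        exact hj
      · exact tB j h0 (by omega) (by omega) (by omega)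
    have hC : ∀ j : ℤ, c (X (-j)) = c (X (r + 1 + j)) := by
      refine cover_period _ g hg (fun j hj => ?_) (fun j hj => ?_) (ℓ - g) (fun j h0 h1 => ?_)
      · have e1 : -(j + g) = -j + -(g : ℤ) := by ring
        have e2 : (r : ℤ) + 1 + (j + g) = (r + 1 + j) + (g : ℤ) := by ring
        rw [e1, e2, hper _ (dvd_refl _), hper _ (dvd_neg.2 (dvd_refl _))]
        exact hj
      · have e1 : -(j + g) = -j + -(g : ℤ) := by ring
        have e2 : (r : ℤ) + 1 + (j + g) = (r + 1 + j) + (g : ℤ) := by ring
        rw [e1, e2, hper _ (dvd_refl _), hper _ (dvd_neg.2 (dvd_refl _))] at hj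
        exact hj
      · exact tC j (by omega) (by omega) (by omega) (by omega)
    have h2 : ∀ i, c (X (i + 2)) = c (X i) := by
      intro i
      have a1 := hB i
      have a2 := hA i
      have a3 := hC i
      have e : (r : ℤ) + 1 + i = (i + 2) + (r - 1) := by ring
      rw [e, hper _ hgr] at a3
      rw [← a3, a2, ← a1]
    have hg' := hg2 h2
    subst hg'
    refine ⟨h2, ?_, ?_⟩
    · omega
    · omega
  · -- second case
    have hgNl : g ≤ N - ℓ := by
      have h1 : (g : ℤ) ∣ (N : ℤ) - ℓ := dvd_sub hgN hgl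
      have h2 := Int.le_of_dvd (by omega) h1
      omega
    have hB : ∀ j : ℤ, c (X j) = c (X (r - 1 - j)) := by
      refine cover_period _ g hg (fun j hj => ?_) (fun j hj => ?_) (r - g) (fun j h0 h1 => ?_)
      · have e2 : (r : ℤ) - 1 - (j + g) = (r - 1 - j) + -(g : ℤ) := by ring
        rw [e2, hper _ (dvd_refl _), hper _ (dvd_neg.2 (dvd_refl _))]
        exact hj
      · have e2 : (r : ℤ) - 1 - (j + g) = (r - 1 - j) + -(g : ℤ) := by ring
        rw [e2, hper _ (dvd_refl _), hper _ (dvd_neg.2 (dvd_refl _))] at hj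
        exact hj
      · exact tB j (by omega) (by omega) (by omega) (by omega)
    have hC : ∀ j : ℤ, c (X (-j)) = c (X (r + 1 + j)) := by
      refine cover_period _ g hg (fun j hj => ?_) (fun j hj => ?_) (N - r - g)
        (fun j h0 h1 => ?_)
      · have e1 : -(j + g) = -j + -(g : ℤ) := by ring
        have e2 : (r : ℤ) + 1 + (j + g) = (r + 1 + j) + (g : ℤ) := by ring
        rw [e1, e2, hper _ (dvd_refl _), hper _ (dvd_neg.2 (dvd_refl _))]
        exact hj
      · have e1 : -(j + g) = -j + -(g : ℤ) := by ring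
        have e2 : (r : ℤ) + 1 + (j + g) = (r + 1 + j) + (g : ℤ) := by ring
        rw [e1, e2, hper _ (dvd_refl _), hper _ (dvd_neg.2 (dvd_refl _))] at hj
        exact hj
      · exact tC j (by omega) (by omega) (by omega) (by omega)
    have h2 : ∀ i, c (X (i + 2)) = c (X i) := by
      intro i
      -- `j = i + 1 - r`
      have a1 := hB (-(i + 1 - r))
      have a2 := hC (i + 1 - r)
      have e1 : (r : ℤ) - 1 - -(i + 1 - r) = i := by ring
      have e2 : (r : ℤ) + 1 + (i + 1 - r) = i + 2 := by ring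
      rw [e1] at a1
      rw [e2] at a2
      rw [← a2, a1]
    have hg' := hg2 h2
    subst hg'
    refine ⟨h2, ?_, ?_⟩
    · by_contra hodd
      apply hg1
      refine hdiv 1 (fun i => ?_)
      have a1 := hB i
      -- `r - 1 - i` and `i + 1` have the same parity
      have a2 := hper ((r : ℤ) - 1 - i - (i + 1)) (by omega) (i + 1)
      rw [add_sub_cancel] at a2
      rw [a1, a2]
    · omega

theorem theta {G : SimpleGraph V} {N r ℓ : ℕ} {x : ℕ → V} (hx : IsF G N x) (hr : 2 ≤ r)
    (hrN : r + 2 ≤ N) (hch : G.Adj (x 0) (x r)) {W : Type*} (c : V → W)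
    (hc : ∃ i j, c (x i) ≠ c (x j)) (hℓ : 1 ≤ ℓ) (hℓN : ℓ < N) :
    (∃ a b : V, ∃ l : List V, IsPath G a b l ∧ l.length = ℓ + 1 ∧ (∀ v ∈ l, ∃ i, x i = v) ∧
      c a ≠ c b) ∨ ((∀ i, c (x (i + 2)) = c (x i)) ∧ r % 2 = 1) := by
  by_contra hcon
  push Not at hcon
  obtain ⟨hno, hcon2⟩ := hcon
  have hX := hx.toZ (by omega)
  have hXx : ∀ i : ℕ, x ((i : ℤ) % N).toNat = x i := by
    intro i
    have e : ((i : ℤ) % N).toNat = i % N := by
      have : ((i : ℤ) % N) = ((i % N : ℕ) : ℤ) := by push_cast; rfl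
      rw [this]
      rfl
    rw [e, hx.mod]
  have hno' : ∀ (a b : V) (l : List V), IsPath G a b l → l.length = ℓ + 1 →
      (∀ v ∈ l, ∃ i : ℤ, x (i % N).toNat = v) → c a = c b := by
    intro a b l h1 h2 h3
    refine hno a b l h1 h2 fun v hv => ?_
    obtain ⟨i, hi⟩ := h3 v hv
    exact ⟨_, hi⟩
  have hc' : ∃ i j : ℤ, c (x (i % N).toNat) ≠ c (x (j % N).toNat) := by
    obtain ⟨i, j, hij⟩ := hc
    exact ⟨i, j, by rwa [hXx, hXx]⟩
  have hch' : G.Adj (x ((0 : ℤ) % N).toNat) (x ((r : ℤ) % N).toNat) := by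
    rw [hXx]
    simpa using hch
  by_cases hcase : ℓ + r ≤ N ∨ (r < ℓ ∧ N < ℓ + r)
  · obtain ⟨h1, h2, h3⟩ := theta_core hX hr hrN hch' c hc' hℓ hℓN hno' hcase
    refine hcon2 (fun i => ?_) h2
    have := h1 i
    have e : (i : ℤ) + 2 = ((i + 2 : ℕ) : ℤ) := by push_cast; rfl
    rw [e, hXx, hXx] at this
    exact this
  · -- reversed cycle
    have hY : IsZ G N (fun i : ℤ => x ((-i) % N).toNat) := by
      refine ⟨fun i => ?_, fun i => ?_, fun i j h1 h2 => ?_⟩
      · have := (hX.1 (-(i + 1))).symm
        have e : -(i + 1) + 1 = -i := by ring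
        rw [e] at this
        exact this
      · have := hX.2.1 (-(i + N))
        have e : -(i + (N : ℤ)) + N = -i := by ring
        rw [e] at this
        exact this.symm
      · exact (hX.2.2 (-j) (-i) (by linarith only [h1]) (by linarith only [h2])).symm
    obtain ⟨h1, h2, h3⟩ := theta_core (r := N - r) hY (by omega) (by omega) (by
      have e : (-((N - r : ℕ) : ℤ)) % N = (r : ℤ) % N := by
        have e2 : (-((N - r : ℕ) : ℤ)) = (r : ℤ) + -N := by omega
        rw [e2, Int.add_neg_emod_self]
      rw [e, neg_zero]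
      exact hch') c (by
        obtain ⟨i, j, hij⟩ := hc'
        exact ⟨-i, -j, by rwa [neg_neg, neg_neg]⟩) hℓ hℓN (by
        intro a b l h1 h2 h3
        refine hno' a b l h1 h2 fun v hv => ?_
        obtain ⟨i, hi⟩ := h3 v hv
        exact ⟨_, hi⟩) (by omega)
    refine hcon2 (fun i => ?_) (by omega)
    have := h1 (-((i : ℤ) + 2))
    have e : -(-((i : ℤ) + 2) + 2) = (i : ℤ) := by ring
    have e' : -(-((i : ℤ) + 2)) = ((i + 2 : ℕ) : ℤ) := by push_cast; ring
    rw [e, e', hXx, hXx] at this
    exact this.symm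

end Vale.Agent.P048
end
end

section

section

/-!
Ears of the modified breadth first search; the levels are light.
-/

namespace Vale.Agent.P048

open Finset

variable {V : Type*}

theorem Ear.zero (G : SimpleGraph V) (r : V) (U : Finset V) (hU : ∀ w ∈ U, G.Adj r w) :
    Ear G {r} U 0 := by
  intro D hD _
  exact Or.inl ⟨r, Finset.mem_singleton_self r, fun w hw => hU w (hD hw)⟩

theorem Ear.step [DecidableEq V] {G : SimpleGraph V} {R U I U' : Finset V} {h : ℕ}
    (hE : Ear G R U h) (hRU : Disjoint R U) (hI : I ⊆ U)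
    (hpar : ∀ w ∈ U', ∃ i ∈ I, G.Adj w i) : Ear G (R ∪ I) U' (h + 1) := by
  classical
  intro D hD hDne
  have hpar' : ∀ w : V, ∃ i : V, w ∈ U' → i ∈ I ∧ G.Adj w i := by
    intro w
    by_cases hw : w ∈ U'
    · obtain ⟨i, hi, hi2⟩ := hpar w hw
      exact ⟨i, fun _ => ⟨hi, hi2⟩⟩
    · exact ⟨w, fun h => absurd h hw⟩
  choose par hp using hpar'
  have hpI : ∀ w ∈ D, par w ∈ I := fun w hw => (hp w (hD hw)).1
  have hpA : ∀ w ∈ D, G.Adj w (par w) := fun w hw => (hp w (hD hw)).2
  have hpU : ∀ w ∈ D, par w ∈ U := fun w hw => hI (hpI w hw)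
  have hdis : ∀ z ∈ R, ∀ w ∈ D, par w ≠ z := by
    intro z hz w hw h
    rw [Finset.disjoint_left] at hRU
    exact hRU hz (h ▸ hpU w hw)
  obtain ⟨w0, hw0⟩ := hDne
  by_cases hone : ∀ w ∈ D, par w = par w0
  · left
    refine ⟨par w0, Finset.mem_union_right _ (hpI w0 hw0), fun w hw => ?_⟩
    rw [← hone w hw]
    exact (hpA w hw).symm
  · push Not at hone
    obtain ⟨w1, hw1, hw10⟩ := hone
    right
    rcases hE (D.image par) (by
      intro v hv
      obtain ⟨w, hw, rfl⟩ := Finset.mem_image.1 hv
      exact hpU w hw) ⟨par w0, Finset.mem_image_of_mem _ hw0⟩ with ⟨z, hz, hzA⟩ | ⟨j, hj2, hjh, c, hc, hcY⟩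
    · refine ⟨2, le_rfl, by omega, par, ⟨w1, hw1, w0, hw0, hw10⟩, ?_⟩
      intro w hw w' hw' hne
      have h1 := hzA _ (Finset.mem_image_of_mem par hw)
      have h2 := hzA _ (Finset.mem_image_of_mem par hw')
      refine ⟨par w, par w', [par w, z, par w'], ⟨⟨?_, ?_⟩, ?_, ?_⟩, ?_, ?_, hpA w hw,
        (hpA w' hw').symm⟩
      · simp [h1.symm, h2]
      · simp [hdis z hz w hw, (hdis z hz w' hw').symm, hne]
      · simp
      · simp
      · simp only [List.length_cons, List.length_nil, zero_add, Nat.reduceAdd, Nat.reduceMul, Nat.add_one_sub_one]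
      · intro v hv
        simp only [List.mem_cons, List.not_mem_nil, or_false] at hv
        rcases hv with rfl | rfl | rfl
        · exact Finset.mem_union_right _ (hpI w hw)
        · exact Finset.mem_union_left _ hz
        · exact Finset.mem_union_right _ (hpI w' hw')
    · refine ⟨j + 1, by omega, by omega, fun w => c (par w), ?_, ?_⟩
      · obtain ⟨v, hv, v', hv', hvv⟩ := hc
        obtain ⟨w, hw, rfl⟩ := Finset.mem_image.1 hv
        obtain ⟨w', hw', rfl⟩ := Finset.mem_image.1 hv'
        exact ⟨w, hw, w', hw', hvv⟩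
      · intro w hw w' hw' hne
        obtain ⟨a, b, Y, hY, hYl, hYR, hwa, hbw⟩ := hcY _ (Finset.mem_image_of_mem par hw) _
          (Finset.mem_image_of_mem par hw') hne
        have hne' : par w ≠ par w' := fun h => hne (congrArg c h)
        have hYne : Y ≠ [] := by
          intro h0
          rw [h0] at hYl
          simp only [List.length_nil] at hYl
          omega
        refine ⟨par w, par w', par w :: (Y ++ [par w']), ⟨⟨?_, ?_⟩, ?_, ?_⟩, ?_, ?_, hpA w hw,
          (hpA w' hw').symm⟩
        · rw [List.isChain_cons, List.isChain_append]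
          refine ⟨?_, hY.1.1, by simp, ?_⟩
          · intro y hy
            rw [List.head?_append, hY.2.1, Option.some_or, Option.mem_def,
              Option.some.injEq] at hy
            rw [← hy]
            exact hwa
          · intro y hy z hz
            rw [hY.2.2, Option.mem_def, Option.some.injEq] at hy
            simp only [List.head?_cons, Option.mem_def, Option.some.injEq] at hz
            rw [← hy, ← hz]
            exact hbw
        · rw [List.nodup_cons, List.nodup_append']
          refine ⟨?_, hY.1.2, by simp, ?_⟩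
          · rw [List.mem_append]
            rintro (h1 | h1)
            · exact hdis _ (hYR _ h1) w hw rfl
            · exact hne' (by simpa using h1)
          · intro v hv hv2
            rw [List.mem_singleton] at hv2
            exact hdis _ (hYR _ hv) w' hw' hv2.symm
        · simp
        · rw [List.getLast?_cons, List.getLast?_append_of_ne_nil _ (by simp)]
          simp
        · simp only [List.length_cons, List.length_append, List.length_nil, hYl]
          omega
        · intro v hv
          simp only [List.mem_cons, List.mem_append, List.not_mem_nil, or_false] at hv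
          rcases hv with rfl | hv | rfl
          · exact Finset.mem_union_right _ (hpI w hw)
          · exact Finset.mem_union_left _ (hYR _ hv)
          · exact Finset.mem_union_right _ (hpI w' hw')


/-- rotation of the starting point -/
theorem IsF.shift {G : SimpleGraph V} {N : ℕ} {x : ℕ → V} (hx : IsF G N x) (i : ℕ) :
    IsF G N (fun t => x (i + t)) := by
  refine ⟨fun t => hx.1 _, fun t => ?_, fun s t hs ht hst => ?_⟩
  · show x (i + (t + N)) = x (i + t)
    rw [← Nat.add_assoc]
    exact hx.2.1 _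
  · exact hx.inj hs ht hst

/-- a path on the cycle and an ear through `R` close to a cycle -/
theorem ear_close {G : SimpleGraph V} {R U : Finset V} (hRU : Disjoint R U) {a b a' b' : V}
    {l Y : List V} (hl : IsPath G a b l) (hlU : ∀ v ∈ l, v ∈ U) (hY : IsPath G a' b' Y)
    (hYR : ∀ v ∈ Y, v ∈ R) (h1 : G.Adj a a') (h2 : G.Adj b' b) :
    HasC G (l.length + Y.length) := by
  rw [Finset.disjoint_left] at hRU
  have hlne : l ≠ [] := by
    intro h0
    have := hl.2.1
    rw [h0] at this
    simp at this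
  refine ⟨Y.reverse ++ l, by simp [Nat.add_comm], ?_, ?_, ?_⟩
  · rw [List.isChain_append, List.isChain_reverse]
    refine ⟨(hY.1.1).imp (fun _ _ h => h.symm), hl.1.1, ?_⟩
    intro u hu v hv
    rw [List.getLast?_reverse, hY.2.1, Option.mem_def, Option.some.injEq] at hu
    rw [hl.2.1, Option.mem_def, Option.some.injEq] at hv
    rw [← hu, ← hv]
    exact h1.symm
  · rw [List.nodup_append']
    refine ⟨List.nodup_reverse.2 hY.1.2, hl.1.2, ?_⟩
    intro v hv hv2
    exact hRU (hYR v (List.mem_reverse.1 hv)) (hlU v hv2)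
  · intro u hu v hv
    rw [List.getLast?_append_of_ne_nil _ hlne, hl.2.2, Option.mem_def, Option.some.injEq] at hu
    rw [List.head?_append, List.head?_reverse, hY.2.2, Option.some_or, Option.mem_def,
      Option.some.injEq] at hv
    rw [← hu, ← hv]
    exact h2.symm

theorem ear_light (G : SimpleGraph V) (R U : Finset V) (h M : ℕ) (hM : 4 ≤ M)
    (hE : Ear G R U h) (hRU : Disjoint R U) (hh : 2 * (h + 1) ≤ M) (hno : ¬ HasC G (M + 1))
    (H : Finset V) (hHU : H ⊆ U) (hHne : H.Nonempty) (hexp : Expd G H (M / 2 + 1))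
    (hcl : ∀ K ⊆ H, Clq G K → K.card ≤ M / 2 + 1) (hal : AlLe G H M) : False := by
  classical
  rcases long_cycle G H (M / 2 + 1) (by omega) hHne hexp with ⟨K, hK, hKc, hKk⟩ |
    ⟨N, x, hN, hx, hxH, hclos⟩
  · have := hcl K hK hKc
    omega
  have hNpos : 0 < N := by omega
  have hdisj := Finset.disjoint_left.1 hRU
  -- the positions
  have hpos : ∀ i, x i = x (i % N) := fun i => (hx.mod i).symm
  set D : Finset V := (Finset.range N).image x with hD
  have hDmem : ∀ i, x i ∈ D := fun i => by
    rw [hpos i]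
    exact Finset.mem_image_of_mem _ (Finset.mem_range.2 (Nat.mod_lt _ hNpos))
  have hDH : D ⊆ H := by
    intro v hv
    obtain ⟨i, _, rfl⟩ := Finset.mem_image.1 hv
    exact hxH i
  rcases hE D (hDH.trans hHU) ⟨x 0, hDmem 0⟩ with ⟨z, hz, hzA⟩ | ⟨j, hj2, hjh, c, hc, hcY⟩
  · -- all on one vertex
    apply hno
    have := ear_close (G := G) (R := R) (U := U) hRU (a := x 0) (b := x (0 + (M - 1)))
      (a' := z) (b' := z) (l := arc x 0 (M - 1)) (Y := [z])
      ⟨⟨arc_chain hx _ _, arc_nodup hx _ _ (by omega)⟩, arc_head _ _ _, arc_last _ _ _⟩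
      (by
        intro v hv
        obtain ⟨r, _, hr⟩ := mem_arc.1 hv
        rw [← hr]
        exact hHU (hxH _))
      ⟨⟨by simp, by simp⟩, by simp, by simp⟩ (by simpa using hz) (hzA _ (hDmem _)).symm
      (hzA _ (hDmem _))
    rw [arc_length] at this
    simpa only [show M - 1 + 1 = M by omega, List.length_cons, List.length_nil, zero_add] using this
  · -- a colouring
    have hcx : ∃ i i', c (x i) ≠ c (x i') := by
      obtain ⟨w, hw, w', hw', hne⟩ := hc
      obtain ⟨i, _, rfl⟩ := Finset.mem_image.1 hw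
      obtain ⟨i', _, rfl⟩ := Finset.mem_image.1 hw'
      exact ⟨i, i', hne⟩
    obtain ⟨ℓ, hℓ⟩ : ∃ ℓ, ℓ + 2 * j = M + 1 := ⟨M + 1 - 2 * j, by (clear * - hh hjh; omega)⟩
    -- no path with different end colours
    have hnopath : ∀ (a b : V) (l : List V), IsPath G a b l → l.length = ℓ + 1 →
        (∀ v ∈ l, v ∈ D) → c a = c b := by
      intro a b l hl hll hlD
      by_contra hab
      have haD : a ∈ D := hlD a (List.mem_of_head? hl.2.1)
      have hbD : b ∈ D := hlD b (List.mem_of_getLast? hl.2.2)
      obtain ⟨a', b', Y, hY, hYl, hYR, h1, h2⟩ := hcY a haD b hbD hab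
      apply hno
      have := ear_close hRU hl (fun v hv => hHU (hDH (hlD v hv))) hY hYR h1 h2
      rw [hll, hYl] at this
      rwa [show ℓ + 1 + (2 * j - 1) = M + 1 by (clear * - hj2 hℓ; omega)] at this
    -- chords
    have hchord : ∀ i r, 2 ≤ r → r + 2 ≤ N → G.Adj (x i) (x (i + r)) →
        (∀ t, c (x (t + 2)) = c (x t)) ∧ r % 2 = 1 := by
      intro i r hr hrN hch
      rcases theta (hx.shift i) hr hrN (by simpa using hch) c (by
        obtain ⟨s, t, hst⟩ := hcx
        refine ⟨s + (N - 1) * i, t + (N - 1) * i, ?_⟩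
        have key : ∀ s, x (i + (s + (N - 1) * i)) = x s := by
          intro s
          rw [show i + (s + (N - 1) * i) = s + N * i by
            obtain ⟨n, rfl⟩ : ∃ n, N = n + 1 := ⟨N - 1, by omega⟩
            simp only [Nat.add_sub_cancel]
            ring]
          rw [hpos (s + N * i), Nat.add_mul_mod_self_left, ← hpos]
        rw [key, key]
        exact hst) (by omega : 1 ≤ ℓ) (by omega) with ⟨a, b, l, hl, hll, hlx, hne⟩ | ⟨h1, h2⟩
      · exfalso
        apply hne
        apply hnopath a b l hl hll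
        intro v hv
        obtain ⟨t, rfl⟩ := hlx v hv
        exact hDmem _
      · refine ⟨fun t => ?_, h2⟩
        have key : ∀ s, x (i + (s + (N - 1) * i)) = x s := by
          intro s
          rw [show i + (s + (N - 1) * i) = s + N * i by
            obtain ⟨n, rfl⟩ : ∃ n, N = n + 1 := ⟨N - 1, by omega⟩
            simp only [Nat.add_sub_cancel]
            ring]
          rw [hpos (s + N * i), Nat.add_mul_mod_self_left, ← hpos]
        have h3 := h1 (t + (N - 1) * i)
        rw [show t + (N - 1) * i + 2 = (t + 2) + (N - 1) * i by ring, key, key] at h3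
        exact h3
    -- the neighbours of `x 0`
    set T : Finset ℕ := (Finset.range N).filter (fun t => G.Adj (x 0) (x t)) with hT
    have hTmem : ∀ t, t ∈ T ↔ t < N ∧ G.Adj (x 0) (x t) := by
      intro t
      rw [hT, Finset.mem_filter, Finset.mem_range]
    have hlast : G.Adj (x 0) (x (N - 1)) := by
      have h1 := hx.1 (N - 1)
      rw [show N - 1 + 1 = 0 + N by (clear * - hNpos; omega), hx.2.1] at h1
      exact h1.symm
    have hN0 : ∀ v ∈ H, G.Adj (x 0) v → ∃ i, x i = v := by
      intro v hv hadj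
      apply hclos (N - 1) hlast v hv
      rw [show N - 1 + 1 = 0 + N by omega, hx.2.1]
      exact hadj
    have hTcard : M / 2 + 1 ≤ T.card := by
      have h1 := hexp.deg (hxH 0)
      have h2 : dg G H (x 0) ≤ T.card := by
        unfold dg
        calc _ ≤ (T.image x).card := by
              apply Finset.card_le_card
              intro v hv
              simp only [Finset.mem_filter] at hv
              obtain ⟨i, hi⟩ := hN0 v hv.1 hv.2
              rw [Finset.mem_image]
              refine ⟨i % N, ?_, by rw [← hpos, hi]⟩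
              rw [hTmem]
              refine ⟨Nat.mod_lt _ hNpos, ?_⟩
              rw [← hpos, hi]
              exact hv.2
          _ ≤ T.card := Finset.card_image_le
      omega
    -- a chord at `x 0`
    obtain ⟨r, hrT⟩ : ∃ r, r ∈ T \ {1, N - 1} := by
      have h1 : ({1, N - 1} : Finset ℕ).card ≤ 2 := Finset.card_le_two
      have h2 := Finset.le_card_sdiff ({1, N - 1} : Finset ℕ) T
      apply Finset.card_pos.1
      omega
    rw [Finset.mem_sdiff, hTmem] at hrT
    have hr0 : r ≠ 0 := by
      rintro rfl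
      exact G.loopless.irrefl _ hrT.1.2
    have hr1 : r ≠ 1 ∧ r ≠ N - 1 := by
      have := hrT.2
      simp only [Finset.mem_insert, Finset.mem_singleton, not_or] at this
      exact this
    obtain ⟨hper2, _⟩ := hchord 0 r (by (clear * - hNpos hrT hr0 hr1; omega)) (by omega) (by simpa using hrT.1.2)
    have hperk : ∀ k t, c (x (t + 2 * k)) = c (x t) := by
      intro k
      induction k with
      | zero => intro t; rfl
      | succ k ih =>
        intro t
        rw [show t + 2 * (k + 1) = (t + 2 * k) + 2 by ring, hper2, ih]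
    -- `N` is even
    have hNe : N % 2 = 0 := by
      by_contra hodd
      obtain ⟨n, hn⟩ : ∃ n, N + 1 = 2 * n := ⟨(N + 1) / 2, by omega⟩
      have hstep : ∀ t, c (x (t + 1)) = c (x t) := by
        intro t
        rw [← hx.2.1 (t + 1), show t + 1 + N = t + 2 * n by omega, hperk]
      have hconst : ∀ t, c (x t) = c (x 0) := by
        intro t
        induction t with
        | zero => rfl
        | succ t ih => rw [hstep, ih]
      obtain ⟨s, t, hst⟩ := hcx
      exact hst (by rw [hconst s, hconst t])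
    -- all chords are odd
    have hodd : ∀ i s, s < N → G.Adj (x i) (x (i + s)) → s % 2 = 1 := by
      intro i s hs hadj
      rcases Nat.lt_or_ge s 2 with h2 | h2
      · have : s ≠ 0 := by
          rintro rfl
          exact G.loopless.irrefl _ hadj
        omega
      · rcases Nat.lt_or_ge N (s + 2) with h3 | h3
        · omega
        · exact (hchord i s h2 h3 hadj).2
    have hpar : ∀ p q, p < N → q < N → G.Adj (x p) (x q) → p % 2 ≠ q % 2 := by
      intro p q hp hq hadj
      rcases Nat.lt_or_ge p q with h1 | h1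
      · have := hodd p (q - p) (by omega) (by rwa [show p + (q - p) = q by (clear * - h1; omega)])
        omega
      · have := hodd q (p - q) (by omega) (by rw [show q + (p - q) = p by (clear * - h1; omega)]; exact hadj.symm)
        (clear * - h1 this; omega)
    have hTodd : ∀ t ∈ T, t % 2 = 1 := by
      intro t ht
      rw [hTmem] at ht
      have := hpar 0 t hNpos ht.1 ht.2
      omega
    -- the shifted neighbours
    set E : Finset V := T.image (fun t => x (t + 1)) with hEdef
    have hEpos : ∀ v ∈ E, ∃ p, p < N ∧ p % 2 = 0 ∧ x p = v ∧ ∃ t ∈ T, x (t + 1) = v := by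
      intro v hv
      obtain ⟨t, ht, rfl⟩ := Finset.mem_image.1 hv
      have h1 := hTodd t ht
      have h2 := (hTmem t).1 ht
      refine ⟨(t + 1) % N, Nat.mod_lt _ hNpos, ?_, (hpos _).symm, t, ht, rfl⟩
      rcases Nat.lt_or_ge (t + 1) N with h3 | h3
      · rw [Nat.mod_eq_of_lt h3]
        omega
      · have h4 : t + 1 = N := by omega
        rw [h4, Nat.mod_self]
    have hEcard : E.card = T.card := by
      apply Finset.card_image_of_injOn
      intro s hs t ht hst
      have hs' := (hTmem s).1 hs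
      have ht' := (hTmem t).1 ht
      have := hx.inj (i := 1) hs'.1 ht'.1 (by
        simp only at hst
        rw [Nat.add_comm 1 s, Nat.add_comm 1 t]
        exact hst)
      exact this
    have hEH : E ⊆ H := by
      intro v hv
      obtain ⟨t, _, rfl⟩ := Finset.mem_image.1 hv
      exact hxH _
    have hEind : Ind G E := by
      intro a ha b hb hab
      obtain ⟨p, hp, hp2, rfl, _⟩ := hEpos a ha
      obtain ⟨q, hq, hq2, rfl, _⟩ := hEpos b hb
      exact hpar p q hp hq hab (by rw [hp2, hq2])
    have hEne : E.Nonempty := by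
      rw [← Finset.card_pos, hEcard]
      omega
    have hbig := hexp E hEH hEind hEne
    -- the odd vertices
    set O : Finset V := nbc G H E \ E with hO
    have hOpos : ∀ v ∈ O, ∃ q, q < N ∧ q % 2 = 1 ∧ x q = v := by
      intro v hv
      rw [hO, Finset.mem_sdiff, mem_nbc] at hv
      rcases hv.1.2 with h1 | ⟨e, he, hev⟩
      · exact absurd h1 hv.2
      obtain ⟨p, hp, hp2, hpe, t, ht, hte⟩ := hEpos e he
      obtain ⟨i, hi⟩ := hclos t ((hTmem t).1 ht).2 v hv.1.1 (by rw [hte]; exact hev)
      refine ⟨i % N, Nat.mod_lt _ hNpos, ?_, by rw [← hpos, hi]⟩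
      have := hpar p (i % N) hp (Nat.mod_lt _ hNpos) (by
        rw [hpe, ← hpos, hi]
        exact hev)
      omega
    have hOind : Ind G O := by
      intro a ha b hb hab
      obtain ⟨p, hp, hp2, rfl⟩ := hOpos a ha
      obtain ⟨q, hq, hq2, rfl⟩ := hOpos b hb
      exact hpar p q hp hq hab (by rw [hp2, hq2])
    have hOcard := hal O (Finset.sdiff_subset.trans (nbc_subset _ _ _)) hOind
    have h3 : (nbc G H E).card ≤ O.card + E.card := by
      rw [hO]
      have := Finset.le_card_sdiff E (nbc G H E)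
      omega
    have h4 : M / 2 * (M / 2 + 1) ≤ M / 2 * E.card := by
      apply Nat.mul_le_mul_left
      rw [hEcard]
      exact hTcard
    have h5 : (M / 2 + 1) * E.card = M / 2 * E.card + E.card := by ring
    obtain ⟨p, hp⟩ : ∃ p, M / 2 = p + 2 := ⟨M / 2 - 2, by omega⟩
    have h6 : M ≤ 2 * p + 5 := by (clear * - hℓ hp; omega)
    rw [hp] at h4 h5 hbig
    have h7 : 2 * p + 6 ≤ (p + 2) * (p + 2 + 1) := by nlinarith only [h6]
    omega

end Vale.Agent.P048
end
end

section

section

/-!
Cycle surgery: the crossing extension move, shrinking through a clique, walks to paths.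
-/

namespace Vale.Agent.P048

open Finset

variable {V : Type*}

/-- a clique contains all short cycles -/
theorem clique_hasC (G : SimpleGraph V) (K : Finset V) (hK : Clq G K) (n : ℕ) (hn : 2 ≤ n)
    (hnK : n ≤ K.card) : HasC G n := by
  classical
  obtain ⟨K', hK', hc⟩ := Finset.exists_subset_card_eq (s := K) (n := n) hnK
  refine ⟨K'.toList, by rw [Finset.length_toList, hc], ?_, Finset.nodup_toList _, ?_⟩
  · have hnd := Finset.nodup_toList K'
    have hall : ∀ v ∈ K'.toList, v ∈ K := fun v hv => hK' (Finset.mem_toList.1 hv)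
    rw [List.isChain_iff_getElem]
    intro i hi
    apply hK _ (hall _ (List.getElem_mem _)) _ (hall _ (List.getElem_mem _))
    intro h
    have := (List.Nodup.getElem_inj_iff hnd).1 h
    omega
  · intro a ha b hb
    have hnd := Finset.nodup_toList K'
    have hall : ∀ v ∈ K'.toList, v ∈ K := fun v hv => hK' (Finset.mem_toList.1 hv)
    have hlen : K'.toList.length = n := by rw [Finset.length_toList, hc]
    have ha' : a ∈ K'.toList := List.mem_of_getLast? ha
    have hb' : b ∈ K'.toList := List.mem_of_head? hb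
    apply hK _ (hall _ ha') _ (hall _ hb')
    intro h
    rw [List.getLast?_eq_getElem?, Option.mem_def, List.getElem?_eq_getElem (by omega),
      Option.some.injEq] at ha
    rw [List.head?_eq_getElem?, Option.mem_def, List.getElem?_eq_getElem (by omega),
      Option.some.injEq] at hb
    rw [← ha, ← hb] at h
    have := (List.Nodup.getElem_inj_iff hnd).1 h
    omega

/-- from a walk inside `S` to a path list -/
theorem walk_to_isP (G : SimpleGraph V) (S : Finset V) {u v : V} (hu : u ∈ S)
    (p : (GR G S).Walk u v) : ∃ Y : List V, IsP G Y ∧ Y.length ≤ p.length + 1 ∧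
      Y.head? = some u ∧ Y.getLast? = some v ∧ ∀ w ∈ Y, w ∈ S := by
  classical
  have key : ∀ {u v : V} (p : (GR G S).Walk u v), u ∈ S → ∀ w ∈ p.support, w ∈ S := by
    intro u v p
    induction p with
    | nil =>
      intro hu w hw
      rw [SimpleGraph.Walk.support_nil, List.mem_singleton] at hw
      rw [hw]; exact hu
    | cons h q ih =>
      intro hu w hw
      rw [SimpleGraph.Walk.support_cons, List.mem_cons] at hw
      rcases hw with h1 | h1
      · rw [h1]; exact hu
      · exact ih h.2.1 w h1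
  refine ⟨p.bypass.support, ⟨?_, ?_⟩, ?_, ?_, ?_, ?_⟩
  · exact (p.bypass.isChain_adj_support).imp (fun _ _ h => h.2.2)
  · exact p.bypass_isPath.support_nodup
  · rw [SimpleGraph.Walk.length_support]
    have := p.length_bypass_le_length
    omega
  · rw [← SimpleGraph.Walk.cons_tail_support]
    rfl
  · rw [List.getLast?_eq_some_getLast (SimpleGraph.Walk.support_ne_nil _),
      SimpleGraph.Walk.getLast_support]
  · exact key _ hu

end Vale.Agent.P048
end
end

section

section

/-!
Lemma B: there is no large clique in a graph with large degrees, small independence number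
and no cycle of length `M + 1`.
-/

namespace Vale.Agent.P048

open Finset

variable {V : Type*}

/-- good cycle lists -/
def GCyc (G : SimpleGraph V) (W K : Finset V) (M : ℕ) (l : List V) : Prop :=
  IsC G l ∧ (∀ v ∈ l, v ∈ W) ∧ (∀ v ∈ K, v ∈ l) ∧ l.length ≤ M

theorem exists_max_gcyc (G : SimpleGraph V) (W K : Finset V) (M : ℕ)
    (h : ∃ l, GCyc G W K M l) :
    ∃ l, GCyc G W K M l ∧ ∀ l', GCyc G W K M l' → l'.length ≤ l.length := by
  classical
  obtain ⟨l0, h0⟩ := h
  have hP : ∃ l, GCyc G W K M l ∧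
      l.length = Nat.findGreatest (fun n => ∃ l, GCyc G W K M l ∧ l.length = n) M :=
    Nat.findGreatest_spec (P := fun n => ∃ l, GCyc G W K M l ∧ l.length = n)
      h0.2.2.2 ⟨l0, h0, rfl⟩
  obtain ⟨l, hl, hlen⟩ := hP
  refine ⟨l, hl, ?_⟩
  intro l' hl'
  rw [hlen]
  exact Nat.le_findGreatest hl'.2.2.2 ⟨l', hl', rfl⟩

theorem IsF.mod_add {G : SimpleGraph V} {k : ℕ} {x : ℕ → V} (h : IsF G k x) (a b : ℕ) :
    x (a % k + b) = x (a + b) := by
  rw [← h.mod (a % k + b), ← h.mod (a + b)]
  congr 1
  exact Nat.mod_add_mod _ _ _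

theorem card_E [DecidableEq V] {G : SimpleGraph V} {ℓ : ℕ} {x : ℕ → V} (hx : IsF G ℓ x)
    (hℓ : 1 ≤ ℓ) (K : Finset V) (hKx : ∀ v ∈ K, ∃ i, x i = v) :
    2 * K.card ≤ ((range ℓ).filter (fun i => x i ∈ K ∧ x (i + 1) ∈ K)).card + ℓ := by
  have h1 : K.card ≤ ((range ℓ).filter (fun i => x i ∈ K)).card := by
    have : K ⊆ ((range ℓ).filter (fun i => x i ∈ K)).image x := by
      intro v hv
      obtain ⟨i, hi⟩ := hKx v hv
      rw [Finset.mem_image]
      refine ⟨i % ℓ, ?_, ?_⟩
      · rw [Finset.mem_filter, Finset.mem_range, hx.mod, hi]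
        exact ⟨Nat.mod_lt _ hℓ, hv⟩
      · rw [hx.mod, hi]
    exact (Finset.card_le_card this).trans Finset.card_image_le
  have h2 : K.card ≤ ((range ℓ).filter (fun i => x (i + 1) ∈ K)).card := by
    have : K ⊆ ((range ℓ).filter (fun i => x (i + 1) ∈ K)).image (fun i => x (i + 1)) := by
      intro v hv
      obtain ⟨i, hi⟩ := hKx v hv
      have h3 : x ((i + (ℓ - 1)) % ℓ + 1) = v := by
        rw [hx.mod_add, show i + (ℓ - 1) + 1 = i + ℓ by omega, hx.2.1, hi]
      rw [Finset.mem_image]
      refine ⟨(i + (ℓ - 1)) % ℓ, ?_, h3⟩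
      rw [Finset.mem_filter, Finset.mem_range, h3]
      exact ⟨Nat.mod_lt _ hℓ, hv⟩
    exact (Finset.card_le_card this).trans Finset.card_image_le
  have h3 := Finset.card_union_add_card_inter ((range ℓ).filter (fun i => x i ∈ K))
    ((range ℓ).filter (fun i => x (i + 1) ∈ K))
  rw [← Finset.filter_and] at h3
  have h4 : ((range ℓ).filter (fun i => x i ∈ K) ∪
      (range ℓ).filter (fun i => x (i + 1) ∈ K)).card ≤ ℓ := by
    have : (range ℓ).filter (fun i => x i ∈ K) ∪
        (range ℓ).filter (fun i => x (i + 1) ∈ K) ⊆ range ℓ :=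
      Finset.union_subset (Finset.filter_subset _ _) (Finset.filter_subset _ _)
    simpa only [ge_iff_le, card_range] using Finset.card_le_card this
  omega

theorem dg_eq_filter (G : SimpleGraph V) [DecidableRel G.Adj] (s : Finset V) (v : V) :
    dg G s v = (s.filter (G.Adj v)).card := by
  unfold dg
  congr

theorem clique_gcyc (G : SimpleGraph V) (W D : Finset V) (M : ℕ) (hDW : D ⊆ W)
    (hD : Clq G D) (hDM : D.card ≤ M) (hD1 : 2 ≤ D.card) : ∃ l, GCyc G W D M l := by
  refine ⟨D.toList, ?_, ?_, ?_, ?_⟩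
  · have hnd := Finset.nodup_toList D
    have hlen : D.toList.length = D.card := Finset.length_toList D
    refine ⟨?_, hnd, ?_⟩
    · rw [List.isChain_iff_getElem]
      intro i hi
      apply hD _ (Finset.mem_toList.1 (List.getElem_mem _)) _
        (Finset.mem_toList.1 (List.getElem_mem _))
      intro h
      have := (List.Nodup.getElem_inj_iff hnd).1 h
      omega
    · intro a ha b hb
      apply hD _ (Finset.mem_toList.1 (List.mem_of_getLast? ha)) _
        (Finset.mem_toList.1 (List.mem_of_head? hb))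
      intro h
      rw [List.getLast?_eq_getElem?, Option.mem_def, List.getElem?_eq_getElem (by omega),
        Option.some.injEq] at ha
      rw [List.head?_eq_getElem?, Option.mem_def, List.getElem?_eq_getElem (by omega),
        Option.some.injEq] at hb
      rw [← ha, ← hb] at h
      have := (List.Nodup.getElem_inj_iff hnd).1 h
      omega
  · intro v hv
    exact hDW (Finset.mem_toList.1 hv)
  · intro v hv
    exact Finset.mem_toList.2 hv
  · rw [Finset.length_toList]
    exact hDM

end Vale.Agent.P048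
end
end

section

section

/-!
The upper bound: a graph with at least `(m - 1) a + 1` vertices, `3 a ≤ m`, contains a
cycle of length `m` or an independent set of size `a + 1`.
-/

namespace Vale.Agent.P048

open Finset

variable {V : Type*}

theorem IsC.mem_of_adj {G : SimpleGraph V} {S : Finset V} (hS : ∀ a b, G.Adj a b → a ∈ S)
    {l : List V} (hl : IsC G l) (h1 : 1 ≤ l.length) : ∀ v ∈ l, v ∈ S := by
  intro v hv
  obtain ⟨x, hx, hxl⟩ := IsC.exists_isF G l hl h1
  obtain ⟨i, _, hi⟩ := (hxl v).1 hv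
  rw [← hi]
  exact hS _ _ (hx.1 i)

/-- a path with `k` vertices inside a neighbourhood gives a cycle of length `k + 1` -/
theorem cycle_of_nbhd {G : SimpleGraph V} {v u : V} {p : List V} (hp : IsP G (u :: p))
    (hN : ∀ w ∈ u :: p, G.Adj v w) : HasC G (p.length + 2) := by
  refine ⟨v :: u :: p, by simp, ?_, ?_, ?_⟩
  · rw [List.isChain_cons_cons]
    exact ⟨hN u (by simp), hp.1⟩
  · rw [List.nodup_cons]
    exact ⟨fun hmem => G.loopless.irrefl _ (hN v hmem), hp.2⟩
  · intro a ha b hb
    simp only [List.head?_cons, Option.mem_def, Option.some.injEq] at hb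
    rw [← hb, List.getLast?_cons_cons, Option.mem_def] at *
    exact (hN a (List.mem_of_getLast? ha)).symm

theorem HasC.mono {G H : SimpleGraph V} (h : ∀ a b, G.Adj a b → H.Adj a b) {k : ℕ}
    (hk : HasC G k) : HasC H k := by
  obtain ⟨l, hlen, hl⟩ := hk
  exact ⟨l, hlen, hl.1.imp h, hl.2.1, fun a ha b hb => h _ _ (hl.2.2 a ha b hb)⟩

theorem Ind.insert {G : SimpleGraph V} [DecidableEq V] {J : Finset V} (hJ : Ind G J) {v : V}
    (h : ∀ w ∈ J, ¬ G.Adj w v) : Ind G (insert v J) := by
  intro a ha b hb hab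
  rcases Finset.mem_insert.1 ha with h1 | h1 <;> rcases Finset.mem_insert.1 hb with h2 | h2
  · rw [h1, h2] at hab
    exact G.loopless.irrefl _ hab
  · rw [h1] at hab
    exact h b h2 hab.symm
  · rw [h2] at hab
    exact h a h1 hab
  · exact hJ a h1 b h2 hab

end Vale.Agent.P048
end
end

section

section

/-!
The range `m - 1 ≥ 2 a`: a graph with at least `(m - 1) a + 1` vertices contains a cycle of
length `m` or an independent set of size `a + 1`.
-/

namespace Vale.Agent.P048

open Finset

variable {V : Type*}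

/-- Either some vertex of `Y` can be inserted in the cycle `l`, or the vertices of the cycle
are divided into independent classes indexed by `Y`. -/
theorem ext_or_classes (G : SimpleGraph V) [DecidableEq V] (l : List V) (hl : IsC G l)
    (hpos : 1 ≤ l.length) (Y : Finset V) (hY : ∀ y ∈ Y, y ∉ l)
    (hdom : ∀ v ∈ l, ∃ y ∈ Y, G.Adj y v) :
    (∃ y ∈ Y, ∃ l' : List V, l'.Perm (y :: l) ∧ IsC G l') ∨
      ∃ g : V → V, (∀ v ∈ l, g v ∈ Y) ∧ ∀ u ∈ l, ∀ v ∈ l, g u = g v → ¬ G.Adj u v := by
  classical
  by_cases hext : ∃ y ∈ Y, ∃ l' : List V, l'.Perm (y :: l) ∧ IsC G l'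
  · exact Or.inl hext
  right
  obtain ⟨x, hx, hxl⟩ := IsC.exists_isF G l hl hpos
  obtain ⟨k, hk⟩ : ∃ k, k = l.length := ⟨_, rfl⟩
  rw [← hk] at hx hxl hpos
  have hxmem : ∀ i, x i ∈ l := by
    intro i
    rw [← hx.mod i]
    exact (hxl _).2 ⟨i % k, Nat.mod_lt _ hpos, rfl⟩
  have hex : ∀ i, ∃ y ∈ Y, G.Adj y (x (i + (k - 1))) := fun i => hdom _ (hxmem _)
  choose f hfY hf using hex
  have hidx : ∀ v, ∃ i, v ∈ l → i < k ∧ x i = v := by
    intro v
    by_cases hv : v ∈ l
    · obtain ⟨i, hi, hiv⟩ := (hxl v).1 hv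
      exact ⟨i, fun _ => ⟨hi, hiv⟩⟩
    · exact ⟨0, fun h => absurd h hv⟩
  choose q hq using hidx
  refine ⟨fun v => f (q v), fun v _ => hfY _, ?_⟩
  have main : ∀ i j, i < k → j < k → i < j → f i = f j → ¬ G.Adj (x i) (x j) := by
    intro i j hi hj hij hfe hadj
    obtain ⟨s, hs⟩ : ∃ s, j = i + s + 1 := ⟨j - i - 1, by omega⟩
    obtain ⟨t, ht⟩ : ∃ t, k = s + t + 2 := ⟨k - (s + 2), by omega⟩
    have hAB : arc x i s ++ arc x j t = arc x i (k - 1) := by
      rw [hs, arc_append, ht]
      rfl
    have hCar : IsC G (arc x i s ++ arc x j t) := by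
      rw [hAB]
      exact hx.isC_arc hpos i
    have hsubset : ∀ v ∈ arc x i s ++ arc x j t, v ∈ l := by
      intro v hv
      rw [hAB] at hv
      obtain ⟨r, _, hr⟩ := mem_arc.1 hv
      rw [← hr]
      exact hxmem _
    have hlen : (arc x i s ++ arc x j t).length = k := by
      rw [hAB, arc_length]
      omega
    have hperm : (arc x i s ++ arc x j t).Perm l := by
      apply List.Subperm.perm_of_length_le
      · exact List.subperm_of_subset hCar.2.1 hsubset
      · rw [hlen, hk]
    have hch := List.isChain_append.1 hCar.1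
    have hperm2 : (f i :: ((arc x i s).reverse ++ arc x j t)).Perm (f i :: l) := by
      refine List.Perm.cons _ (List.Perm.trans ?_ hperm)
      exact (List.reverse_perm _).append_right _
    have hnd : (f i :: l).Nodup := List.nodup_cons.2 ⟨hY _ (hfY i), hl.2.1⟩
    apply hext
    refine ⟨f i, hfY i, _, hperm2, ?_, hperm2.nodup_iff.2 hnd, ?_⟩
    · rw [List.isChain_cons]
      constructor
      · intro z hz
        rw [List.head?_append, List.head?_reverse, arc_last] at hz
        simp only [Option.some_or, Option.mem_def, Option.some.injEq] at hz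
        rw [← hz, hfe]
        have h1 := hf j
        rw [show j + (k - 1) = (i + s) + k by omega, hx.2.1] at h1
        exact h1
      · rw [List.isChain_append]
        refine ⟨?_, hch.2.1, ?_⟩
        · rw [List.isChain_reverse]
          exact hch.1.imp (fun _ _ h => h.symm)
        · intro a ha b hb
          rw [List.getLast?_reverse, arc_head, Option.mem_def, Option.some.injEq] at ha
          rw [arc_head, Option.mem_def, Option.some.injEq] at hb
          rw [← ha, ← hb]
          exact hadj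
    · intro a ha b hb
      simp only [List.head?_cons, Option.mem_def, Option.some.injEq] at hb
      have hne : (arc x i s).reverse ++ arc x j t ≠ [] := by
        intro h0
        have := congrArg List.length h0
        simp [arc_length] at this
      have ha' : (arc x j t).getLast? = some a := by
        rw [List.getLast?_cons_of_ne_nil hne] at ha
        rw [List.getLast?_append_of_ne_nil] at ha
        · exact ha
        · intro h0
          have := congrArg List.length h0
          simp [arc_length] at this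
      rw [arc_last, Option.some.injEq] at ha'
      rw [← ha', ← hb]
      have h1 := hf i
      rw [show i + (k - 1) = j + t by omega] at h1
      exact h1.symm
  intro u hu v hv hfe hadj
  obtain ⟨hi, hiu⟩ := hq u hu
  obtain ⟨hj, hjv⟩ := hq v hv
  rcases lt_trichotomy (q u) (q v) with h1 | h1 | h1
  · exact main _ _ hi hj h1 hfe (by rw [hiu, hjv]; exact hadj)
  · rw [← hiu, ← hjv, h1] at hadj
    exact G.loopless.irrefl _ hadj
  · exact main _ _ hj hi h1 hfe.symm (by rw [hiu, hjv]; exact hadj.symm)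

/-- counting with the expansion of the classes; `C` is the cycle, `T ⊇ C` the removed set -/
theorem class_count (G : SimpleGraph V) [DecidableEq V] (S C T Y : Finset V) (M : ℕ)
    (hexp : Expd G S M) (hCT : C ⊆ T) (hTS : T ⊆ S) (hC : C.Nonempty) (g : V → V)
    (hg : ∀ v ∈ C, g v ∈ Y) (hi : ∀ u ∈ C, ∀ v ∈ C, g u = g v → ¬ G.Adj u v) :
    M * C.card + Y.card ≤ Y.card * T.card + ∑ v ∈ C, dg G (S \ T) v := by
  classical
  have hT : 1 ≤ T.card := Finset.card_pos.2 (hC.mono hCT)
  have hone : ∀ y ∈ Y, M * (C.filter (fun v => g v = y)).card + 1 ≤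
      T.card + ∑ v ∈ C.filter (fun v => g v = y), dg G (S \ T) v := by
    intro y _
    obtain ⟨J, hJ⟩ : ∃ J, J = C.filter (fun v => g v = y) := ⟨_, rfl⟩
    rw [← hJ]
    rcases J.eq_empty_or_nonempty with h0 | hne
    · rw [h0]
      simpa only [card_empty, mul_zero, zero_add, sum_empty, add_zero, one_le_card] using hT
    have hJC : J ⊆ C := by
      rw [hJ]
      exact Finset.filter_subset _ _
    have hJi : Ind G J := by
      intro a ha b hb
      rw [hJ, Finset.mem_filter] at ha hb
      exact hi a ha.1 b hb.1 (ha.2.trans hb.2.symm)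
    have h1 := hexp J (hJC.trans (hCT.trans hTS)) hJi hne
    refine h1.trans ?_
    have h2 : nbc G S J ⊆ T ∪ J.biUnion (fun v => (S \ T).filter (G.Adj v)) := by
      intro z hz
      rw [mem_nbc] at hz
      rw [Finset.mem_union]
      by_cases hzT : z ∈ T
      · exact Or.inl hzT
      · right
        rcases hz.2 with h3 | ⟨j, hj, h3⟩
        · exact absurd (hCT (hJC h3)) hzT
        · rw [Finset.mem_biUnion]
          exact ⟨j, hj, Finset.mem_filter.2 ⟨Finset.mem_sdiff.2 ⟨hz.1, hzT⟩, h3⟩⟩
    refine (Finset.card_le_card h2).trans ((Finset.card_union_le _ _).trans ?_)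
    apply Nat.add_le_add_left
    refine Finset.card_biUnion_le.trans ?_
    apply Finset.sum_le_sum
    intro v _
    unfold dg
    exact le_of_eq (by congr)
  have hsum := Finset.sum_le_sum hone
  rw [Finset.sum_add_distrib, Finset.sum_add_distrib, ← Finset.mul_sum,
    ← Finset.card_eq_sum_card_fiberwise hg, Finset.sum_fiberwise_of_maps_to hg] at hsum
  simpa only [ge_iff_le, sum_const, smul_eq_mul, mul_one] using hsum

theorem dg_insert_sdiff (G : SimpleGraph V) [DecidableEq V] (S C : Finset V) (y v : V)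
    (hy : y ∈ S) (hyC : y ∉ C) (h : G.Adj v y) :
    dg G (S \ insert y C) v + 1 ≤ dg G (S \ C) v := by
  classical
  have h1 : (S \ insert y C).filter (G.Adj v) ⊂ (S \ C).filter (G.Adj v) := by
    rw [Finset.ssubset_iff_subset_ne]
    constructor
    · intro z hz
      rw [Finset.mem_filter, Finset.mem_sdiff, Finset.mem_insert] at hz
      rw [Finset.mem_filter, Finset.mem_sdiff]
      exact ⟨⟨hz.1.1, fun h3 => hz.1.2 (Or.inr h3)⟩, hz.2⟩
    · intro he
      have : y ∈ (S \ C).filter (G.Adj v) :=
        Finset.mem_filter.2 ⟨Finset.mem_sdiff.2 ⟨hy, hyC⟩, h⟩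
      rw [← he, Finset.mem_filter, Finset.mem_sdiff] at this
      exact this.1.2 (Finset.mem_insert_self _ _)
  have h2 := Finset.card_lt_card h1
  have e1 : dg G (S \ insert y C) v = ((S \ insert y C).filter (G.Adj v)).card := by
    unfold dg
    congr
  have e2 : dg G (S \ C) v = ((S \ C).filter (G.Adj v)).card := by
    unfold dg
    congr
  omega

/-- the main step -/
theorem half_core (G : SimpleGraph V) (S : Finset V) (hS : ∀ a b, G.Adj a b → a ∈ S)
    (a m : ℕ) (ha : 1 ≤ a) (h2 : 2 * a + 1 ≤ m) (hne : S.Nonempty)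
    (hexp : Expd G S (m - 1))
    (hα : ∀ J ⊆ S, Ind G J → J.card ≤ a)
    (hdom : ∀ T ⊆ S, T.card ≤ m - 1 →
      ∃ Y ⊆ S, Y.card ≤ a ∧ Disjoint Y T ∧ ∀ v ∈ T, ∃ y ∈ Y, G.Adj y v) :
    ∀ k, 2 ≤ k → k ≤ m → HasC G k := by
  classical
  intro k
  induction k using Nat.strong_induction_on with
  | _ k ih =>
    intro hk2 hkm
    obtain ⟨v, hv⟩ := hne
    have hδv : m - 1 ≤ dg G S v := hexp.deg hv
    have hdg : dg G S v = (S.filter (G.Adj v)).card := by
      unfold dg
      congr
    rcases Nat.lt_or_ge k 4 with h4 | h4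
    · -- k = 2 or k = 3
      by_contra hno
      obtain ⟨u, hu⟩ : (S.filter (G.Adj v)).Nonempty := by
        rw [← Finset.card_pos]
        omega
      have hvu := (Finset.mem_filter.1 hu).2
      rcases Nat.lt_or_ge k 3 with h3 | h3
      · apply hno
        have : k = 2 := by omega
        subst this
        refine ⟨[v, u], rfl, ?_, ?_, ?_⟩
        · simpa using hvu
        · simp [hvu.ne]
        · intro p hp q hq
          simp only [List.getLast?_cons_cons, List.getLast?_singleton, Option.mem_def,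
            Option.some.injEq] at hp
          simp only [List.head?_cons, Option.mem_def, Option.some.injEq] at hq
          rw [← hp, ← hq]
          exact hvu.symm
      · have : k = 3 := by omega
        subst this
        have hJ := hα (S.filter (G.Adj v)) (Finset.filter_subset _ _) (by
          intro p hp q hq hpq
          apply hno
          rw [Finset.mem_filter] at hp hq
          exact cycle_of_nbhd (v := v) (u := p) (p := [q])
            ⟨by simpa using hpq, by simp [hpq.ne]⟩ (by
              intro w hw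
              simp only [List.mem_cons, List.not_mem_nil, or_false] at hw
              rcases hw with h | h
              · rw [h]; exact hp.2
              · rw [h]; exact hq.2))
        omega
    by_contra hno
    obtain ⟨l, hlen, hl⟩ := ih (k - 2) (by omega) (by omega) (by omega)
    obtain ⟨n, hn⟩ : ∃ n, n = k - 2 := ⟨_, rfl⟩
    rw [← hn] at hlen
    have hk2 : k = n + 2 := by omega
    rw [hk2] at hno
    have hn1 : 1 ≤ l.length := by omega
    have hlS : ∀ v ∈ l, v ∈ S := hl.mem_of_adj hS hn1
    obtain ⟨x, hx, hxl⟩ := IsC.exists_isF G l hl hn1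
    rw [hlen] at hx hxl
    have hxmem : ∀ i, x i ∈ l := by
      intro i
      rw [← hx.mod i]
      exact (hxl _).2 ⟨i % n, Nat.mod_lt _ (by omega), rfl⟩
    obtain ⟨C, hC⟩ : ∃ C, C = l.toFinset := ⟨_, rfl⟩
    have hCS : C ⊆ S := fun z hz => by
      rw [hC] at hz
      exact hlS z (List.mem_toFinset.1 hz)
    obtain ⟨J, hJ, hJi, hJc⟩ := LB G n (by omega) x hx (S \ C) (by
      intro i hi
      apply (Finset.mem_sdiff.1 hi).2
      rw [hC]
      exact List.mem_toFinset.2 (hxmem i)) hno
    have hJa : J.card ≤ a := hα J (hJ.trans Finset.sdiff_subset) hJi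
    have hsumC : ∀ F : V → ℕ, ∑ i ∈ range n, F (x i) = ∑ v ∈ C, F v := by
      intro F
      have : C = (range n).image x := by
        ext v
        rw [hC, List.mem_toFinset, hxl]
        simp only [mem_image, mem_range]
      rw [this, Finset.sum_image]
      intro i hi j hj hij
      rw [Finset.mem_coe, Finset.mem_range] at hi hj
      exact hx.2.2 i j hi hj hij
    have hCcard : C.card = n := by
      rw [hC, List.toFinset_card_of_nodup hl.2.1, hlen]
    have hCne : C.Nonempty := by
      rw [← Finset.card_pos]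
      omega
    rw [hsumC (fun v => dg G (S \ C) v)] at hJc
    have hLB : ∑ v ∈ C, dg G (S \ C) v ≤ n * a := hJc.trans (Nat.mul_le_mul_left _ hJa)
    -- first stage
    obtain ⟨Y, hYS, hYc, hYd, hYdom⟩ := hdom C hCS (by omega)
    rcases ext_or_classes G l hl hn1 Y
      (fun y hy hmem => (Finset.disjoint_left.1 hYd) hy (by
        rw [hC]; exact List.mem_toFinset.2 hmem))
      (fun v hv => hYdom v (by rw [hC]; exact List.mem_toFinset.2 hv)) with hext | hcl
    · obtain ⟨y, hy, l1, hperm, hl1⟩ := hext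
      have hyS := hYS hy
      have hyC : y ∉ C := (Finset.disjoint_left.1 hYd) hy
      have hlen1 : l1.length = n + 1 := by
        rw [hperm.length_eq, List.length_cons, hlen]
      have hT : l1.toFinset = insert y C := by
        rw [List.toFinset_eq_of_perm _ _ hperm, List.toFinset_cons, hC]
      have hTS : insert y C ⊆ S := Finset.insert_subset hyS hCS
      have hTc : (insert y C).card = n + 1 := by
        rw [Finset.card_insert_of_notMem hyC, hCcard]
      obtain ⟨Y', hYS', hYc', hYd', hYdom'⟩ := hdom (insert y C) hTS (by (clear * - hkm h4 hn hk2 hCcard hlen1 hTc; omega))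
      -- a neighbour of `y` on the cycle
      obtain ⟨z, hzC, hyz⟩ : ∃ z ∈ C, G.Adj z y := by
        obtain ⟨x1, hx1, hxl1⟩ := IsC.exists_isF G l1 hl1 (by omega)
        obtain ⟨i, _, hi⟩ := (hxl1 y).1 (hperm.mem_iff.2 (by simp))
        have hadj := hx1.1 i
        rw [hi] at hadj
        have hmem : x1 (i + 1) ∈ l1.toFinset := by
          rw [List.mem_toFinset, ← hx1.mod]
          exact (hxl1 _).2 ⟨_, Nat.mod_lt _ (by omega), rfl⟩
        rw [hT, Finset.mem_insert] at hmem
        rcases hmem with h5 | h5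
        · rw [h5] at hadj
          exact absurd hadj (G.loopless.irrefl _)
        · exact ⟨_, h5, hadj.symm⟩
      rcases ext_or_classes G l1 hl1 (by omega) Y'
        (fun y hy hmem => (Finset.disjoint_left.1 hYd') hy (by
          rw [← hT]; exact List.mem_toFinset.2 hmem))
        (fun v hv => hYdom' v (by rw [← hT]; exact List.mem_toFinset.2 hv)) with hext' | hcl'
      · obtain ⟨y', _, l2, hperm2, hl2⟩ := hext'
        apply hno
        refine ⟨l2, ?_, hl2⟩
        rw [hperm2.length_eq, List.length_cons, hlen1]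
      · obtain ⟨g, hg, hgi⟩ := hcl'
        have hCl1 : ∀ v ∈ C, v ∈ l1 := by
          intro v hv
          rw [← List.mem_toFinset, hT]
          exact Finset.mem_insert_of_mem hv
        have hcount := class_count G S C (insert y C) Y' (m - 1) hexp (Finset.subset_insert _ _)
          hTS hCne g (fun v hv => hg v (hCl1 v hv))
          (fun u hu v hv => hgi u (hCl1 u hu) v (hCl1 v hv))
        rw [hCcard, hTc] at hcount
        have hsmall : ∑ v ∈ C, dg G (S \ insert y C) v + 1 ≤ ∑ v ∈ C, dg G (S \ C) v := by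
          apply Nat.succ_le_of_lt
          apply Finset.sum_lt_sum
          · intro v _
            apply dg_mono
            exact Finset.sdiff_subset_sdiff subset_rfl (Finset.subset_insert _ _)
          · exact ⟨z, hzC, dg_insert_sdiff G S C y z hyS hyC hyz⟩
        have h5 : Y'.card * (n + 1) = Y'.card * n + Y'.card := by ring
        have h6 : Y'.card * n ≤ a * n := Nat.mul_le_mul_right _ hYc'
        have h7 : 2 * a * n ≤ (m - 1) * n := Nat.mul_le_mul_right _ (by (clear * - h2 hkm h4 hn hk2 hCcard hlen1 hTc; omega))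
        have h8 : 2 * a * n = a * n + n * a := by ring
        omega
    · obtain ⟨g, hg, hgi⟩ := hcl
      have hCl : ∀ v ∈ C, v ∈ l := by
        intro v hv
        rw [hC] at hv
        exact List.mem_toFinset.1 hv
      have hcount := class_count G S C C Y (m - 1) hexp subset_rfl
        hCS hCne g (fun v hv => hg v (hCl v hv))
        (fun u hu v hv => hgi u (hCl u hu) v (hCl v hv))
      rw [hCcard] at hcount
      obtain ⟨n', hn'⟩ : ∃ n', n = n' + 1 := ⟨n - 1, by omega⟩
      have h5 : Y.card * n = Y.card * n' + Y.card := by rw [hn']; ring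
      have h6 : Y.card * n' ≤ a * n' := Nat.mul_le_mul_right _ hYc
      have h7 : 2 * a * n ≤ (m - 1) * n := Nat.mul_le_mul_right _ (by (clear * - h2 hkm h4 hn hk2 hCcard hn'; omega))
      have h8 : 2 * a * n = a * n' + a + n * a := by rw [hn']; ring
      omega

/-- upper bound in the range `2 a < m`, combinatorial form -/
theorem upper_half (G : SimpleGraph V) (m : ℕ) (hm : 3 ≤ m) :
    ∀ a : ℕ, 2 * a + 1 ≤ m → ∀ S : Finset V, (m - 1) * a + 1 ≤ S.card → ¬ HasC G m →
      ∃ J ⊆ S, Ind G J ∧ J.card = a + 1 := by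
  classical
  intro a
  induction a using Nat.strong_induction_on with
  | _ a ih =>
    intro h2 S hS hno
    have hne : S.Nonempty := by
      rw [← Finset.card_pos]
      omega
    rcases Nat.eq_zero_or_pos a with h0 | hapos
    · obtain ⟨v, hv⟩ := hne
      refine ⟨{v}, by simpa only [singleton_subset_iff] using hv, ?_, by simp [h0]⟩
      intro a ha b hb
      simp only [Finset.mem_singleton] at ha hb
      rw [ha, hb]
      exact G.loopless.irrefl _
    by_contra hcon
    push Not at hcon
    have hα : ∀ J ⊆ S, Ind G J → J.card ≤ a := by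
      intro J hJ hJi
      by_contra hlt
      push Not at hlt
      obtain ⟨J', hJ', hc⟩ := Finset.exists_subset_card_eq (s := J) (n := a + 1) hlt
      exact hcon J' (hJ'.trans hJ) (fun u hu v hv => hJi u (hJ' hu) v (hJ' hv)) hc
    have hexp : Expd G S (m - 1) := by
      intro J hJS hJi hJne
      by_contra hlt
      push Not at hlt
      have hJa := hα J hJS hJi
      have hJpos := Finset.card_pos.2 hJne
      have hc : (m - 1) * (a - J.card) + 1 ≤ (S \ nbc G S J).card := by
        have h1 := Finset.card_sdiff_add_card_eq_card (nbc_subset G S J)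
        have h3 : (m - 1) * a = (m - 1) * (a - J.card) + (m - 1) * J.card := by
          rw [← Nat.mul_add]
          congr 1
          omega
        omega
      obtain ⟨I, hI, hIi, hIc⟩ := ih (a - J.card) (by omega) (by (clear * - h2 hJa hJpos; omega)) _ hc hno
      have hJsub : J ⊆ nbc G S J := fun v hv => mem_nbc.2 ⟨hJS hv, Or.inl hv⟩
      have hdisj : Disjoint I J := by
        rw [Finset.disjoint_left]
        intro v hv hvJ
        exact (Finset.mem_sdiff.1 (hI hv)).2 (hJsub hvJ)
      have hind : Ind G (I ∪ J) := by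
        have hno' : ∀ a ∈ I, ∀ b ∈ J, ¬ G.Adj a b := by
          intro a ha b hb hab
          have h1 := Finset.mem_sdiff.1 (hI ha)
          exact h1.2 (mem_nbc.2 ⟨h1.1, Or.inr ⟨b, hb, hab.symm⟩⟩)
        intro a ha b hb hab
        rcases Finset.mem_union.1 ha with ha | ha <;> rcases Finset.mem_union.1 hb with hb | hb
        · exact hIi a ha b hb hab
        · exact hno' a ha b hb hab
        · exact hno' b hb a ha hab.symm
        · exact hJi a ha b hb hab
      have hle := hα (I ∪ J) (Finset.union_subset (hI.trans Finset.sdiff_subset) hJS) hind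
      rw [Finset.card_union_of_disjoint hdisj] at hle
      omega
    have hdom : ∀ T ⊆ S, T.card ≤ m - 1 →
        ∃ Y ⊆ S, Y.card ≤ a ∧ Disjoint Y T ∧ ∀ v ∈ T, ∃ y ∈ Y, G.Adj y v := by
      intro T hT hTc
      have hmul : (m - 1) * a = (m - 1) * (a - 1) + (m - 1) := by
        obtain ⟨b, hb⟩ : ∃ b, a = b + 1 := ⟨a - 1, by omega⟩
        rw [hb, Nat.add_sub_cancel, Nat.mul_succ]
      have hc : (m - 1) * (a - 1) + 1 ≤ (S \ T).card := by
        have := Finset.le_card_sdiff T S
        omega
      obtain ⟨Y, hY, hYi, hYc⟩ := ih (a - 1) (by omega) (by omega) (S \ T) hc hno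
      have hYS : Y ⊆ S := hY.trans Finset.sdiff_subset
      refine ⟨Y, hYS, by omega, ?_, ?_⟩
      · rw [Finset.disjoint_left]
        intro z hz
        exact (Finset.mem_sdiff.1 (hY hz)).2
      · intro v hv
        by_contra hnone
        push Not at hnone
        have hvY : v ∉ Y := fun hmem => (Finset.mem_sdiff.1 (hY hmem)).2 hv
        refine hcon (insert v Y) ?_ (hYi.insert hnone) ?_
        · intro z hz
          rcases Finset.mem_insert.1 hz with h1 | h1
          · rw [h1]; exact hT hv
          · exact hYS h1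
        · rw [Finset.card_insert_of_notMem hvY, hYc]
          omega
    -- restrict the graph to `S`
    let G' : SimpleGraph V :=
      { Adj := fun u v => G.Adj u v ∧ u ∈ S ∧ v ∈ S
        symm := ⟨fun u v h => ⟨h.1.symm, h.2.2, h.2.1⟩⟩
        loopless := ⟨fun u h => G.loopless.irrefl u h.1⟩ }
    have hind' : ∀ J ⊆ S, Ind G' J → Ind G J :=
      fun J hJ hJi u hu v hv h => hJi u hu v hv ⟨h, hJ hu, hJ hv⟩
    apply hno
    refine HasC.mono (G := G') (fun _ _ h => h.1)
      (half_core G' S (fun _ _ h => h.2.1) a m hapos h2 hne ?_ ?_ ?_ m (by omega) le_rfl)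
    · intro J hJS hJi hJne
      refine (hexp J hJS (hind' J hJS hJi) hJne).trans (Finset.card_le_card ?_)
      intro z hz
      rw [mem_nbc] at hz ⊢
      refine ⟨hz.1, hz.2.imp id ?_⟩
      rintro ⟨j, hj, h⟩
      exact ⟨j, hj, h, hJS hj, hz.1⟩
    · intro J hJ hJi
      exact hα J hJ (hind' J hJ hJi)
    · intro T hT hTc
      obtain ⟨Y, hYS, hYc, hYd, hYdom⟩ := hdom T hT hTc
      refine ⟨Y, hYS, hYc, hYd, ?_⟩
      intro v hv
      obtain ⟨y, hy, hadj⟩ := hYdom v hv
      exact ⟨y, hy, hadj, hYS hy, hT hv⟩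

end Vale.Agent.P048
end
end

section

section

/-!
The clique lemma: a minimal counterexample has a large clique.
-/

namespace Vale.Agent.P048

open Finset

variable {V : Type*}

/-- a maximum independent subset -/
theorem exists_max_ind (G : SimpleGraph V) (U : Finset V) :
    ∃ I ⊆ U, Ind G I ∧ AlLe G U I.card := by
  classical
  obtain ⟨I, hI, hmax⟩ := Finset.exists_max_image (U.powerset.filter (fun I => Ind G I))
    Finset.card ⟨∅, by
      rw [Finset.mem_filter, Finset.mem_powerset]
      exact ⟨Finset.empty_subset _, fun a ha => absurd ha (Finset.notMem_empty a)⟩⟩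
  rw [Finset.mem_filter, Finset.mem_powerset] at hI
  refine ⟨I, hI.1, hI.2, fun J hJ hJi => ?_⟩
  exact hmax J (by rw [Finset.mem_filter, Finset.mem_powerset]; exact ⟨hJ, hJi⟩)

/-- neighbourhoods are light -/
theorem nbhd_light (G : SimpleGraph V) (W : Finset V) (M : ℕ) (hM : 2 ≤ M)
    (hno : ¬ HasC G (M + 1)) (hcl : ∀ K ⊆ W, Clq G K → K.card ≤ M / 2 + 1)
    (v : V) (hv : v ∈ W) (U : Finset V) (hU : U ⊆ W) (hUv : ∀ w ∈ U, G.Adj v w) (k : ℕ)
    (hal : AlLe G U k) : U.card ≤ (M / 2) * k := by
  classical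
  by_contra hcon
  push Not at hcon
  obtain ⟨H, hHU, j, hj, h1, h2, h3⟩ := exists_expd G (M / 2) U.card U k le_rfl hal (by omega)
  have hHne : H.Nonempty := Finset.card_pos.1 (by omega)
  rcases long_cycle G H (M / 2) (by omega) hHne h3 with ⟨K, hK, hKc, hKcard⟩ | ⟨N, x, hN, hx, hxH, -⟩
  · have hvK : v ∉ K := fun h => G.loopless.irrefl _ (hUv v (hHU (hK h)))
    have h4 := hcl (insert v K) (by
      intro w hw
      rcases Finset.mem_insert.1 hw with rfl | hw
      · exact hv
      · exact hU (hHU (hK hw))) (by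
      intro u hu w hw huw
      rcases Finset.mem_insert.1 hu with h5 | h5 <;> rcases Finset.mem_insert.1 hw with h6 | h6
      · exact absurd (h5.trans h6.symm) huw
      · rw [h5]; exact hUv w (hHU (hK h6))
      · rw [h6]; exact (hUv u (hHU (hK h5))).symm
      · exact hKc u h5 w h6 huw)
    rw [Finset.card_insert_of_notMem hvK] at h4
    omega
  · apply hno
    have hp : IsP G (arc x 0 (M - 1)) := ⟨arc_chain hx _ _, arc_nodup hx _ _ (by omega)⟩
    have hlen : (arc x 0 (M - 1)).length = M := by rw [arc_length]; omega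
    cases hq : arc x 0 (M - 1) with
    | nil => rw [hq] at hlen; simp at hlen; omega
    | cons u p =>
      rw [hq] at hp hlen
      have := cycle_of_nbhd (v := v) hp (by
        intro w hw
        rw [← hq, mem_arc] at hw
        obtain ⟨s, _, hs⟩ := hw
        rw [← hs]
        exact hUv _ (hHU (hxH _)))
      rw [List.length_cons] at hlen
      rwa [show p.length + 2 = M + 1 by omega] at this

/-- a vertex with three independent neighbours -/
theorem exists_root (G : SimpleGraph V) (W : Finset V) (M a : ℕ) (hM : 4 ≤ M)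
    (hno : ¬ HasC G (M + 1)) (hexp : Expd G W M) (hal : AlLe G W a) (hW : M * a + 1 ≤ W.card)
    (hcl : ∀ K ⊆ W, Clq G K → K.card ≤ M / 2 + 1) :
    ∃ r ∈ W, ∃ I ⊆ W, Ind G I ∧ (∀ w ∈ I, G.Adj r w) ∧ 3 ≤ I.card := by
  classical
  by_contra hcon
  push Not at hcon
  have hal2 : ∀ r ∈ W, AlLe G (W.filter (G.Adj r)) 2 := by
    intro r hr I hI hInd
    have := hcon r hr I (hI.trans (Finset.filter_subset _ _)) hInd
      (fun w hw => (Finset.mem_filter.1 (hI hw)).2)
    omega
  have hdeg1 : ∀ r ∈ W, (W.filter (G.Adj r)).card ≤ (M / 2) * 2 := fun r hr =>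
    nbhd_light G W M (by omega) hno hcl r hr _ (Finset.filter_subset _ _)
      (fun w hw => (Finset.mem_filter.1 hw).2) 2 (hal2 r hr)
  have hdeg2 : ∀ r ∈ W, M ≤ (W.filter (G.Adj r)).card := by
    intro r hr
    have := hexp.deg hr
    rwa [dg_eq_filter] at this
  obtain ⟨Y, hYW, hYi, hYmax⟩ := exists_max_ind G W
  have hYa : Y.card ≤ a := hal Y hYW hYi
  -- outside vertices have one or two neighbours in `Y`
  have hnb : ∀ w ∈ W \ Y, 1 ≤ (Y.filter (G.Adj w)).card ∧ (Y.filter (G.Adj w)).card ≤ 2 := by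
    intro w hw
    rw [Finset.mem_sdiff] at hw
    constructor
    · by_contra h0
      have h0' : Y.filter (G.Adj w) = ∅ := Finset.card_eq_zero.1 (by omega)
      have h1 : Ind G (insert w Y) := hYi.insert (by
        intro y hy hadj
        have : y ∈ Y.filter (G.Adj w) := Finset.mem_filter.2 ⟨hy, hadj.symm⟩
        rw [h0'] at this
        exact absurd this (Finset.notMem_empty _))
      have h2 := hYmax (insert w Y) (Finset.insert_subset hw.1 hYW) h1
      rw [Finset.card_insert_of_notMem hw.2] at h2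
      omega
    · refine hal2 w hw.1 _ ?_ ?_
      · intro y hy
        rw [Finset.mem_filter] at hy ⊢
        exact ⟨hYW hy.1, hy.2⟩
      · intro u hu v hv
        exact hYi u (Finset.mem_filter.1 hu).1 v (Finset.mem_filter.1 hv).1
  -- double counting
  have hsum : ∑ w ∈ W \ Y, (Y.filter (G.Adj w)).card = ∑ y ∈ Y, ((W \ Y).filter (G.Adj y)).card := by
    have := Finset.sum_card_bipartiteAbove_eq_sum_card_bipartiteBelow (s := W \ Y) (t := Y)
      (fun w y => G.Adj w y)
    rw [Finset.sum_congr rfl (fun w _ => ?_), this]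
    · refine Finset.sum_congr rfl fun y _ => ?_
      congr 1
      ext w
      simp [Finset.bipartiteBelow, G.adj_comm]
    · rfl
  have hsumY : ∀ y ∈ Y, ((W \ Y).filter (G.Adj y)).card = (W.filter (G.Adj y)).card := by
    intro y hy
    congr 1
    ext w
    simp only [Finset.mem_filter, Finset.mem_sdiff]
    constructor
    · rintro ⟨⟨h1, -⟩, h2⟩; exact ⟨h1, h2⟩
    · rintro ⟨h1, h2⟩; exact ⟨⟨h1, fun h => hYi y hy w h h2⟩, h2⟩
  set P := (W \ Y).filter (fun w => (Y.filter (G.Adj w)).card = 1) with hP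
  set Q := (W \ Y).filter (fun w => ¬ (Y.filter (G.Adj w)).card = 1) with hQ
  have hPQ : P.card + Q.card = (W \ Y).card := by
    rw [hP, hQ]
    exact Finset.card_filter_add_card_filter_not _
  have hPQ2 : P.card + 2 * Q.card = ∑ w ∈ W \ Y, (Y.filter (G.Adj w)).card := by
    rw [← Finset.sum_filter_add_sum_filter_not (W \ Y) (fun w => (Y.filter (G.Adj w)).card = 1)]
    congr 1
    · rw [Finset.sum_congr rfl (g := fun _ => 1) (fun w hw => (Finset.mem_filter.1 hw).2)]
      simp [hP]
    · rw [Finset.sum_congr rfl (g := fun _ => 2) (fun w hw => ?_)]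
      · simp [hQ, Nat.mul_comm]
      · rw [Finset.mem_filter] at hw
        have := hnb w hw.1
        omega
  have hub : ∑ w ∈ W \ Y, (Y.filter (G.Adj w)).card ≤ Y.card * M := by
    rw [hsum, Finset.sum_congr rfl hsumY]
    refine (Finset.sum_le_card_nsmul Y _ M fun y hy => ?_)
    have := hdeg1 y (hYW hy)
    omega
  have hcardWY : (W \ Y).card + Y.card = W.card := Finset.card_sdiff_add_card_eq_card hYW
  have hMY : M * Y.card ≤ M * a := Nat.mul_le_mul_left _ hYa
  -- private neighbours
  have hPub : P.card ≤ Y.card * (M / 2) := by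
    have h1 : P ⊆ Y.biUnion (fun y => P.filter (fun w => G.Adj w y)) := by
      intro w hw
      have h2 := (Finset.mem_filter.1 hw).2
      obtain ⟨y, hy⟩ := Finset.card_eq_one.1 h2
      have h3 : y ∈ Y.filter (G.Adj w) := by rw [hy]; simp
      rw [Finset.mem_filter] at h3
      rw [Finset.mem_biUnion]
      exact ⟨y, h3.1, Finset.mem_filter.2 ⟨hw, h3.2⟩⟩
    refine (Finset.card_le_card h1).trans ?_
    refine Finset.card_biUnion_le_card_mul _ _ _ fun y hy => ?_
    have huniq : ∀ w ∈ P.filter (fun w => G.Adj w y), w ∈ W ∧ w ∉ Y ∧ G.Adj w y ∧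
        ∀ y' ∈ Y, G.Adj w y' → y' = y := by
      intro w hw
      rw [Finset.mem_filter] at hw
      have hw1 := Finset.mem_filter.1 hw.1
      obtain ⟨z, hz⟩ := Finset.card_eq_one.1 hw1.2
      refine ⟨(Finset.mem_sdiff.1 hw1.1).1, (Finset.mem_sdiff.1 hw1.1).2, hw.2, ?_⟩
      intro y' hy' hadj
      have h4 : y' ∈ Y.filter (G.Adj w) := Finset.mem_filter.2 ⟨hy', hadj⟩
      have h5 : y ∈ Y.filter (G.Adj w) := Finset.mem_filter.2 ⟨hy, hw.2⟩
      rw [hz, Finset.mem_singleton] at h4 h5
      rw [h4, h5]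
    have hclq : Clq G (insert y (P.filter (fun w => G.Adj w y))) := by
      intro u hu w hw huw
      rcases Finset.mem_insert.1 hu with h5 | h5 <;> rcases Finset.mem_insert.1 hw with h6 | h6
      · exact absurd (h5.trans h6.symm) huw
      · rw [h5]; exact (huniq w h6).2.2.1.symm
      · rw [h6]; exact (huniq u h5).2.2.1
      · by_contra hnadj
        obtain ⟨huW, huY, huy, huu⟩ := huniq u h5
        obtain ⟨hwW, hwY, hwy, hwu⟩ := huniq w h6
        have h7 : Ind G (insert u (insert w (Y.erase y))) := by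
          refine Ind.insert (Ind.insert ?_ ?_) ?_
          · intro a ha b hb
            exact hYi a (Finset.mem_of_mem_erase ha) b (Finset.mem_of_mem_erase hb)
          · intro z hz hadj
            exact (Finset.mem_erase.1 hz).1 (hwu z (Finset.mem_erase.1 hz).2 hadj.symm)
          · intro z hz hadj
            rcases Finset.mem_insert.1 hz with h8 | h8
            · rw [h8] at hadj
              exact hnadj hadj.symm
            · exact (Finset.mem_erase.1 h8).1 (huu z (Finset.mem_erase.1 h8).2 hadj.symm)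
        have h8 := hYmax _ (by
          intro z hz
          rcases Finset.mem_insert.1 hz with h9 | h9
          · rw [h9]; exact huW
          · rcases Finset.mem_insert.1 h9 with h10 | h10
            · rw [h10]; exact hwW
            · exact hYW (Finset.mem_of_mem_erase h10)) h7
        rw [Finset.card_insert_of_notMem, Finset.card_insert_of_notMem,
          Finset.card_erase_of_mem hy] at h8
        · have : 0 < Y.card := Finset.card_pos.2 ⟨y, hy⟩
          omega
        · intro h; exact hwY (Finset.mem_of_mem_erase h)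
        · intro h
          rcases Finset.mem_insert.1 h with h9 | h9
          · exact huw h9
          · exact huY (Finset.mem_of_mem_erase h9)
    have h6 := hcl _ (by
      intro z hz
      rcases Finset.mem_insert.1 hz with h9 | h9
      · rw [h9]; exact hYW hy
      · exact (huniq z h9).1) hclq
    rw [Finset.card_insert_of_notMem] at h6
    · omega
    · intro h
      exact (huniq y h).2.1 hy
  -- numbers
  have hMY' : M * Y.card = Y.card * M := Nat.mul_comm _ _
  have h10 : Y.card * (M / 2) * 2 ≤ Y.card * M := by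
    rw [Nat.mul_assoc]
    exact Nat.mul_le_mul_left _ (Nat.div_mul_le_self M 2)
  have h11 : Y.card * 4 ≤ Y.card * M := Nat.mul_le_mul_left _ hM
  omega

/-- the arithmetic of the breadth first search -/
theorem bfs_arith {M q h u u' r : ℕ} (hq : q = M / 2 - 1) (hM : 8 ≤ M) (hh : h + 1 ≤ q)
    (hu : 2 * h + 3 ≤ u) (hr : r + h * (h + 1) ≤ 1 + h * u)
    (hstep : M * u + 1 ≤ r + u + (M / 2 + 1) * u') :
    u + 2 ≤ u' ∧ (h + 1 = q → M % 2 = 1 → u + 3 ≤ u') ∧
      r + u + (h + 1) * (h + 1 + 1) ≤ 1 + (h + 1) * u' := by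
  have hqM : M / 2 = q + 1 := by omega
  rw [hqM] at hstep
  have hq3 : 3 ≤ q := by omega
  have hM2 : 2 * q + 2 ≤ M := by (clear * - hq hqM; omega)
  have key : M * u + h * (h + 1) ≤ (h + 1) * u + (q + 1 + 1) * u' := by nlinarith only [hr, hstep]
  have h1 : u + 2 ≤ u' := by
    by_contra hcon
    have hu' : u' ≤ u + 1 := by omega
    obtain ⟨d, hd⟩ := Nat.exists_eq_add_of_le hh
    subst hd
    have h2 : (h + 1 + d + 1 + 1) * u' ≤ (h + 1 + d + 1 + 1) * (u + 1) :=
      Nat.mul_le_mul_left _ hu'
    have h3 : (2 * (h + 1 + d) + 2) * u ≤ M * u := Nat.mul_le_mul_right _ hM2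
    have h4 : d * (2 * h + 3) ≤ d * u := Nat.mul_le_mul_left _ hu
    have h5 : d * u + h * (h + 1) ≤ h + 1 + d + 2 := by nlinarith only [hr, hstep, h2, h3]
    have h6 : d * (2 * h + 3) + h * (h + 1) ≤ h + 1 + d + 2 := by (clear * - hq hqM h4 h5; omega)
    rcases Nat.lt_or_ge h 2 with h7 | h7
    · interval_cases h
      · omega
      · omega
    · nlinarith only [hr, hstep, hq3, h2, h3, h4]
  refine ⟨h1, ?_, ?_⟩
  · intro hhq hodd
    by_contra hcon
    have hu' : u' ≤ u + 2 := by omega
    have hM3 : M = 2 * q + 3 := by omega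
    subst hM3
    subst hhq
    have h2 : (h + 1 + 1 + 1) * u' ≤ (h + 1 + 1 + 1) * (u + 2) := Nat.mul_le_mul_left _ hu'
    nlinarith only [hu, hr, hq3, hstep, h2]
  · nlinarith only [hr, h1]

/-- one step of the breadth first search -/
theorem bfs_step (G : SimpleGraph V) (W : Finset V) (M a : ℕ) (hM : 8 ≤ M) (ha : a ≤ M)
    (hno : ¬ HasC G (M + 1)) (hexp : Expd G W M) (hal : AlLe G W a)
    (hcl : ∀ K ⊆ W, Clq G K → K.card ≤ M / 2 + 1) (h : ℕ) (hh : 2 * (h + 2) ≤ M)
    (R U I : Finset V) (hRW : R ⊆ W) (hUW : U ⊆ W) (hRU : Disjoint R U)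
    (hU1 : ∀ w ∈ W, w ∉ R → (∃ z ∈ R, G.Adj z w) → w ∈ U)
    (hE : Ear G R U h) (hI : I ⊆ U) (hIi : Ind G I) (hImax : AlLe G U I.card)
    (hIne : I.Nonempty) :
    ∃ R' U' I' : Finset V, R' ⊆ W ∧ U' ⊆ W ∧ Disjoint R' U' ∧
      (∀ w ∈ W, w ∉ R' → (∃ z ∈ R', G.Adj z w) → w ∈ U') ∧ Ear G R' U' (h + 1) ∧
      I' ⊆ U' ∧ Ind G I' ∧ AlLe G U' I'.card ∧ R'.card = R.card + I.card ∧
      M * I.card + 1 ≤ R.card + I.card + (M / 2 + 1) * I'.card := by
  classical
  set R' := R ∪ I with hR'
  set U' := W.filter (fun w => w ∉ R' ∧ ∃ z ∈ R', G.Adj z w) with hU'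
  obtain ⟨I', hI'U, hI'i, hI'max⟩ := exists_max_ind G U'
  have hR'W : R' ⊆ W := Finset.union_subset hRW (hI.trans hUW)
  have hU'W : U' ⊆ W := Finset.filter_subset _ _
  have hdisj : Disjoint R' U' := by
    rw [Finset.disjoint_left]
    intro w hw hw'
    exact (Finset.mem_filter.1 hw').2.1 hw
  have hRI : Disjoint R I := Finset.disjoint_of_subset_right hI hRU
  have hR'card : R'.card = R.card + I.card := Finset.card_union_of_disjoint hRI
  have hpar : ∀ w ∈ U', ∃ i ∈ I, G.Adj w i := by
    intro w hw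
    obtain ⟨hwW, hwR', z, hz, hzw⟩ := Finset.mem_filter.1 hw
    rcases Finset.mem_union.1 hz with hz | hz
    · by_contra hcon
      push Not at hcon
      have hwR : w ∉ R := fun h => hwR' (Finset.mem_union_left _ h)
      have hwI : w ∉ I := fun h => hwR' (Finset.mem_union_right _ h)
      have hwU : w ∈ U := hU1 w hwW hwR ⟨z, hz, hzw⟩
      have h1 : Ind G (insert w I) := hIi.insert fun i hi hadj => hcon i hi hadj.symm
      have h2 := hImax _ (Finset.insert_subset hwU hI) h1
      rw [Finset.card_insert_of_notMem hwI] at h2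
      omega
    · exact ⟨z, hz, hzw.symm⟩
  have hE' : Ear G R' U' (h + 1) := hE.step hRU hI hpar
  refine ⟨R', U', I', hR'W, hU'W, hdisj, ?_, hE', hI'U, hI'i, hI'max, hR'card, ?_⟩
  · intro w hw hwR hz
    exact Finset.mem_filter.2 ⟨hw, hwR, hz⟩
  · -- the neighbourhood of `I`
    have h1 : nbc G W I ⊆ R' ∪ U' := by
      intro v hv
      rw [mem_nbc] at hv
      by_cases hvR : v ∈ R'
      · exact Finset.mem_union_left _ hvR
      · refine Finset.mem_union_right _ (Finset.mem_filter.2 ⟨hv.1, hvR, ?_⟩)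
        rcases hv.2 with h2 | ⟨j, hj, hjv⟩
        · exact absurd (Finset.mem_union_right _ h2) hvR
        · exact ⟨j, Finset.mem_union_right _ hj, hjv⟩
    have h2 := hexp I (hI.trans hUW) hIi hIne
    have h3 := (Finset.card_le_card h1).trans (Finset.card_union_le _ _)
    have h4 : U'.card ≤ (M / 2 + 1) * I'.card := by
      by_contra hcon
      obtain ⟨H, hHU, j, hj, h5, h6, h7⟩ := exists_expd G (M / 2 + 1) U'.card U' I'.card le_rfl
        hI'max (by omega)
      exact ear_light G R' U' (h + 1) M (by omega) hE' hdisj (by omega) hno H hHU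
        (Finset.card_pos.1 (by omega)) h7 (fun K hK => hcl K (hK.trans (hHU.trans hU'W)))
        (fun J hJ hJi => (hal J (hJ.trans (hHU.trans hU'W)) hJi).trans ha)
    omega

theorem clique_lemma (G : SimpleGraph V) (W : Finset V) (M a : ℕ) (hM : 8 ≤ M) (ha : a ≤ M)
    (hno : ¬ HasC G (M + 1)) (hexp : Expd G W M) (hal : AlLe G W a)
    (hW : M * a + 1 ≤ W.card) : ∃ K ⊆ W, Clq G K ∧ M / 2 + 2 ≤ K.card := by
  classical
  by_contra hcon
  push Not at hcon
  have hcl : ∀ K ⊆ W, Clq G K → K.card ≤ M / 2 + 1 := by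
    intro K hK hKc
    have := hcon K hK hKc
    omega
  obtain ⟨r, hr, I0, hI0W, hI0i, hI0r, hI0c⟩ := exists_root G W M a (by omega) hno hexp hal hW hcl
  have main : ∀ h : ℕ, h ≤ M / 2 - 1 → ∃ R U I : Finset V, R ⊆ W ∧ U ⊆ W ∧ Disjoint R U ∧
      (∀ w ∈ W, w ∉ R → (∃ z ∈ R, G.Adj z w) → w ∈ U) ∧ Ear G R U h ∧
      I ⊆ U ∧ Ind G I ∧ AlLe G U I.card ∧ 2 * h + 3 ≤ I.card ∧
      R.card + h * (h + 1) ≤ 1 + h * I.card ∧
      (h = M / 2 - 1 → M % 2 = 1 → 2 * h + 4 ≤ I.card) := by
    intro h
    induction h with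
    | zero =>
      intro _
      obtain ⟨I, hIU, hIi, hImax⟩ := exists_max_ind G (W.filter (G.Adj r))
      refine ⟨{r}, W.filter (G.Adj r), I, by simpa using hr, Finset.filter_subset _ _, ?_, ?_,
        Ear.zero G r _ (fun w hw => (Finset.mem_filter.1 hw).2), hIU, hIi, hImax, ?_, by simp,
        by omega⟩
      · rw [Finset.disjoint_left]
        intro w hw hw'
        rw [Finset.mem_singleton.1 hw] at hw'
        exact G.loopless.irrefl _ (Finset.mem_filter.1 hw').2
      · rintro w hw - ⟨z, hz, hzw⟩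
        rw [Finset.mem_singleton.1 hz] at hzw
        exact Finset.mem_filter.2 ⟨hw, hzw⟩
      · have := hImax I0 (fun w hw => Finset.mem_filter.2 ⟨hI0W hw, hI0r w hw⟩) hI0i
        omega
    | succ h ih =>
      intro hh
      obtain ⟨R, U, I, hRW, hUW, hRU, hU1, hE, hI, hIi, hImax, hu, hrr, -⟩ := ih (by omega)
      obtain ⟨R', U', I', hR'W, hU'W, hRU', hU1', hE', hI', hIi', hImax', hcard, hstep⟩ :=
        bfs_step G W M a hM ha hno hexp hal hcl h (by (clear * - hh; omega)) R U I hRW hUW hRU hU1 hE hI hIi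
          hImax (Finset.card_pos.1 (by omega))
      obtain ⟨h1, h2, h3⟩ := bfs_arith (q := M / 2 - 1) rfl hM hh hu hrr hstep
      refine ⟨R', U', I', hR'W, hU'W, hRU', hU1', hE', hI', hIi', hImax', by (clear * - hu hcard h1; omega), ?_, ?_⟩
      · rw [hcard]; exact h3
      · intro h4 h5
        have := h2 h4 h5
        (clear * - hu hcard this; omega)
  obtain ⟨R, U, I, hRW, hUW, hRU, hU1, hE, hI, hIi, hImax, hu, hrr, hlast⟩ :=
    main (M / 2 - 1) le_rfl
  have h1 := hal I (hI.trans hUW) hIi
  rcases Nat.mod_two_eq_zero_or_one M with h2 | h2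
  · omega
  · have := hlast rfl h2
    omega

end Vale.Agent.P048
end
end

section

section

/-!
Crossing extension in path form, closing of two paths, paths inside cliques, gluing of
independent sets.
-/

namespace Vale.Agent.P048

open Finset

variable {V : Type*}

theorem IsPath.reverse {G : SimpleGraph V} {u v : V} {l : List V} (h : IsPath G u v l) :
    IsPath G v u l.reverse := by
  refine ⟨⟨?_, List.nodup_reverse.2 h.1.2⟩, ?_, ?_⟩
  · rw [List.isChain_reverse]
    exact h.1.1.imp (fun _ _ h => h.symm)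
  · rw [List.head?_reverse, h.2.2]
  · rw [List.getLast?_reverse, h.2.1]

theorem IsPath.ne_nil {G : SimpleGraph V} {u v : V} {l : List V} (h : IsPath G u v l) :
    l ≠ [] := by
  rintro rfl
  simp [IsPath] at h

theorem IsPath.length_pos {G : SimpleGraph V} {u v : V} {l : List V} (h : IsPath G u v l) :
    1 ≤ l.length := by
  have := h.ne_nil
  rcases l with _ | ⟨a, t⟩
  · exact absurd rfl this
  · simp only [List.length_cons, le_add_iff_nonneg_left, zero_le]

/-- closing of two disjoint paths -/
theorem IsPath.close {G : SimpleGraph V} {u v a b : V} {Y R : List V} (hY : IsPath G u v Y)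
    (hR : IsPath G a b R) (hd : ∀ w ∈ Y, w ∉ R) (h1 : G.Adj v a) (h2 : G.Adj b u) :
    IsC G (Y ++ R) := by
  refine ⟨?_, ?_, ?_⟩
  · rw [List.isChain_append]
    refine ⟨hY.1.1, hR.1.1, ?_⟩
    intro p hp q hq
    rw [hY.2.2, Option.mem_def, Option.some.injEq] at hp
    rw [hR.2.1, Option.mem_def, Option.some.injEq] at hq
    rw [← hp, ← hq]
    exact h1
  · rw [List.nodup_append']
    exact ⟨hY.1.2, hR.1.2, fun w hw hw2 => hd w hw hw2⟩
  · intro p hp q hq
    rw [List.getLast?_append_of_ne_nil _ hR.ne_nil, hR.2.2, Option.mem_def,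
      Option.some.injEq] at hp
    rw [List.head?_append, hY.2.1, Option.some_or, Option.mem_def, Option.some.injEq] at hq
    rw [← hp, ← hq]
    exact h2

/-- all values of a periodic sequence occur in every full window -/
theorem IsF.window {G : SimpleGraph V} {k : ℕ} {x : ℕ → V} (h : IsF G k x) (hk : 1 ≤ k)
    (s r : ℕ) : ∃ t < k, x (s + t) = x r := by
  refine ⟨(r + k * s - s) % k, Nat.mod_lt _ hk, ?_⟩
  have h1 : s ≤ k * s := Nat.le_mul_of_pos_left _ hk
  rw [← h.mod, Nat.add_mod, Nat.mod_mod, ← Nat.add_mod,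
    show s + (r + k * s - s) = r + k * s by omega, Nat.add_mul_mod_self_left, h.mod]

/-- crossing extension, the path around the cycle -/
theorem ce_path {G : SimpleGraph V} {ℓ : ℕ} {x : ℕ → V} (hx : IsF G ℓ x) (i j : ℕ)
    (hij : i < j) (hj : j < i + ℓ) (h3 : G.Adj (x (i + 1)) (x (j + 1))) :
    ∃ R : List V, IsPath G (x j) (x i) R ∧ R.length = ℓ ∧
      (∀ t, x t ∈ R) ∧ (∀ w ∈ R, ∃ t, x t = w) := by
  classical
  obtain ⟨s, rfl⟩ : ∃ s, j = i + 1 + s := ⟨j - (i + 1), by omega⟩
  obtain ⟨t, rfl⟩ : ∃ t, ℓ = s + t + 2 := ⟨ℓ - (s + 2), by omega⟩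
  set A := arc x (i + 1) s with hA
  set B := arc x (i + 1 + s + 1) t with hB
  have hAB : A ++ B = arc x (i + 1) (s + t + 1) := arc_append _ _ _
  have hnd : (A ++ B).Nodup := by
    rw [hAB]
    exact arc_nodup hx _ _ (by omega)
  have hAne : A.reverse ≠ [] := by
    intro h0
    have := congrArg List.length h0
    rw [List.length_reverse, hA, arc_length] at this
    simp at this
  have hBne : B ≠ [] := by
    intro h0
    have := congrArg List.length h0
    rw [hB, arc_length] at this
    simp at this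
  have hxper : x (i + 1 + s + 1 + t) = x i := by
    rw [show i + 1 + s + 1 + t = i + (s + t + 2) by omega]
    exact hx.2.1 i
  have hperm : (A.reverse ++ B).Perm (A ++ B) := by
    apply List.Perm.append_right
    exact List.reverse_perm A
  refine ⟨A.reverse ++ B, ⟨⟨?_, ?_⟩, ?_, ?_⟩, ?_, ?_, ?_⟩
  · rw [List.isChain_append]
    refine ⟨?_, arc_chain hx _ _, ?_⟩
    · rw [List.isChain_reverse]
      exact (arc_chain hx _ _).imp (fun _ _ h => h.symm)
    · intro a ha b hb
      rw [List.getLast?_reverse, hA, arc_head, Option.mem_def, Option.some.injEq] at ha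
      rw [hB, arc_head, Option.mem_def, Option.some.injEq] at hb
      rw [← ha, ← hb]
      exact h3
  · exact hperm.nodup_iff.2 hnd
  · rw [List.head?_append, List.head?_reverse, hA, arc_last, Option.some_or]
  · rw [List.getLast?_append_of_ne_nil _ hBne, hB, arc_last, hxper]
  · simp only [List.length_append, List.length_reverse, hA, hB, arc_length]
    omega
  · intro r
    rw [hperm.mem_iff, hAB, mem_arc]
    obtain ⟨q, hq, hq2⟩ := hx.window (by omega) (i + 1) r
    exact ⟨q, by omega, hq2⟩
  · intro w hw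
    rw [hperm.mem_iff, hAB] at hw
    obtain ⟨r, _, hr⟩ := mem_arc.1 hw
    exact ⟨_, hr⟩

/-- gluing of independent sets -/
theorem glue_ind {ι : Type*} [DecidableEq V] (G : SimpleGraph V) (s : Finset ι)
    (P : ι → Finset V) (hP : ∀ i ∈ s, Ind G (P i))
    (hsep : ∀ i ∈ s, ∀ j ∈ s, i ≠ j → ∀ w ∈ P i, ∀ w' ∈ P j, w ≠ w' ∧ ¬ G.Adj w w') :
    Ind G (s.biUnion P) ∧ (s.biUnion P).card = ∑ i ∈ s, (P i).card := by
  constructor
  · intro a ha b hb
    rw [Finset.mem_biUnion] at ha hb
    obtain ⟨i, hi, hia⟩ := ha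
    obtain ⟨j, hj, hjb⟩ := hb
    by_cases hij : i = j
    · subst hij
      exact hP i hi a hia b hjb
    · exact (hsep i hi j hj hij a hia b hjb).2
  · apply Finset.card_biUnion
    intro i hi j hj hij
    show Disjoint (P i) (P j)
    rw [Finset.disjoint_left]
    intro w hw hw'
    exact (hsep i hi j hj hij w hw w hw').1 rfl

end Vale.Agent.P048
end
end

section

section

/-!
Outside reach sets and the assembly of a large independent set.
-/

namespace Vale.Agent.P048

open Finset

variable {V : Type*}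

/-- `w` is reached from a neighbour of `a` by a path with at most `d` vertices inside `O` -/
def Reach (G : SimpleGraph V) (O : Finset V) (a : V) (d : ℕ) (w : V) : Prop :=
  w ∈ O ∧ ∃ u ∈ O, G.Adj a u ∧ ∃ p : (GR G O).Walk u w, p.length + 1 ≤ d

theorem Reach.of_adj {G : SimpleGraph V} {O : Finset V} {a w : V} {d : ℕ} (hd : 1 ≤ d)
    (hw : w ∈ O) (h : G.Adj a w) : Reach G O a d w :=
  ⟨hw, w, hw, h, SimpleGraph.Walk.nil, by simpa only [SimpleGraph.Walk.length_nil, zero_add] using hd⟩

theorem Reach.step {G : SimpleGraph V} {O : Finset V} {a w w' : V} {d : ℕ}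
    (h : Reach G O a d w) (hw' : w' ∈ O) (hadj : G.Adj w w') : Reach G O a (d + 1) w' := by
  obtain ⟨hw, u, hu, hau, p, hp⟩ := h
  have h1 : (GR G O).Adj w w' := ⟨hw, hw', hadj⟩
  refine ⟨hw', u, hu, hau, p.append (SimpleGraph.Walk.cons h1 SimpleGraph.Walk.nil), ?_⟩
  rw [SimpleGraph.Walk.length_append, SimpleGraph.Walk.length_cons,
    SimpleGraph.Walk.length_nil]
  omega

theorem Reach.mono {G : SimpleGraph V} {O : Finset V} {a w : V} {d d' : ℕ}
    (h : Reach G O a d w) (hd : d ≤ d') : Reach G O a d' w := by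
  obtain ⟨hw, u, hu, hau, p, hp⟩ := h
  exact ⟨hw, u, hu, hau, p, hp.trans hd⟩

theorem Reach.join {G : SimpleGraph V} {O : Finset V} {a b w w' : V} {d d' : ℕ}
    (h : Reach G O a d w) (h' : Reach G O b d' w') (hww : w = w' ∨ G.Adj w w') :
    ∃ u v : V, ∃ Y : List V, IsPath G u v Y ∧ Y.length ≤ d + d' ∧ (∀ z ∈ Y, z ∈ O) ∧
      G.Adj a u ∧ G.Adj v b := by
  obtain ⟨hw, u, hu, hau, p, hp⟩ := h
  obtain ⟨hw', v, hv, hbv, q, hq⟩ := h'
  have key : ∃ r : (GR G O).Walk u v, r.length + 1 ≤ d + d' := by
    rcases hww with rfl | hadj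
    · refine ⟨p.append q.reverse, ?_⟩
      rw [SimpleGraph.Walk.length_append, SimpleGraph.Walk.length_reverse]
      omega
    · have h1 : (GR G O).Adj w w' := ⟨hw, hw', hadj⟩
      refine ⟨p.append (SimpleGraph.Walk.cons h1 q.reverse), ?_⟩
      rw [SimpleGraph.Walk.length_append, SimpleGraph.Walk.length_cons,
        SimpleGraph.Walk.length_reverse]
      omega
  obtain ⟨r, hr⟩ := key
  obtain ⟨Y, hY1, hY2, hY3, hY4, hY5⟩ := walk_to_isP G O hu r
  exact ⟨u, v, Y, ⟨hY1, hY3, hY4⟩, hY2.trans hr, hY5, hau, hbv.symm⟩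

/-- assembly: reach sets of the vertices of `s` are separated, nonempty, and at most one of
them is a clique -/
theorem assemble (G : SimpleGraph V) (O s : Finset V) (d : ℕ)
    (hsep : ∀ a ∈ s, ∀ b ∈ s, a ≠ b → ∀ w w', Reach G O a d w → Reach G O b d w' →
      w ≠ w' ∧ ¬ G.Adj w w')
    (hone : ∀ a ∈ s, ∃ w, Reach G O a d w)
    (hbad : ∀ a ∈ s, ∀ b ∈ s,
      (∀ w w', Reach G O a d w → Reach G O a d w' → w ≠ w' → G.Adj w w') →
      (∀ w w', Reach G O b d w → Reach G O b d w' → w ≠ w' → G.Adj w w') → a = b) :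
    ∃ J ⊆ O, Ind G J ∧ 2 * s.card ≤ J.card + 1 := by
  classical
  set bad : V → Prop := fun a =>
    ∀ w w', Reach G O a d w → Reach G O a d w' → w ≠ w' → G.Adj w w' with hbaddef
  have hex : ∀ a, ∃ P : Finset V, a ∈ s → (∀ w ∈ P, Reach G O a d w) ∧ Ind G P ∧
      (if bad a then 1 else 2) ≤ P.card := by
    intro a
    by_cases has : a ∈ s
    · by_cases hb : bad a
      · obtain ⟨w, hw⟩ := hone a has
        refine ⟨{w}, fun _ => ⟨?_, ?_, ?_⟩⟩
        · intro z hz
          rw [Finset.mem_singleton.1 hz]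
          exact hw
        · intro p hp q hq
          rw [Finset.mem_singleton] at hp hq
          rw [hp, hq]
          exact G.loopless.irrefl _
        · rw [if_pos hb, Finset.card_singleton]
      · have hb' := hb
        rw [hbaddef] at hb'
        push Not at hb'
        obtain ⟨w, w', hw, hw', hne, hnadj⟩ := hb'
        refine ⟨{w, w'}, fun _ => ⟨?_, ?_, ?_⟩⟩
        · intro z hz
          rw [Finset.mem_insert, Finset.mem_singleton] at hz
          rcases hz with rfl | rfl
          · exact hw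
          · exact hw'
        · intro p hp q hq hpq
          rw [Finset.mem_insert, Finset.mem_singleton] at hp hq
          rcases hp with rfl | rfl <;> rcases hq with rfl | rfl
          · exact G.loopless.irrefl _ hpq
          · exact hnadj hpq
          · exact hnadj hpq.symm
          · exact G.loopless.irrefl _ hpq
        · rw [if_neg hb, Finset.card_pair hne]
    · exact ⟨∅, fun h => absurd h has⟩
  choose P hP using hex
  obtain ⟨h1, h2⟩ := glue_ind G s P (fun i hi => (hP i hi).2.1) (by
    intro i hi j hj hij w hw w' hw'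
    exact hsep i hi j hj hij w w' ((hP i hi).1 w hw) ((hP j hj).1 w' hw'))
  refine ⟨s.biUnion P, ?_, h1, ?_⟩
  · intro w hw
    rw [Finset.mem_biUnion] at hw
    obtain ⟨i, hi, hw⟩ := hw
    exact ((hP i hi).1 w hw).1
  · rw [h2]
    have h3 : ∑ a ∈ s, (if bad a then 1 else 2) ≤ ∑ a ∈ s, (P a).card :=
      Finset.sum_le_sum (fun a ha => (hP a ha).2.2)
    have h4 : ∑ a ∈ s, (if bad a then 1 else 2) + (s.filter bad).card = 2 * s.card := by
      rw [Finset.card_filter, ← Finset.sum_add_distrib, Finset.card_eq_sum_ones,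
        Finset.mul_sum]
      apply Finset.sum_congr rfl
      intro a _
      by_cases hb : bad a
      · rw [if_pos hb, if_pos hb, Nat.mul_one]
      · rw [if_neg hb, if_neg hb, Nat.add_zero, Nat.mul_one]
    have h5 : (s.filter bad).card ≤ 1 := by
      rw [Finset.card_le_one]
      intro a ha b hb
      rw [Finset.mem_filter] at ha hb
      exact hbad a ha.1 b hb.1 ha.2 hb.2
    omega

end Vale.Agent.P048
end
end

section

section

/-!
Shortening a path which contains a large clique.
-/

namespace Vale.Agent.P048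

open Finset

variable {V : Type*}

/-- cut the vertices strictly between two adjacent vertices of a path -/
theorem sh_cut {G : SimpleGraph V} {R : List V} {u v a b : V} (hR : IsPath G u v R) {i j : ℕ}
    (hij : i < j) (ha : R[i]? = some a) (hb : R[j]? = some b) (hab : G.Adj a b) :
    IsPath G u v (R.take (i + 1) ++ R.drop j) := by
  obtain ⟨⟨hc, hn⟩, hh, hl⟩ := hR
  have hi : i < R.length := by
    by_contra h
    rw [List.getElem?_eq_none (by omega)] at ha
    cases ha
  have hj : j < R.length := by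
    by_contra h
    rw [List.getElem?_eq_none (by omega)] at hb
    cases hb
  refine ⟨⟨?_, ?_⟩, ?_, ?_⟩
  · rw [List.isChain_append]
    refine ⟨hc.take _, hc.drop _, ?_⟩
    intro x hx y hy
    rw [List.head?_drop, hb] at hy
    rw [List.getLast?_take] at hx
    simp only [Nat.add_eq_zero_iff, one_ne_zero, and_false, if_false, Nat.add_sub_cancel, ha,
      Option.some_or] at hx
    cases hx
    cases hy
    exact hab
  · have hs : List.Sublist (R.take (i + 1) ++ R.drop j) R := by
      conv_rhs => rw [← List.take_append_drop (i + 1) R]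
      refine List.Sublist.append (List.Sublist.refl _) ?_
      have h2 : R.drop j = (R.drop (i + 1)).drop (j - (i + 1)) := by
        rw [List.drop_drop]
        congr 1
        omega
      rw [h2]
      exact List.drop_sublist _ _
    exact hs.nodup hn
  · rw [List.head?_append, List.head?_take]
    simp [hh]
  · rw [List.getLast?_append, List.getLast?_drop]
    simp [hl, not_le.2 hj]

theorem sh_cut_length {R : List V} {i j : ℕ} (hij : i < j) (hj : j < R.length) :
    (R.take (i + 1) ++ R.drop j).length + (j - i - 1) = R.length := by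
  simp only [List.length_append, List.length_take, List.length_drop]
  omega

theorem sh_cut_mem {R : List V} {i j : ℕ} : ∀ w ∈ R.take (i + 1) ++ R.drop j, w ∈ R := by
  intro w hw
  rcases List.mem_append.1 hw with h | h
  · exact List.mem_of_mem_take h
  · exact List.mem_of_mem_drop h

/-- two cuts -/
theorem sh_cut2 {G : SimpleGraph V} {R : List V} {u v a b a' b' : V} (hR : IsPath G u v R)
    {i j i' j' : ℕ} (hij : i < j) (hji : j ≤ i') (hij' : i' < j') (ha : R[i]? = some a)
    (hb : R[j]? = some b) (hab : G.Adj a b) (ha' : R[i']? = some a') (hb' : R[j']? = some b')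
    (hab' : G.Adj a' b') :
    ∃ R' : List V, IsPath G u v R' ∧ R'.length + (j - i - 1) + (j' - i' - 1) = R.length ∧
      ∀ w ∈ R', w ∈ R := by
  have hj' : j' < R.length := by
    by_contra h
    rw [List.getElem?_eq_none (by omega)] at hb'
    cases hb'
  set S := R.take (i' + 1) ++ R.drop j' with hS
  have h1 : IsPath G u v S := sh_cut hR hij' ha' hb' hab'
  have h2 : S.length + (j' - i' - 1) = R.length := sh_cut_length hij' hj'
  have key : ∀ k ≤ i', S[k]? = R[k]? := by
    intro k hk
    rw [hS, List.getElem?_append_left (by rw [List.length_take]; omega),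
      List.getElem?_take_of_lt (by omega)]
  have h3 : S[i]? = some a := by rw [key i (by omega), ha]
  have h4 : S[j]? = some b := by rw [key j hji, hb]
  have hjS : j < S.length := by
    by_contra h
    rw [List.getElem?_eq_none (by omega)] at h4
    cases h4
  refine ⟨_, sh_cut h1 hij h3 h4 hab, ?_, ?_⟩
  · rw [sh_cut_length hij hjS, h2]
  · intro w hw
    exact sh_cut_mem w (sh_cut_mem w hw)

theorem shorten (G : SimpleGraph V) (K : Finset V) (hK : Clq G K) (R : List V) (u v : V)
    (hR : IsPath G u v R) (hKR : ∀ w ∈ K, w ∈ R) (h5 : 5 ≤ K.card)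
    (hk : R.length + 3 ≤ 2 * K.card) (τ : ℕ) (hτ : τ ≤ 3) :
    ∃ R' : List V, IsPath G u v R' ∧ R'.length + τ = R.length ∧ ∀ w ∈ R', w ∈ R := by
  classical
  set s := R.length with hs
  set P : Finset ℕ := (Finset.range s).filter (fun i => ∃ w ∈ K, R[i]? = some w) with hP
  have hmem : ∀ i, i ∈ P ↔ ∃ w ∈ K, R[i]? = some w := by
    intro i
    rw [hP, Finset.mem_filter, Finset.mem_range]
    constructor
    · exact fun h => h.2
    · rintro ⟨w, hw, h⟩
      refine ⟨?_, w, hw, h⟩
      by_contra hlt
      rw [List.getElem?_eq_none (by omega)] at h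
      cases h
  have hPs : ∀ i ∈ P, i < s := by
    intro i hi
    exact Finset.mem_range.1 (Finset.mem_filter.1 hi).1
  have hcard : K.card ≤ P.card := by
    have h1 : K.image some ⊆ P.image (fun i => R[i]?) := by
      intro o ho
      obtain ⟨w, hw, rfl⟩ := Finset.mem_image.1 ho
      obtain ⟨i, hi⟩ := List.mem_iff_getElem?.1 (hKR w hw)
      exact Finset.mem_image.2 ⟨i, (hmem i).2 ⟨w, hw, hi⟩, hi⟩
    have h2 := Finset.card_le_card h1
    rw [Finset.card_image_of_injective _ (Option.some_injective _)] at h2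
    exact h2.trans Finset.card_image_le
  have hadj : ∀ i ∈ P, ∀ j ∈ P, i < j → ∃ a b, R[i]? = some a ∧ R[j]? = some b ∧ G.Adj a b := by
    intro i hi j hj hij
    obtain ⟨a, ha, hia⟩ := (hmem i).1 hi
    obtain ⟨b, hb, hjb⟩ := (hmem j).1 hj
    refine ⟨a, b, hia, hjb, hK a ha b hb ?_⟩
    intro hab
    have h2 : i = j := (List.getElem?_inj (hPs i hi) hR.1.2).1 (by rw [hia, hab, hjb])
    omega
  -- one cut
  have one : ∀ d : ℕ, (∃ i ∈ P, i + (d + 1) ∈ P) →
      ∃ R' : List V, IsPath G u v R' ∧ R'.length + d = s ∧ ∀ w ∈ R', w ∈ R := by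
    rintro d ⟨i, hi, hj⟩
    obtain ⟨a, b, ha, hb, hab⟩ := hadj i hi _ hj (by omega)
    refine ⟨_, sh_cut hR (by omega) ha hb hab, ?_, sh_cut_mem⟩
    have := sh_cut_length (R := R) (i := i) (j := i + (d + 1)) (by omega) (hPs _ hj)
    omega
  have two : ∀ i j i' j' : ℕ, i ∈ P → j ∈ P → i' ∈ P → j' ∈ P → i < j → j ≤ i' → i' < j' →
      (j - i - 1) + (j' - i' - 1) = τ →
      ∃ R' : List V, IsPath G u v R' ∧ R'.length + τ = s ∧ ∀ w ∈ R', w ∈ R := by
    intro i j i' j' hi hj hi' hj' h1 h2 h3 h4
    obtain ⟨a, b, ha, hb, hab⟩ := hadj i hi j hj h1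
    obtain ⟨a', b', ha', hb', hab'⟩ := hadj i' hi' j' hj' h3
    obtain ⟨R', h5, h6, h7⟩ := sh_cut2 hR h1 h2 h3 ha hb hab ha' hb' hab'
    exact ⟨R', h5, by omega, h7⟩
  by_cases h0 : τ = 0
  · subst h0
    exact ⟨R, hR, by omega, fun w hw => hw⟩
  by_cases hone : ∃ i ∈ P, i + (τ + 1) ∈ P
  · exact one τ hone
  push Not at hone
  -- the union of `P` and its translate
  set Q : Finset ℕ := P.image (fun i => i + (τ + 1)) with hQ
  have hQc : Q.card = P.card := Finset.card_image_of_injective _ (fun a b h => by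
    simpa using h)
  have hdisj : Disjoint P Q := by
    rw [Finset.disjoint_left]
    intro j hj hjQ
    obtain ⟨i, hi, rfl⟩ := Finset.mem_image.1 hjQ
    exact hone i hi hj
  have hsub : P ∪ Q ⊆ Finset.range (s + (τ + 1)) := by
    intro j hj
    rw [Finset.mem_range]
    rcases Finset.mem_union.1 hj with h | h
    · have := hPs j h
      omega
    · obtain ⟨i, hi, rfl⟩ := Finset.mem_image.1 h
      have := hPs i hi
      omega
  have hUc : (P ∪ Q).card = P.card + P.card := by
    rw [Finset.card_union_of_disjoint hdisj, hQc]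
  have hle := Finset.card_le_card hsub
  rw [hUc, Finset.card_range] at hle
  have hrest : (Finset.range (s + (τ + 1)) \ (P ∪ Q)).card + (P ∪ Q).card = s + (τ + 1) := by
    have := Finset.card_sdiff_add_card_eq_card hsub
    rwa [Finset.card_range] at this
  have hone' : (Finset.range (s + (τ + 1)) \ (P ∪ Q)).card ≤ τ - 2 := by omega
  have hs5 : 5 ≤ s := by
    have h1 : P ⊆ Finset.range s := fun i hi => Finset.mem_range.2 (hPs i hi)
    have h2 := Finset.card_le_card h1
    rw [Finset.card_range] at h2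
    omega
  -- missing elements
  have hlow : ∀ t, t < τ + 1 → t ∉ P → t ∈ Finset.range (s + (τ + 1)) \ (P ∪ Q) := by
    intro t ht htP
    rw [Finset.mem_sdiff, Finset.mem_range, Finset.mem_union]
    refine ⟨by omega, ?_⟩
    rintro (h | h)
    · exact htP h
    · obtain ⟨i, hi, h2⟩ := Finset.mem_image.1 h
      omega
  have hhigh : ∀ t, s ≤ t + (τ + 1) → t < s → t ∉ P →
      t + (τ + 1) ∈ Finset.range (s + (τ + 1)) \ (P ∪ Q) := by
    intro t ht hts htP
    rw [Finset.mem_sdiff, Finset.mem_range, Finset.mem_union]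
    refine ⟨by omega, ?_⟩
    rintro (h | h)
    · have := hPs _ h
      omega
    · obtain ⟨i, hi, h2⟩ := Finset.mem_image.1 h
      have : i = t := by omega
      exact htP (this ▸ hi)
  have hτ1 : τ ≠ 1 := by
    rintro rfl
    omega
  by_cases hτ2 : τ = 2
  · subst hτ2
    have hemp : Finset.range (s + (2 + 1)) \ (P ∪ Q) = ∅ := by
      rw [← Finset.card_eq_zero]
      omega
    have l0 : 0 ∈ P := by
      by_contra h
      have := hlow 0 (by omega) h
      rw [hemp] at this
      simp only [notMem_empty] at this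
    have l2 : 2 ∈ P := by
      by_contra h
      have := hlow 2 (by omega) h
      rw [hemp] at this
      simp at this
    have r3 : s - 3 ∈ P := by
      by_contra h
      have := hhigh (s - 3) (by omega) (by omega) h
      rw [hemp] at this
      simp only [Nat.reduceAdd, notMem_empty] at this
    have r1 : s - 1 ∈ P := by
      by_contra h
      have := hhigh (s - 1) (by omega) (by omega) h
      rw [hemp] at this
      simp only [Nat.reduceAdd, notMem_empty] at this
    exact two 0 2 (s - 3) (s - 1) l0 l2 r3 r1 (by omega) (by omega) (by omega) (by omega)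
  · have hτ3 : τ = 3 := by (clear * - hτ hk hcard hQc hUc hle hrest hτ2; omega)
    subst hτ3
    have huniq : ∀ a ∈ Finset.range (s + (3 + 1)) \ (P ∪ Q),
        ∀ b ∈ Finset.range (s + (3 + 1)) \ (P ∪ Q), a = b := Finset.card_le_one.1 hone'
    -- two missing elements give a contradiction
    have LL : ∀ a b, a < 4 → b < 4 → a ≠ b → a ∉ P → b ∉ P → False := fun a b h1 h2 h3 h4 h5 =>
      h3 (huniq _ (hlow a h1 h4) _ (hlow b h2 h5))
    have HH : ∀ a b, s ≤ a + 4 → a < s → s ≤ b + 4 → b < s → a ≠ b → a ∉ P → b ∉ P → False :=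
      fun a b h1 h1' h2 h2' h3 h4 h5 => h3 (by
        have := huniq _ (hhigh a h1 h1' h4) _ (hhigh b h2 h2' h5)
        omega)
    have LH : ∀ a b, a < 4 → s ≤ b + 4 → b < s → a ∉ P → b ∉ P → False :=
      fun a b h1 h2 h2' h4 h5 => by
        have := huniq _ (hlow a h1 h4) _ (hhigh b h2 h2' h5)
        omega
    by_cases hs7 : 7 ≤ s
    · by_cases h03 : 0 ∈ P ∧ 3 ∈ P
      · by_cases hA : s - 4 ∈ P ∧ s - 2 ∈ P
        · exact two 0 3 (s - 4) (s - 2) h03.1 h03.2 hA.1 hA.2 (by omega) (by omega) (by (clear * - hQc hUc hrest hs7; omega))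
            (by (clear * - hQc hUc hrest hs7; omega))
        · have hB : s - 3 ∈ P ∧ s - 1 ∈ P := by
            by_contra hB
            rw [not_and_or] at hA hB
            rcases hA with hA | hA <;> rcases hB with hB | hB
            · exact HH _ _ (by omega) (by omega) (by omega) (by omega) (by omega) hA hB
            · exact HH _ _ (by omega) (by omega) (by omega) (by omega) (by omega) hA hB
            · exact HH _ _ (by omega) (by omega) (by omega) (by omega) (by omega) hA hB
            · exact HH _ _ (by omega) (by omega) (by omega) (by omega) (by omega) hA hB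
          exact two 0 3 (s - 3) (s - 1) h03.1 h03.2 hB.1 hB.2 (by omega) (by omega) (by omega)
            (by (clear * - hQc hUc hrest hs7; omega))
      · have r4 : s - 4 ∈ P := by
          by_contra h
          rw [not_and_or] at h03
          rcases h03 with h03 | h03
          · exact LH _ _ (by omega) (by omega) (by omega) h03 h
          · exact LH _ _ (by omega) (by omega) (by omega) h03 h
        have r1 : s - 1 ∈ P := by
          by_contra h
          rw [not_and_or] at h03
          rcases h03 with h03 | h03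
          · exact LH _ _ (by omega) (by omega) (by omega) h03 h
          · exact LH _ _ (by omega) (by omega) (by omega) h03 h
        rw [not_and_or] at h03
        rcases h03 with h03 | h03
        · have l1 : 1 ∈ P := by
            by_contra h
            exact LL 0 1 (by omega) (by omega) (by omega) h03 h
          have l3 : 3 ∈ P := by
            by_contra h
            exact LL 0 3 (by omega) (by omega) (by omega) h03 h
          exact two 1 3 (s - 4) (s - 1) l1 l3 r4 r1 (by omega) (by omega) (by (clear * - hQc hUc hrest hs7; omega)) (by (clear * - hQc hUc hrest hs7; omega))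
        · have l0 : 0 ∈ P := by
            by_contra h
            exact LL 3 0 (by omega) (by omega) (by omega) h03 h
          have l2 : 2 ∈ P := by
            by_contra h
            exact LL 3 2 (by omega) (by omega) (by omega) h03 h
          exact two 0 2 (s - 4) (s - 1) l0 l2 r4 r1 (by omega) (by omega) (by (clear * - hQc hUc hrest hs7; omega)) (by (clear * - hQc hUc hrest hs7; omega))
    · -- short lists
      exfalso
      have hPr : P ⊆ Finset.range s := fun i hi => Finset.mem_range.2 (hPs i hi)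
      have hc2 := Finset.card_sdiff_add_card_eq_card hPr
      rw [Finset.card_range] at hc2
      by_cases h6 : s = 6
      · have hle1 : (Finset.range s \ P).card ≤ 1 := by omega
        have hu := Finset.card_le_one.1 hle1
        have hx : ∀ a, a < s → a ∉ P → a ∈ Finset.range s \ P := fun a h1 h2 =>
          Finset.mem_sdiff.2 ⟨Finset.mem_range.2 h1, h2⟩
        have e1 : 0 ∉ P ∨ 4 ∉ P := by
          by_contra h
          rw [not_or, not_not, not_not] at h
          exact hone 0 h.1 (by simpa only [Nat.reduceAdd, zero_add] using h.2)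
        have e2 : 1 ∉ P ∨ 5 ∉ P := by
          by_contra h
          rw [not_or, not_not, not_not] at h
          exact hone 1 h.1 (by simpa using h.2)
        rcases e1 with e1 | e1 <;> rcases e2 with e2 | e2
        · have := hu _ (hx 0 (by omega) e1) _ (hx 1 (by omega) e2)
          omega
        · have := hu _ (hx 0 (by omega) e1) _ (hx 5 (by omega) e2)
          omega
        · have := hu _ (hx 4 (by omega) e1) _ (hx 1 (by omega) e2)
          omega
        · have := hu _ (hx 4 (by omega) e1) _ (hx 5 (by omega) e2)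
          omega
      · have hle0 : Finset.range s \ P = ∅ := by
          rw [← Finset.card_eq_zero]
          omega
        have hall : ∀ a, a < s → a ∈ P := by
          intro a ha
          by_contra h
          have : a ∈ Finset.range s \ P := Finset.mem_sdiff.2 ⟨Finset.mem_range.2 ha, h⟩
          rw [hle0] at this
          simp at this
        exact hone 0 (hall 0 (by omega)) (hall _ (by omega))

end Vale.Agent.P048
end
end

section

section

/-!
The doubling lemma for a clique with `M` vertices.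
-/

namespace Vale.Agent.P048

open Finset

variable {V : Type*}

/-- paths inside a clique with prescribed ends and length -/
theorem clique_path [DecidableEq V] (G : SimpleGraph V) (K : Finset V) (hK : Clq G K) (a b : V)
    (ha : a ∈ K) (hb : b ∈ K) (hab : a ≠ b) (s : ℕ) (hs : 2 ≤ s) (hsK : s ≤ K.card) :
    ∃ R : List V, IsPath G a b R ∧ R.length = s ∧ ∀ w ∈ R, w ∈ K := by
  classical
  have hbe : b ∈ K.erase a := Finset.mem_erase.2 ⟨hab.symm, hb⟩
  have h1 : ((K.erase a).erase b).card = K.card - 2 := by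
    rw [Finset.card_erase_of_mem hbe, Finset.card_erase_of_mem ha]
    omega
  obtain ⟨L, hL, hLc⟩ := Finset.exists_subset_card_eq (s := (K.erase a).erase b) (n := s - 2)
    (by omega)
  have hmem : ∀ w ∈ L.toList, w ≠ a ∧ w ≠ b ∧ w ∈ K := by
    intro w hw
    have h2 := hL (Finset.mem_toList.1 hw)
    rw [Finset.mem_erase, Finset.mem_erase] at h2
    exact ⟨h2.2.1, h2.1, h2.2.2⟩
  have hnd : (a :: (L.toList ++ [b])).Nodup := by
    rw [List.nodup_cons, List.mem_append, List.mem_singleton, List.nodup_append']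
    refine ⟨?_, Finset.nodup_toList L, by simp, ?_⟩
    · rintro (h | h)
      · exact (hmem a h).1 rfl
      · exact hab h
    · intro w hw hw2
      rw [List.mem_singleton] at hw2
      exact (hmem w hw).2.1 hw2
  have hall : ∀ w ∈ a :: (L.toList ++ [b]), w ∈ K := by
    intro w hw
    rw [List.mem_cons, List.mem_append, List.mem_singleton] at hw
    rcases hw with rfl | hw | rfl
    · exact ha
    · exact (hmem w hw).2.2
    · exact hb
  refine ⟨a :: (L.toList ++ [b]), ⟨⟨?_, hnd⟩, rfl, ?_⟩, ?_, hall⟩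
  · rw [List.isChain_iff_getElem]
    intro i hi
    apply hK _ (hall _ (List.getElem_mem _)) _ (hall _ (List.getElem_mem _))
    intro h
    have := (List.Nodup.getElem_inj_iff hnd).1 h
    omega
  · rw [← List.cons_append, List.getLast?_append_of_ne_nil _ (by simp)]
    rfl
  · rw [List.length_cons, List.length_append, Finset.length_toList, hLc, List.length_singleton]
    omega

theorem doubling_top (G : SimpleGraph V) (W K : Finset V) (M : ℕ) (hM : 5 ≤ M)
    (hno : ¬ HasC G (M + 1)) (hdeg : ∀ v ∈ W, M ≤ dg G W v) (hKW : K ⊆ W) (hK : Clq G K)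
    (hkM : K.card = M) : ∃ J ⊆ W, Ind G J ∧ M + 1 ≤ J.card := by
  classical
  set O : Finset V := W \ K with hO
  have hOmem : ∀ w, w ∈ O ↔ w ∈ W ∧ w ∉ K := by
    intro w
    rw [hO, Finset.mem_sdiff]
  have hear : ∀ a ∈ K, ∀ b ∈ K, a ≠ b → ∀ u v : V, ∀ Y : List V, IsPath G u v Y →
      (∀ w ∈ Y, w ∈ O) → G.Adj a u → G.Adj v b → Y.length ≤ 4 → False := by
    intro a ha b hb hab u v Y hY hYO hau hvb hlen
    have hpos := hY.length_pos
    obtain ⟨R, hR, hRl, hRK⟩ := clique_path G K hK b a hb ha hab.symm (M + 1 - Y.length)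
      (by omega) (by omega)
    apply hno
    refine ⟨Y ++ R, by rw [List.length_append]; omega, ?_⟩
    refine hY.close hR ?_ hvb hau
    intro w hw hw2
    exact ((hOmem w).1 (hYO w hw)).2 (hRK w hw2)
  have hnoK : ∀ K' : Finset V, Clq G K' → K'.card ≤ M := by
    intro K' hK'
    by_contra hlt
    push Not at hlt
    exact hno (clique_hasC G K' hK' (M + 1) (by omega) hlt)
  have hone : ∀ a ∈ K, ∃ y ∈ O, G.Adj a y := by
    intro a ha
    by_contra hcon
    push Not at hcon
    have h1 := hdeg a (hKW ha)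
    rw [dg_eq_filter] at h1
    have hsub : W.filter (G.Adj a) ⊆ K.erase a := by
      intro w hw
      rw [Finset.mem_filter] at hw
      rw [Finset.mem_erase]
      refine ⟨?_, ?_⟩
      · rintro rfl
        exact G.loopless.irrefl _ hw.2
      · by_contra hwK
        exact hcon w ((hOmem w).2 ⟨hw.1, hwK⟩) hw.2
    have h2 := Finset.card_le_card hsub
    rw [Finset.card_erase_of_mem ha] at h2
    omega
  have hbad : ∀ a ∈ K,
      ¬ ∀ w w', Reach G O a 3 w → Reach G O a 3 w' → w ≠ w' → G.Adj w w' := by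
    intro a ha hcl
    obtain ⟨y, hy, hay⟩ := hone a ha
    set B : Finset V := O.filter (fun w => Reach G O a 3 w) with hB
    have hBmem : ∀ w, w ∈ B ↔ Reach G O a 3 w := by
      intro w
      rw [hB, Finset.mem_filter]
      exact ⟨fun h => h.2, fun h => ⟨h.1, h⟩⟩
    have hBW : ∀ w ∈ B, w ∈ W := fun w hw => ((hOmem w).1 ((hBmem w).1 hw).1).1
    have hBcl : Clq G B := fun u hu v hv huv =>
      hcl u v ((hBmem u).1 hu) ((hBmem v).1 hv) huv
    have hy1 : Reach G O a 1 y := Reach.of_adj le_rfl hy hay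
    have hyB : y ∈ B := (hBmem y).2 (hy1.mono (by omega))
    -- neighbours of y
    have hBc : M ≤ B.card := by
      have h1 := hdeg y ((hOmem y).1 hy).1
      rw [dg_eq_filter] at h1
      have hsub : W.filter (G.Adj y) ⊆ insert a (B.erase y) := by
        intro w hw
        rw [Finset.mem_filter] at hw
        rw [Finset.mem_insert, Finset.mem_erase]
        by_cases hwa : w = a
        · exact Or.inl hwa
        · right
          refine ⟨?_, ?_⟩
          · rintro rfl
            exact G.loopless.irrefl _ hw.2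
          · by_cases hwK : w ∈ K
            · exfalso
              refine hear a ha w hwK (fun h => hwa h.symm) y y [y]
                ⟨⟨by simp, by simp⟩, rfl, rfl⟩ ?_ hay hw.2 (by simp)
              intro z hz
              rw [List.mem_singleton] at hz
              rw [hz]
              exact hy
            · exact (hBmem w).2 ((hy1.step ((hOmem w).2 ⟨hw.1, hwK⟩) hw.2).mono (by omega))
      have h2 := (Finset.card_le_card hsub).trans (Finset.card_insert_le _ _)
      rw [Finset.card_erase_of_mem hyB] at h2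
      have h3 : 0 < B.card := Finset.card_pos.2 ⟨y, hyB⟩
      omega
    have haB : a ∉ B := by
      intro h
      exact ((hOmem a).1 ((hBmem a).1 h).1).2 ha
    obtain ⟨w, hwB, haw⟩ : ∃ w ∈ B, ¬ G.Adj a w := by
      by_contra hcon
      push Not at hcon
      have h1 := hnoK (insert a B) (by
        intro u hu v hv huv
        rw [Finset.mem_insert] at hu hv
        rcases hu with rfl | hu
        · rcases hv with rfl | hv
          · exact absurd rfl huv
          · exact hcon v hv
        · rcases hv with rfl | hv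
          · exact (hcon u hu).symm
          · exact hBcl u hu v hv huv)
      rw [Finset.card_insert_of_notMem haB] at h1
      omega
    have hyw : y ≠ w := by
      rintro rfl
      exact haw hay
    have hadj : G.Adj y w := hBcl y hyB w hwB hyw
    have hwO : w ∈ O := ((hBmem w).1 hwB).1
    obtain ⟨z, hz, hzB⟩ : ∃ z ∈ W.filter (G.Adj w), z ∉ B := by
      by_contra hcon
      push Not at hcon
      have h1 := hdeg w (hBW w hwB)
      rw [dg_eq_filter] at h1
      have hsub : W.filter (G.Adj w) ⊆ B.erase w := by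
        intro z hz
        rw [Finset.mem_erase]
        refine ⟨?_, hcon z hz⟩
        rintro rfl
        exact G.loopless.irrefl _ (Finset.mem_filter.1 hz).2
      have h2 := Finset.card_le_card hsub
      rw [Finset.card_erase_of_mem hwB] at h2
      have h3 := hnoK B hBcl
      omega
    rw [Finset.mem_filter] at hz
    by_cases hzK : z ∈ K
    · have hza : a ≠ z := by
        rintro rfl
        exact haw hz.2.symm
      refine hear a ha z hzK hza y w [y, w] ⟨⟨?_, ?_⟩, rfl, rfl⟩ ?_ hay hz.2 (by simp)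
      · rw [List.isChain_cons_cons]
        exact ⟨hadj, by simp⟩
      · simpa using hyw
      · intro p hp
        simp only [List.mem_cons, List.not_mem_nil, or_false] at hp
        rcases hp with rfl | rfl
        · exact hy
        · exact hwO
    · exact hzB ((hBmem z).2 ((hy1.step hwO hadj).step ((hOmem z).2 ⟨hz.1, hzK⟩) hz.2))
  obtain ⟨a, haK⟩ := Finset.card_pos.1 (show 0 < K.card by omega)
  have hb := hbad a haK
  push Not at hb
  obtain ⟨w1, w2, hw1, hw2, hne, hnadj⟩ := hb
  have hex : ∀ b, ∃ y, b ∈ K → y ∈ O ∧ G.Adj b y := by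
    intro b
    by_cases hbK : b ∈ K
    · obtain ⟨y, hy, hby⟩ := hone b hbK
      exact ⟨y, fun _ => ⟨hy, hby⟩⟩
    · exact ⟨b, fun h => absurd h hbK⟩
  choose y hy using hex
  set P : V → Finset V := fun b => if b = a then {w1, w2} else {y b} with hP
  have hPa : P a = {w1, w2} := by
    rw [hP]
    simp
  have hPb : ∀ b, b ≠ a → P b = {y b} := by
    intro b hba
    rw [hP]
    simp [hba]
  have key : ∀ b ∈ K, b ≠ a → ∀ w, Reach G O a 3 w → w ≠ y b ∧ ¬ G.Adj w (y b) := by
    intro b hbK hba w hw
    have hk : ¬ (w = y b ∨ G.Adj w (y b)) := by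
      intro hcon
      obtain ⟨u, v, Y, hY, hYl, hYO, h1, h2⟩ :=
        hw.join (Reach.of_adj (le_refl 1) (hy b hbK).1 (hy b hbK).2) hcon
      exact hear a haK b hbK hba.symm u v Y hY hYO h1 h2 hYl
    rw [not_or] at hk
    exact hk
  have key2 : ∀ b ∈ K, ∀ c ∈ K, b ≠ c → y b ≠ y c ∧ ¬ G.Adj (y b) (y c) := by
    intro b hbK c hcK hbc
    have hk : ¬ (y b = y c ∨ G.Adj (y b) (y c)) := by
      intro hcon
      obtain ⟨u, v, Y, hY, hYl, hYO, h1, h2⟩ :=
        (Reach.of_adj (le_refl 1) (hy b hbK).1 (hy b hbK).2).join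
          (Reach.of_adj (le_refl 1) (hy c hcK).1 (hy c hcK).2) hcon
      exact hear b hbK c hcK hbc u v Y hY hYO h1 h2 (by omega)
    rw [not_or] at hk
    exact hk
  have hmemP : ∀ w, w ∈ ({w1, w2} : Finset V) → Reach G O a 3 w := by
    intro w hw
    rw [Finset.mem_insert, Finset.mem_singleton] at hw
    rcases hw with rfl | rfl
    · exact hw1
    · exact hw2
  obtain ⟨h1, h2⟩ := glue_ind G K P (by
    intro b hbK
    by_cases hba : b = a
    · rw [hba, hPa]
      intro p hp q hq hpq
      rw [Finset.mem_insert, Finset.mem_singleton] at hp hq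
      rcases hp with rfl | rfl <;> rcases hq with rfl | rfl
      · exact G.loopless.irrefl _ hpq
      · exact hnadj hpq
      · exact hnadj hpq.symm
      · exact G.loopless.irrefl _ hpq
    · rw [hPb b hba]
      intro p hp q hq hpq
      rw [Finset.mem_singleton] at hp hq
      rw [hp, hq] at hpq
      exact G.loopless.irrefl _ hpq) (by
    intro b hbK c hcK hbc w hw w' hw'
    by_cases hba : b = a
    · have hca : c ≠ a := fun h => hbc (hba.trans h.symm)
      rw [hba, hPa] at hw
      rw [hPb c hca, Finset.mem_singleton] at hw'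
      rw [hw']
      exact key c hcK hca w (hmemP w hw)
    · rw [hPb b hba, Finset.mem_singleton] at hw
      by_cases hca : c = a
      · rw [hca, hPa] at hw'
        rw [hw]
        have h3 := key b hbK hba w' (hmemP w' hw')
        exact ⟨h3.1.symm, fun h => h3.2 h.symm⟩
      · rw [hPb c hca, Finset.mem_singleton] at hw'
        rw [hw, hw']
        exact key2 b hbK c hcK hbc)
  refine ⟨K.biUnion P, ?_, h1, ?_⟩
  · intro w hw
    rw [Finset.mem_biUnion] at hw
    obtain ⟨b, hbK, hw⟩ := hw
    by_cases hba : b = a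
    · rw [hba, hPa] at hw
      exact ((hOmem w).1 (hmemP w hw).1).1
    · rw [hPb b hba, Finset.mem_singleton] at hw
      rw [hw]
      exact ((hOmem _).1 (hy b hbK).1).1
  · rw [h2, ← Finset.add_sum_erase K _ haK, hPa, Finset.card_pair hne]
    have h3 : ∑ b ∈ K.erase a, (P b).card = ∑ b ∈ K.erase a, 1 := by
      apply Finset.sum_congr rfl
      intro b hb
      rw [hPb b (Finset.ne_of_mem_erase hb), Finset.card_singleton]
    rw [h3, Finset.sum_const, smul_eq_mul, mul_one, Finset.card_erase_of_mem haK]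
    omega

end Vale.Agent.P048
end
end

section

section

/-!
The doubling lemma.
-/

namespace Vale.Agent.P048

open Finset

variable {V : Type*}

/-- the second crossing path -/
theorem ce_path2 {G : SimpleGraph V} {ℓ : ℕ} {x : ℕ → V} (hx : IsF G ℓ x) (i j : ℕ)
    (hij : i < j) (hj : j < i + ℓ) (h3 : G.Adj (x i) (x j)) :
    ∃ R : List V, IsPath G (x (i + 1)) (x (j + 1)) R ∧ R.length = ℓ ∧
      (∀ w ∈ R, ∃ t, x t = w) := by
  classical
  obtain ⟨s, rfl⟩ : ∃ s, j = i + 1 + s := ⟨j - (i + 1), by omega⟩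
  obtain ⟨t, rfl⟩ : ∃ t, ℓ = s + t + 2 := ⟨ℓ - (s + 2), by omega⟩
  set A := arc x (i + 1) s with hA
  set B := arc x (i + 1 + s + 1) t with hB
  have hAB : A ++ B = arc x (i + 1) (s + t + 1) := arc_append _ _ _
  have hnd : (A ++ B).Nodup := by
    rw [hAB]
    exact arc_nodup hx _ _ (by omega)
  have hBne : B.reverse ≠ [] := by
    intro h0
    have := congrArg List.length h0
    rw [List.length_reverse, hB, arc_length] at this
    simp at this
  have hxper : x (i + 1 + s + 1 + t) = x i := by
    rw [show i + 1 + s + 1 + t = i + (s + t + 2) by omega]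
    exact hx.2.1 i
  have hperm : (A ++ B.reverse).Perm (A ++ B) := by
    apply List.Perm.append_left
    exact List.reverse_perm B
  refine ⟨A ++ B.reverse, ⟨⟨?_, ?_⟩, ?_, ?_⟩, ?_, ?_⟩
  · rw [List.isChain_append]
    refine ⟨arc_chain hx _ _, ?_, ?_⟩
    · rw [List.isChain_reverse]
      exact (arc_chain hx _ _).imp (fun _ _ h => h.symm)
    · intro a ha b hb
      rw [hA, arc_last, Option.mem_def, Option.some.injEq] at ha
      rw [List.head?_reverse, hB, arc_last, Option.mem_def, Option.some.injEq] at hb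
      rw [← ha, ← hb, hxper]
      exact h3.symm
  · exact hperm.nodup_iff.2 hnd
  · rw [List.head?_append, hA, arc_head, Option.some_or]
  · rw [List.getLast?_append_of_ne_nil _ hBne, List.getLast?_reverse, hB, arc_head]
  · simp only [List.length_append, List.length_reverse, hA, hB, arc_length]
    omega
  · intro w hw
    rw [hperm.mem_iff, hAB] at hw
    obtain ⟨r, _, hr⟩ := mem_arc.1 hw
    exact ⟨_, hr⟩

/-- no short ear between two predecessors of clique vertices on a maximal cycle -/
theorem no_ear4 (G : SimpleGraph V) (W K : Finset V) (M : ℕ) (hno : ¬ HasC G (M + 1))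
    (hK : Clq G K) (ℓ : ℕ) (x : ℕ → V) (hx : IsF G ℓ x) (hℓM : ℓ ≤ M)
    (hxW : ∀ i, x i ∈ W) (hKx : ∀ v ∈ K, ∃ i, x i = v) (h5 : 5 ≤ K.card)
    (hk : M + 3 ≤ 2 * K.card)
    (hmax : ∀ l, GCyc G W K M l → l.length ≤ ℓ) (i j : ℕ) (hi : i < ℓ) (hj : j < ℓ)
    (hij : i ≠ j) (hiK : x (i + 1) ∈ K) (hjK : x (j + 1) ∈ K)
    (u v : V) (Y : List V) (hY : IsPath G u v Y) (hYW : ∀ w ∈ Y, w ∈ W)
    (hYo : ∀ w ∈ Y, ∀ t, x t ≠ w)
    (hxu : G.Adj (x i) u) (hvx : G.Adj v (x j)) (h4 : Y.length ≤ 4) : False := by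
  classical
  have main : ∀ i j : ℕ, i < j → j < ℓ → x (i + 1) ∈ K →
      x (j + 1) ∈ K → ∀ u v : V, ∀ Y : List V, IsPath G u v Y → (∀ w ∈ Y, w ∈ W) →
      (∀ w ∈ Y, ∀ t, x t ≠ w) →
      G.Adj (x i) u → G.Adj v (x j) → Y.length ≤ 4 → False := by
    intro i j hij hj hiK hjK u v Y hY hYW hYo hxu hvx h4
    have h3 : G.Adj (x (i + 1)) (x (j + 1)) := by
      apply hK _ hiK _ hjK
      intro h
      have := hx.inj (i := 1) (s := i) (t := j) (by omega) (by omega)
        (by rw [Nat.add_comm 1 i, Nat.add_comm 1 j]; exact h)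
      omega
    obtain ⟨R, hR, hlen, hmem, hmem2⟩ := ce_path hx i j hij (by omega) h3
    have hYpos := hY.length_pos
    have hKR : ∀ w ∈ K, w ∈ R := by
      intro w hw
      obtain ⟨t, ht⟩ := hKx w hw
      rw [← ht]
      exact hmem t
    have hd : ∀ w ∈ Y, w ∉ R := by
      intro w hw hw2
      obtain ⟨t, ht⟩ := hmem2 w hw2
      exact hYo w hw t ht
    rcases Nat.lt_or_ge M (Y.length + ℓ) with hlt | hle
    · obtain ⟨R', hR', hlen', hsub⟩ := shorten G K hK R _ _ hR hKR h5 (by omega)
        (Y.length + ℓ - (M + 1)) (by (clear * - hℓM h4 hlen hYpos hlt; omega))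
      apply hno
      refine ⟨Y ++ R', by rw [List.length_append]; omega, ?_⟩
      exact hY.close hR' (fun w hw hw2 => hd w hw (hsub w hw2)) hvx hxu
    · have := hmax (Y ++ R) ⟨hY.close hR hd hvx hxu, ?_, ?_, ?_⟩
      · rw [List.length_append] at this
        omega
      · intro w hw
        rcases List.mem_append.1 hw with h | h
        · exact hYW w h
        · obtain ⟨t, ht⟩ := hmem2 w h
          rw [← ht]
          exact hxW t
      · intro w hw
        exact List.mem_append_right _ (hKR w hw)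
      · rw [List.length_append]
        omega
  rcases Nat.lt_or_gt_of_ne hij with h | h
  · exact main i j h hj hiK hjK u v Y hY hYW hYo hxu hvx h4
  · exact main j i h hi hjK hiK v u Y.reverse hY.reverse
      (fun w hw => hYW w (List.mem_reverse.1 hw)) (fun w hw => hYo w (List.mem_reverse.1 hw))
      hvx.symm hxu.symm (by rw [List.length_reverse]; exact h4)

/-- the structure at a bad predecessor -/
theorem bad_struct (G : SimpleGraph V) (W K : Finset V) (M : ℕ) (hno : ¬ HasC G (M + 1))
    (hK : Clq G K) (hKW : K ⊆ W) (hdeg : ∀ v ∈ W, M ≤ dg G W v)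
    (hKmax : ∀ K' ⊆ W, Clq G K' → K'.card ≤ K.card)
    (ℓ : ℕ) (x : ℕ → V) (hx : IsF G ℓ x) (hℓ1 : 1 ≤ ℓ) (hℓM : ℓ ≤ M)
    (hxW : ∀ i, x i ∈ W) (hKx : ∀ v ∈ K, ∃ i, x i = v) (O : Finset V)
    (hO : ∀ w, w ∈ O ↔ w ∈ W ∧ ∀ t, x t ≠ w)
    (h1 : ∀ i j, i < ℓ → j < ℓ → i ≠ j → x (i + 1) ∈ K → x (j + 1) ∈ K → ∀ y ∈ O,
      G.Adj (x i) y → ¬ G.Adj y (x j))
    (i : ℕ) (hi : i < ℓ) (hiK : x (i + 1) ∈ K)
    (hbad : ∀ w w', Reach G O (x i) 2 w → Reach G O (x i) 2 w' → w ≠ w' → G.Adj w w') :
    ℓ = M ∧ ∀ p, x p ∉ K → x (p + 2) ∉ K ∨ x (p + 1) = x i := by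
  classical
  -- the cycle as a set
  set S : Finset V := (range ℓ).image x with hS
  have hSmem : ∀ t, x t ∈ S := by
    intro t
    rw [hS, Finset.mem_image]
    exact ⟨t % ℓ, Finset.mem_range.2 (Nat.mod_lt _ hℓ1), hx.mod t⟩
  have hSc : S.card = ℓ := by
    rw [hS, Finset.card_image_of_injOn, Finset.card_range]
    intro a ha b hb hab
    rw [Finset.mem_coe, Finset.mem_range] at ha hb
    exact hx.2.2 a b ha hb hab
  have hsplit : ∀ w ∈ W, w ∈ S ∨ w ∈ O := by
    intro w hw
    by_cases h : ∃ t, x t = w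
    · obtain ⟨t, ht⟩ := h
      left
      rw [← ht]
      exact hSmem t
    · right
      push Not at h
      exact (hO w).2 ⟨hw, h⟩
  -- index sets
  have hA1 : ((range ℓ).filter (fun p => x p ∈ K)).card = K.card := by
    have : K = ((range ℓ).filter (fun p => x p ∈ K)).image x := by
      ext v
      rw [Finset.mem_image]
      constructor
      · intro hv
        obtain ⟨t, ht⟩ := hKx v hv
        refine ⟨t % ℓ, ?_, ?_⟩
        · rw [Finset.mem_filter, Finset.mem_range, hx.mod, ht]
          exact ⟨Nat.mod_lt _ hℓ1, hv⟩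
        · rw [hx.mod, ht]
      · rintro ⟨t, ht, rfl⟩
        exact (Finset.mem_filter.1 ht).2
    conv_rhs => rw [this]
    rw [Finset.card_image_of_injOn]
    intro a ha b hb hab
    rw [Finset.mem_coe, Finset.mem_filter, Finset.mem_range] at ha hb
    exact hx.2.2 a b ha.1 hb.1 hab
  have hA2 : K.card ≤ ((range ℓ).filter (fun p => x (p + 1) ∈ K)).card := by
    have : K ⊆ ((range ℓ).filter (fun i => x (i + 1) ∈ K)).image (fun i => x (i + 1)) := by
      intro v hv
      obtain ⟨i, hi⟩ := hKx v hv
      have h3 : x ((i + (ℓ - 1)) % ℓ + 1) = v := by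
        rw [hx.mod_add, show i + (ℓ - 1) + 1 = i + ℓ by omega, hx.2.1, hi]
      rw [Finset.mem_image]
      refine ⟨(i + (ℓ - 1)) % ℓ, ?_, h3⟩
      rw [Finset.mem_filter, Finset.mem_range, h3]
      exact ⟨Nat.mod_lt _ hℓ1, hv⟩
    exact (Finset.card_le_card this).trans Finset.card_image_le
  have hsum1 := Finset.card_filter_add_card_filter_not (s := range ℓ) (fun p => x p ∈ K)
  have hsum2 := Finset.card_filter_add_card_filter_not (s := range ℓ) (fun p => x (p + 1) ∈ K)
  rw [Finset.card_range] at hsum1 hsum2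
  -- the outside neighbour
  have hxi := hdeg (x i) (hxW i)
  rw [dg_eq_filter] at hxi
  obtain ⟨y, hyO, hxy⟩ : ∃ y ∈ O, G.Adj (x i) y := by
    by_contra hcon
    push Not at hcon
    have hsub : W.filter (G.Adj (x i)) ⊆ S.erase (x i) := by
      intro w hw
      rw [Finset.mem_filter] at hw
      rw [Finset.mem_erase]
      refine ⟨?_, ?_⟩
      · rintro rfl
        exact G.loopless.irrefl _ hw.2
      · rcases hsplit w hw.1 with h | h
        · exact h
        · exact absurd hw.2 (hcon w h)
    have h2 := Finset.card_le_card hsub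
    rw [Finset.card_erase_of_mem (hSmem i), hSc] at h2
    omega
  have hyW := ((hO y).1 hyO).1
  -- neighbours of y on the cycle
  set NS : Finset V := S.filter (G.Adj y) with hNS
  set NO : Finset V := O.filter (G.Adj y) with hNO
  set S' : Finset V := ((range ℓ).filter (fun p => ¬ x (p + 1) ∈ K)).image x with hS'
  have hS'c : S'.card + K.card ≤ ℓ := by
    have h2 : S'.card ≤ ((range ℓ).filter (fun p => ¬ x (p + 1) ∈ K)).card :=
      Finset.card_image_le
    omega
  have hNSsub : NS ⊆ insert (x i) S' := by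
    intro w hw
    rw [hNS, Finset.mem_filter, hS, Finset.mem_image] at hw
    obtain ⟨⟨p, hp, rfl⟩, hyp⟩ := hw
    rw [Finset.mem_range] at hp
    rw [Finset.mem_insert]
    by_cases hpi : p = i
    · left; rw [hpi]
    · right
      rw [hS', Finset.mem_image]
      refine ⟨p, ?_, rfl⟩
      rw [Finset.mem_filter, Finset.mem_range]
      refine ⟨hp, ?_⟩
      intro hpK
      exact h1 i p hi hp (fun h => hpi h.symm) hiK hpK y hyO hxy hyp
  have hNSc : NS.card ≤ S'.card + 1 :=
    (Finset.card_le_card hNSsub).trans (Finset.card_insert_le _ _)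
  -- outside neighbours of y
  have hyNO : y ∉ NO := by
    intro h
    exact G.loopless.irrefl _ (Finset.mem_filter.1 h).2
  have hNOc : NO.card + 1 ≤ K.card := by
    have h2 := hKmax (insert y NO) (by
      intro w hw
      rcases Finset.mem_insert.1 hw with rfl | h
      · exact hyW
      · exact ((hO w).1 (Finset.mem_filter.1 h).1).1) (by
      have hr : ∀ w ∈ insert y NO, Reach G O (x i) 2 w := by
        intro w hw
        rcases Finset.mem_insert.1 hw with rfl | h
        · exact Reach.of_adj (by omega) hyO hxy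
        · rw [Finset.mem_filter] at h
          exact (Reach.of_adj (le_refl 1) hyO hxy).step h.1 h.2
      intro a ha b hb hab
      exact hbad a b (hr a ha) (hr b hb) hab)
    rwa [Finset.card_insert_of_notMem hyNO] at h2
  have hyd := hdeg y hyW
  rw [dg_eq_filter] at hyd
  have hyd2 : (W.filter (G.Adj y)).card ≤ NS.card + NO.card := by
    refine (Finset.card_le_card ?_).trans (Finset.card_union_le _ _)
    intro w hw
    rw [Finset.mem_filter] at hw
    rw [Finset.mem_union, hNS, hNO, Finset.mem_filter, Finset.mem_filter]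
    rcases hsplit w hw.1 with h | h
    · exact Or.inl ⟨h, hw.2⟩
    · exact Or.inr ⟨h, hw.2⟩
  have hℓeq : ℓ = M := by omega
  refine ⟨hℓeq, ?_⟩
  -- no two neighbours y with adjacent predecessors
  have hcross : ∀ p q, p < ℓ → q < ℓ → p ≠ q → G.Adj y (x (p + 1)) → G.Adj y (x (q + 1)) →
      ¬ G.Adj (x p) (x q) := by
    have main : ∀ p q, p < q → q < ℓ → G.Adj y (x (p + 1)) → G.Adj y (x (q + 1)) →
        ¬ G.Adj (x p) (x q) := by
      intro p q hpq hq h2 h3 h4
      obtain ⟨R, hR, hlen, hmem⟩ := ce_path2 hx p q hpq (by (clear * - hSc hA1 hsum1 hsum2 hS'c hNSc hNOc hyd hyd2 hℓeq hq; omega)) h4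
      apply hno
      refine ⟨[y] ++ R, ?_, ?_⟩
      · rw [List.length_append, hlen, List.length_singleton, hℓeq, Nat.add_comm]
      · have hYp : IsPath G y y [y] := ⟨⟨by simp, by simp⟩, by simp, by simp⟩
        refine hYp.close hR ?_ h2 h3.symm
        intro w hw hw2
        rw [List.mem_singleton] at hw
        obtain ⟨t, ht⟩ := hmem w hw2
        exact ((hO y).1 hyO).2 t (ht.trans hw)
    intro p q hp hq hpq h2 h3 h4
    rcases Nat.lt_or_gt_of_ne hpq with h | h
    · exact main p q h hq h2 h3 h4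
    · exact main q p h hp h3 h2 h4.symm
  -- counting
  set T : Finset ℕ := (range ℓ).filter (fun p => G.Adj y (x (p + 1))) with hT
  have hTc : NS.card ≤ T.card := by
    have hsub : NS ⊆ T.image (fun p => x (p + 1)) := by
      intro w hw
      rw [hNS, Finset.mem_filter, hS, Finset.mem_image] at hw
      obtain ⟨⟨p, hp, rfl⟩, hyp⟩ := hw
      rw [Finset.mem_range] at hp
      have h3 : x ((p + (ℓ - 1)) % ℓ + 1) = x p := by
        rw [hx.mod_add, show p + (ℓ - 1) + 1 = p + ℓ by (clear * - hℓ1 hSc hA1 hsum1 hsum2; omega), hx.2.1]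
      rw [Finset.mem_image]
      refine ⟨(p + (ℓ - 1)) % ℓ, ?_, h3⟩
      rw [hT, Finset.mem_filter, Finset.mem_range, h3]
      exact ⟨Nat.mod_lt _ hℓ1, hyp⟩
    exact (Finset.card_le_card hsub).trans Finset.card_image_le
  have hT1 : (T.filter (fun p => x p ∈ K)).card ≤ 1 := by
    rw [Finset.card_le_one]
    intro p hp q hq
    by_contra hpq
    rw [Finset.mem_filter, hT, Finset.mem_filter, Finset.mem_range] at hp hq
    refine hcross p q hp.1.1 hq.1.1 hpq hp.1.2 hq.1.2 ?_
    apply hK _ hp.2 _ hq.2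
    intro h
    exact hpq (hx.2.2 p q hp.1.1 hq.1.1 h)
  have hTsum := Finset.card_filter_add_card_filter_not (s := T) (fun p => x p ∈ K)
  have hTsub : T.filter (fun p => ¬ x p ∈ K) ⊆ (range ℓ).filter (fun p => ¬ x p ∈ K) := by
    intro p hp
    rw [Finset.mem_filter, hT, Finset.mem_filter] at hp
    rw [Finset.mem_filter]
    exact ⟨hp.1.1, hp.2⟩
  have hTeq := Finset.eq_of_subset_of_card_le hTsub (by omega)
  have hyall : ∀ p, x p ∉ K → G.Adj y (x (p + 1)) := by
    intro p hp
    have h2 : p % ℓ ∈ (range ℓ).filter (fun p => ¬ x p ∈ K) := by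
      rw [Finset.mem_filter, Finset.mem_range, hx.mod]
      exact ⟨Nat.mod_lt _ hℓ1, hp⟩
    rw [← hTeq, Finset.mem_filter, hT, Finset.mem_filter, hx.mod_add] at h2
    exact h2.1.2
  intro p hp
  have h2 : x (p + 1) ∈ NS := by
    rw [hNS, Finset.mem_filter]
    exact ⟨hSmem _, hyall p hp⟩
  have h3 := hNSsub h2
  rw [Finset.mem_insert] at h3
  rcases h3 with h3 | h3
  · exact Or.inr h3
  · left
    rw [hS', Finset.mem_image] at h3
    obtain ⟨q, hq, hq2⟩ := h3
    rw [Finset.mem_filter, Finset.mem_range] at hq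
    have h4 : q = (p + 1) % ℓ := by
      apply hx.2.2 q _ hq.1 (Nat.mod_lt _ hℓ1)
      rw [hq2, hx.mod]
    have h5 : x (q + 1) = x (p + 2) := by
      rw [h4, hx.mod_add]
    rw [← h5]
    exact hq.2

theorem doubling5 (G : SimpleGraph V) (W K : Finset V) (M : ℕ) (hM : 5 ≤ M)
    (hno : ¬ HasC G (M + 1)) (hdeg : ∀ v ∈ W, M ≤ dg G W v) (hKW : K ⊆ W) (hK : Clq G K)
    (hmax : ∀ K' ⊆ W, Clq G K' → K'.card ≤ K.card) (hk : M + 3 ≤ 2 * K.card)
    (hk5 : 5 ≤ K.card) :
    ∃ J ⊆ W, Ind G J ∧ M + 1 ≤ J.card := by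
  classical
  have hKM : K.card ≤ M := by
    by_contra hlt
    push Not at hlt
    exact hno (clique_hasC G K hK (M + 1) (by omega) hlt)
  rcases Nat.eq_or_lt_of_le hKM with hkM | hkM
  · exact doubling_top G W K M hM hno hdeg hKW hK hkM
  obtain ⟨l, hl, hlmax⟩ := exists_max_gcyc G W K M
    (clique_gcyc G W K M hKW hK hKM (by omega))
  have hKl : K.card ≤ l.length := by
    have h1 : K ⊆ l.toFinset := fun v hv => List.mem_toFinset.2 (hl.2.2.1 v hv)
    exact (Finset.card_le_card h1).trans (List.toFinset_card_le _)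
  obtain ⟨x, hx, hxl⟩ := IsC.exists_isF G l hl.1 (by omega)
  set ℓ := l.length with hℓ
  have hℓ1 : 1 ≤ ℓ := by omega
  have hℓM : ℓ ≤ M := hl.2.2.2
  have hxl' : ∀ i, x i ∈ l := by
    intro i
    rw [← hx.mod i]
    exact (hxl _).2 ⟨i % ℓ, Nat.mod_lt _ hℓ1, rfl⟩
  have hxW : ∀ i, x i ∈ W := fun i => hl.2.1 _ (hxl' i)
  have hKx : ∀ v ∈ K, ∃ i, x i = v := by
    intro v hv
    obtain ⟨i, _, hi⟩ := (hxl v).1 (hl.2.2.1 v hv)
    exact ⟨i, hi⟩
  set O : Finset V := W.filter (fun w => ∀ t, x t ≠ w) with hO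
  have hOmem : ∀ w, w ∈ O ↔ w ∈ W ∧ ∀ t, x t ≠ w := by
    intro w
    rw [hO, Finset.mem_filter]
  set s : Finset V := ((range ℓ).filter (fun i => x (i + 1) ∈ K)).image x with hs
  have hsc : K.card ≤ s.card := by
    have h2 : K ⊆ ((range ℓ).filter (fun i => x (i + 1) ∈ K)).image (fun i => x (i + 1)) := by
      intro v hv
      obtain ⟨i, hi⟩ := hKx v hv
      have h3 : x ((i + (ℓ - 1)) % ℓ + 1) = v := by
        rw [hx.mod_add, show i + (ℓ - 1) + 1 = i + ℓ by omega, hx.2.1, hi]
      rw [Finset.mem_image]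
      refine ⟨(i + (ℓ - 1)) % ℓ, ?_, h3⟩
      rw [Finset.mem_filter, Finset.mem_range, h3]
      exact ⟨Nat.mod_lt _ hℓ1, hv⟩
    have h3 : s.card = ((range ℓ).filter (fun i => x (i + 1) ∈ K)).card := by
      rw [hs, Finset.card_image_of_injOn]
      intro a ha b hb hab
      rw [Finset.mem_coe, Finset.mem_filter, Finset.mem_range] at ha hb
      exact hx.2.2 a b ha.1 hb.1 hab
    rw [h3]
    exact (Finset.card_le_card h2).trans Finset.card_image_le
  have hsmem : ∀ a ∈ s, ∃ i, i < ℓ ∧ x (i + 1) ∈ K ∧ x i = a := by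
    intro a ha
    rw [hs, Finset.mem_image] at ha
    obtain ⟨i, hi, hia⟩ := ha
    rw [Finset.mem_filter, Finset.mem_range] at hi
    exact ⟨i, hi.1, hi.2, hia⟩
  have hear : ∀ i j, i < ℓ → j < ℓ → i ≠ j → x (i + 1) ∈ K → x (j + 1) ∈ K →
      ∀ u v : V, ∀ Y : List V, IsPath G u v Y → (∀ w ∈ Y, w ∈ O) → G.Adj (x i) u →
      G.Adj v (x j) → Y.length ≤ 4 → False := by
    intro i j hi hj hij hiK hjK u v Y hY hYO hxu hvx h4
    exact no_ear4 G W K M hno hK ℓ x hx hℓM hxW hKx (by omega) hk hlmax i j hi hj hij hiK hjK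
      u v Y hY (fun w hw => ((hOmem w).1 (hYO w hw)).1)
      (fun w hw => ((hOmem w).1 (hYO w hw)).2) hxu hvx h4
  have hear1 : ∀ i j, i < ℓ → j < ℓ → i ≠ j → x (i + 1) ∈ K → x (j + 1) ∈ K → ∀ y ∈ O,
      G.Adj (x i) y → ¬ G.Adj y (x j) := by
    intro i j hi hj hij hiK hjK y hy h1 h2
    exact hear i j hi hj hij hiK hjK y y [y] ⟨⟨by simp, by simp⟩, by simp, by simp⟩
      (by
        intro w hw
        rw [List.mem_singleton] at hw
        rw [hw]; exact hy) h1 h2 (by simp)
  obtain ⟨J, hJ, hJi, hJc⟩ := assemble G O s 2 (by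
    intro a ha b hb hab w w' hw hw'
    obtain ⟨i, hi, hiK, rfl⟩ := hsmem a ha
    obtain ⟨j, hj, hjK, rfl⟩ := hsmem b hb
    have hij : i ≠ j := by
      rintro rfl
      exact hab rfl
    have key : ¬ (w = w' ∨ G.Adj w w') := by
      intro hcon
      obtain ⟨u, v, Y, hY, hYl, hYO, h1, h2⟩ := hw.join hw' hcon
      exact hear i j hi hj hij hiK hjK u v Y hY hYO h1 h2 (by omega)
    rw [not_or] at key
    exact key) (by
    intro a ha
    obtain ⟨i, hi, hiK, rfl⟩ := hsmem a ha
    have hxi := hdeg (x i) (hxW i)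
    rw [dg_eq_filter] at hxi
    by_contra hcon
    push Not at hcon
    have hsub : W.filter (G.Adj (x i)) ⊆ l.toFinset.erase (x i) := by
      intro w hw
      rw [Finset.mem_filter] at hw
      rw [Finset.mem_erase, List.mem_toFinset]
      refine ⟨?_, ?_⟩
      · rintro rfl
        exact G.loopless.irrefl _ hw.2
      · by_contra hwl
        refine hcon w (Reach.of_adj (by omega) ?_ hw.2)
        rw [hOmem]
        refine ⟨hw.1, ?_⟩
        intro t ht
        exact hwl (ht ▸ hxl' t)
    have h2 := Finset.card_le_card hsub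
    rw [Finset.card_erase_of_mem (List.mem_toFinset.2 (hxl' i)),
      List.toFinset_card_of_nodup hl.1.2.1] at h2
    omega) (by
    intro a ha b hb hba hbb
    obtain ⟨i, hi, hiK, rfl⟩ := hsmem a ha
    obtain ⟨j, hj, hjK, rfl⟩ := hsmem b hb
    obtain ⟨hℓeq, h1⟩ := bad_struct G W K M hno hK hKW hdeg hmax ℓ x hx hℓ1 hℓM hxW hKx O
      hOmem hear1 i hi hiK hba
    obtain ⟨_, h2⟩ := bad_struct G W K M hno hK hKW hdeg hmax ℓ x hx hℓ1 hℓM hxW hKx O
      hOmem hear1 j hj hjK hbb
    by_contra hne
    -- a vertex of the cycle outside K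
    obtain ⟨p0, hp0⟩ : ∃ p, x p ∉ K := by
      by_contra hcon
      push Not at hcon
      have h3 : l.toFinset ⊆ K := by
        intro w hw
        rw [List.mem_toFinset] at hw
        obtain ⟨t, _, ht⟩ := (hxl w).1 hw
        rw [← ht]
        exact hcon t
      have h4 := Finset.card_le_card h3
      rw [List.toFinset_card_of_nodup hl.1.2.1] at h4
      omega
    have hstep : ∀ p, x p ∉ K → x (p + 2) ∉ K := by
      intro p hp
      rcases h1 p hp with h3 | h3
      · exact h3
      · rcases h2 p hp with h4 | h4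
        · exact h4
        · exact absurd (h3.symm.trans h4) hne
    have hall : ∀ n, x (p0 + 2 * n) ∉ K := by
      intro n
      induction n with
      | zero => simpa using hp0
      | succ n ih =>
        rw [show p0 + 2 * (n + 1) = p0 + 2 * n + 2 by ring]
        exact hstep _ ih
    have hE := card_E hx hℓ1 K hKx
    obtain ⟨q, hq⟩ := Finset.card_pos.1
      (show 0 < ((range ℓ).filter (fun i => x i ∈ K ∧ x (i + 1) ∈ K)).card by omega)
    rw [Finset.mem_filter] at hq
    have hper : ∀ t, x (t + ℓ * p0) = x t := by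
      intro t
      rw [← hx.mod, Nat.add_mul_mod_self_left, hx.mod]
    have hge : p0 ≤ ℓ * p0 := Nat.le_mul_of_pos_left _ hℓ1
    rcases Nat.even_or_odd' (q + ℓ * p0 - p0) with ⟨n, hn | hn⟩
    · have h3 : q + ℓ * p0 = p0 + 2 * n := by omega
      apply hall n
      rw [← h3, hper]
      exact hq.2.1
    · have h3 : q + 1 + ℓ * p0 = p0 + 2 * (n + 1) := by omega
      apply hall (n + 1)
      rw [← h3, hper]
      exact hq.2.2)
  exact ⟨J, fun w hw => ((hOmem w).1 (hJ hw)).1, hJi, by (clear * - hk hsc hJc; omega)⟩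

theorem doubling (G : SimpleGraph V) (W K : Finset V) (M : ℕ) (hM : 7 ≤ M)
    (hno : ¬ HasC G (M + 1)) (hdeg : ∀ v ∈ W, M ≤ dg G W v) (hKW : K ⊆ W) (hK : Clq G K)
    (hmax : ∀ K' ⊆ W, Clq G K' → K'.card ≤ K.card) (hk : M + 3 ≤ 2 * K.card) :
    ∃ J ⊆ W, Ind G J ∧ M + 1 ≤ J.card :=
  doubling5 G W K M (by omega) hno hdeg hKW hK hmax hk (by omega)

end Vale.Agent.P048
end
end

section

section

/-!
Bridge to the Mathlib notions and the lower bound graph.
-/

namespace Vale.Agent.P048

open Finset

variable {V : Type*}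

/-- bridge to Mathlib -/
theorem hasC_iff (G : SimpleGraph V) (m : ℕ) (hm : 3 ≤ m) :
    HasC G m ↔ (SimpleGraph.cycleGraph m).IsContained G := by
  have hpos : 0 < m := by omega
  constructor
  · rintro ⟨l, hlen, hl⟩
    obtain ⟨x, hx, -⟩ := IsC.exists_isF G l hl (by omega)
    rw [hlen] at hx
    have key : ∀ u v : Fin m, (v - u).val = 1 → G.Adj (x u.val) (x v.val) := by
      intro u v huv
      have hu := u.isLt
      have hv := v.isLt
      rw [Fin.sub_def] at huv
      simp only at huv
      have h1 : v.val = (u.val + 1) % m := by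
        rcases Nat.lt_or_ge v.val u.val with h2 | h2
        · rw [Nat.mod_eq_of_lt (by omega)] at huv
          have : u.val + 1 = m := by omega
          rw [this, Nat.mod_self]
          omega
        · have h3 : m - u.val + v.val = (v.val - u.val) + m := by omega
          rw [h3, Nat.add_mod_right, Nat.mod_eq_of_lt (by omega)] at huv
          rw [Nat.mod_eq_of_lt (by omega)]
          omega
      rw [h1, hx.mod]
      exact hx.1 _
    refine ⟨⟨⟨fun i => x i.val, ?_⟩, ?_⟩⟩
    · intro u v huv
      rw [SimpleGraph.cycleGraph_adj'] at huv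
      rcases huv with h1 | h1
      · exact (key v u h1).symm
      · exact key u v h1
    · intro u v huv
      exact Fin.ext (hx.2.2 _ _ u.isLt v.isLt huv)
  · rintro ⟨f⟩
    refine IsF.hasC G m (fun i => f ⟨i % m, Nat.mod_lt _ hpos⟩) ⟨?_, ?_, ?_⟩ (by omega)
    · intro i
      apply f.toHom.map_adj
      rw [SimpleGraph.cycleGraph_adj']
      right
      rw [Fin.sub_def]
      simp only
      have hi := Nat.mod_lt i hpos
      rcases Nat.lt_or_ge (i % m + 1) m with h1 | h1
      · have e1 : (i + 1) % m = i % m + 1 := by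
          rw [Nat.add_mod, Nat.mod_eq_of_lt (show 1 < m by omega), Nat.mod_eq_of_lt h1]
        rw [e1, show m - i % m + (i % m + 1) = 1 + m by omega, Nat.add_mod_right,
          Nat.mod_eq_of_lt (by omega)]
      · have e1 : (i + 1) % m = 0 := by
          have h2 : i % m + 1 = m := by omega
          have h3 := Nat.div_add_mod i m
          have : i + 1 = m * (i / m) + m := by omega
          rw [this]
          simp
        rw [e1, show m - i % m + 0 = 1 by omega, Nat.mod_eq_of_lt (by omega)]
    · intro i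
      simp only [Nat.add_mod_right]
    · intro i j hi hj hij
      have := f.injective hij
      rw [Fin.mk.injEq, Nat.mod_eq_of_lt hi, Nat.mod_eq_of_lt hj] at this
      exact this

/-- lower bound graph: disjoint union of `a` copies of `K_{m-1}` -/
theorem lower (m a : ℕ) (hm : 3 ≤ m) :
    ∃ G : SimpleGraph (Fin ((m - 1) * a)), ¬ HasC G m ∧ ∀ s, Ind G s → s.card ≤ a := by
  classical
  have hpos : 0 < m - 1 := by omega
  let G : SimpleGraph (Fin ((m - 1) * a)) :=
    { Adj := fun i j => i ≠ j ∧ i.val / (m - 1) = j.val / (m - 1)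
      symm := ⟨fun i j h => ⟨h.1.symm, h.2.symm⟩⟩
      loopless := ⟨fun i h => h.1 rfl⟩ }
  refine ⟨G, ?_, ?_⟩
  · rintro ⟨l, hlen, hl⟩
    obtain ⟨x, hx, -⟩ := IsC.exists_isF G l hl (by omega)
    rw [hlen] at hx
    have hconst : ∀ i, (x i).val / (m - 1) = (x 0).val / (m - 1) := by
      intro i
      induction i with
      | zero => rfl
      | succ i ih => rw [← (hx.1 i).2, ih]
    have hmaps : Set.MapsTo (fun i => (x i).val % (m - 1)) (range m) (range (m - 1)) := by
      intro i _
      rw [Finset.mem_coe, Finset.mem_range]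
      exact Nat.mod_lt _ hpos
    obtain ⟨i, hi, j, hj, hne, hij⟩ := Finset.exists_ne_map_eq_of_card_lt_of_maps_to
      (s := range m) (t := range (m - 1)) (by simp only [card_range, tsub_lt_self_iff, Order.lt_one_iff, and_true]; omega) hmaps
    rw [Finset.mem_range] at hi hj
    apply hne
    apply hx.2.2 i j hi hj
    apply Fin.ext
    have h1 := Nat.div_add_mod (x i).val (m - 1)
    have h2 := Nat.div_add_mod (x j).val (m - 1)
    rw [hconst i] at h1
    rw [hconst j] at h2
    omega
  · intro s hs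
    have : (s : Finset (Fin ((m - 1) * a))).card ≤ (range a).card := by
      apply Finset.card_le_card_of_injOn (fun i => i.val / (m - 1))
      · intro i _
        rw [Finset.mem_coe, Finset.mem_range]
        exact Nat.div_lt_of_lt_mul i.isLt
      · intro i hi j hj hij
        by_contra hne
        exact hs i hi j hj ⟨hne, hij⟩
    rwa [Finset.card_range] at this

/-- the combinatorial form implies the Ramsey number identity -/
theorem isLeast_of_upper (m n : ℕ) (hm : 3 ≤ m) (hn : 1 ≤ n)
    (h : ∀ G : SimpleGraph (Fin ((m - 1) * (n - 1) + 1)), ¬ HasC G m →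
      ∃ J : Finset (Fin ((m - 1) * (n - 1) + 1)), Ind G J ∧ J.card = n) :
    IsLeast {N : ℕ | ∀ G : SimpleGraph (Fin N),
      (SimpleGraph.cycleGraph m).IsContained G ∨ ∃ s : Finset (Fin N), G.IsNIndepSet n s}
      ((m - 1) * (n - 1) + 1) := by
  classical
  constructor
  · intro G
    by_cases hG : HasC G m
    · exact Or.inl ((hasC_iff G m hm).1 hG)
    · obtain ⟨J, hJ, hJc⟩ := h G hG
      refine Or.inr ⟨J, ?_, hJc⟩
      intro u hu v hv _ huv
      exact hJ u hu v hv huv
  · intro N hN
    by_contra hlt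
    push Not at hlt
    obtain ⟨G, hG, hGi⟩ := lower m (n - 1) hm
    have hle : N ≤ (m - 1) * (n - 1) := by omega
    let f : Fin N ↪ Fin ((m - 1) * (n - 1)) := Fin.castLEEmb hle
    rcases hN (G.comap f) with h1 | ⟨s, h1⟩
    · apply hG
      rw [hasC_iff G m hm]
      obtain ⟨c⟩ := h1
      exact ⟨(SimpleGraph.Embedding.comap f G).toCopy.comp c⟩
    · have h2 : Ind G (s.map f) := by
        intro u hu v hv huv
        rw [Finset.mem_map] at hu hv
        obtain ⟨u', hu', rfl⟩ := hu
        obtain ⟨v', hv', rfl⟩ := hv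
        exact h1.isIndepSet hu' hv' (fun h3 => by
          rw [h3] at huv
          exact G.loopless.irrefl _ huv) huv
      have h3 := hGi _ h2
      rw [Finset.card_map, h1.card_eq] at h3
      omega

end Vale.Agent.P048
end
end

section

section

/-!
The full range `m ≥ n` for `m ≥ 9`.
-/

namespace Vale.Agent.P048

open Finset

theorem upper3 {V : Type*} (G : SimpleGraph V) (W : Finset V) (M k : ℕ) (hM : 8 ≤ M)
    (hkM : k ≤ M) (hal : AlLe G W k) (hW : M * k + 1 ≤ W.card) : HasC G (M + 1) := by
  classical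
  by_contra hno
  obtain ⟨H, hHW, j, hj, h1, h2, h3⟩ := exists_expd G M W.card W k le_rfl hal hW
  obtain ⟨K0, hK0, hc0, hk0⟩ := clique_lemma G H M j hM (hj.trans hkM) hno h3 h1 h2
  -- a maximum clique
  obtain ⟨K, hK, hKmax⟩ := Finset.exists_max_image
    (H.powerset.filter (fun K => Clq G K)) Finset.card
    ⟨K0, by simp [hK0, hc0]⟩
  rw [Finset.mem_filter, Finset.mem_powerset] at hK
  have hle : K0.card ≤ K.card := hKmax K0 (by simp [hK0, hc0])
  obtain ⟨J, hJ, hJi, hJc⟩ := doubling G H K M (by omega) hno (fun v hv => h3.deg hv) hK.1 hK.2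
    (fun K' hK' hc' => hKmax K' (by simp [hK', hc'])) (by omega)
  have := h1 J hJ hJi
  omega

/-- the identity for all `m ≥ n` with `m ≥ 9` -/
theorem nine_range (m n : ℕ) (hn : 1 ≤ n) (hnm : n ≤ m) (hm : 9 ≤ m) :
    IsLeast {N : ℕ | ∀ G : SimpleGraph (Fin N),
      (SimpleGraph.cycleGraph m).IsContained G ∨ ∃ s : Finset (Fin N), G.IsNIndepSet n s}
      ((m - 1) * (n - 1) + 1) := by
  classical
  apply isLeast_of_upper m n (by omega) (by omega)
  intro G hG
  by_contra hcon
  push Not at hcon
  apply hG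
  have hal : AlLe G (Finset.univ : Finset (Fin ((m - 1) * (n - 1) + 1))) (n - 1) := by
    intro I _ hI
    by_contra hlt
    push Not at hlt
    obtain ⟨J, hJ, hc⟩ := Finset.exists_subset_card_eq (s := I) (n := n) (by omega)
    exact hcon J (fun a ha b hb => hI a (hJ ha) b (hJ hb)) hc
  have h1 := upper3 G Finset.univ (m - 1) (n - 1) (by omega) (by omega) hal
    (by rw [Finset.card_univ, Fintype.card_fin])
  rwa [show m - 1 + 1 = m by omega] at h1

/-- the identity for `m ≥ 2 n - 1` -/
theorem half_range (m n : ℕ) (hn : 2 ≤ n) (hm : 2 * n ≤ m + 1) :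
    IsLeast {N : ℕ | ∀ G : SimpleGraph (Fin N),
      (SimpleGraph.cycleGraph m).IsContained G ∨ ∃ s : Finset (Fin N), G.IsNIndepSet n s}
      ((m - 1) * (n - 1) + 1) := by
  classical
  apply isLeast_of_upper m n (by omega) (by omega)
  intro G hG
  obtain ⟨J, _, hJi, hJc⟩ := upper_half G m (by omega) (n - 1) (by omega) Finset.univ
    (by rw [Finset.card_univ, Fintype.card_fin]) hG
  exact ⟨J, hJi, by omega⟩

end Vale.Agent.P048
end
end

section

section

/-!
The exceptional pair `(3, 3)`.
-/

namespace Vale.Agent.P048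

theorem not_contained_three : ¬ (SimpleGraph.cycleGraph 3).IsContained (SimpleGraph.cycleGraph 5) := by
  rintro ⟨f⟩
  have h : ∀ a b c : Fin 5, (SimpleGraph.cycleGraph 5).Adj a b →
      (SimpleGraph.cycleGraph 5).Adj b c → ¬ (SimpleGraph.cycleGraph 5).Adj c a := by
    decide
  have h01 : (SimpleGraph.cycleGraph 3).Adj 0 1 := by decide
  have h12 : (SimpleGraph.cycleGraph 3).Adj 1 2 := by decide
  have h20 : (SimpleGraph.cycleGraph 3).Adj 2 0 := by decide
  exact h _ _ _ (f.toHom.map_adj h01) (f.toHom.map_adj h12) (f.toHom.map_adj h20)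

theorem not_indep_three : ¬ ∃ s : Finset (Fin 5), (SimpleGraph.cycleGraph 5).IsNIndepSet 3 s := by
  rintro ⟨s, hs⟩
  have h : ∀ s : Finset (Fin 5), s.card = 3 →
      ∃ a ∈ s, ∃ b ∈ s, (SimpleGraph.cycleGraph 5).Adj a b := by
    decide
  obtain ⟨a, ha, b, hb, hab⟩ := h s hs.card_eq
  exact hs.isIndepSet ha hb hab.ne hab

theorem not_three_three :
    ¬ IsLeast {N : ℕ | ∀ G : SimpleGraph (Fin N),
      (SimpleGraph.cycleGraph 3).IsContained G ∨ ∃ s : Finset (Fin N), G.IsNIndepSet 3 s} 5 := by
  intro h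
  rcases h.1 (SimpleGraph.cycleGraph 5) with h1 | h1
  · exact not_contained_three h1
  · exact not_indep_three h1

end Vale.Agent.P048
end
end

section

section

/-!
The case `M = 3` (cycles of length four).
-/

namespace Vale.Agent.P048

open Finset

variable {V : Type*}

theorem hasC_four {G : SimpleGraph V} {a b c d : V} (h1 : G.Adj a b) (h2 : G.Adj b c)
    (h3 : G.Adj c d) (h4 : G.Adj d a) (hac : a ≠ c) (hbd : b ≠ d) : HasC G 4 := by
  refine ⟨[a, b, c, d], rfl, ?_, ?_, ?_⟩
  · simp [h1, h2, h3]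
  · simp [h1.ne, h2.ne, h3.ne, h4.ne.symm, hac, hbd]
  · intro x hx y hy
    simp at hx hy
    rw [← hx, ← hy]
    exact h4

theorem ind_insert3 {G : SimpleGraph V} [DecidableEq V] {s : Finset V} {v : V} (hs : Ind G s)
    (hv : ∀ w ∈ s, ¬ G.Adj v w) : Ind G (insert v s) := by
  intro a ha b hb hab
  rcases Finset.mem_insert.1 ha with h1 | h1 <;> rcases Finset.mem_insert.1 hb with h2 | h2
  · rw [h1, h2] at hab; exact G.loopless.irrefl _ hab
  · rw [h1] at hab; exact hv b h2 hab
  · rw [h2] at hab; exact hv a h1 hab.symm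
  · exact hs a h1 b h2 hab

theorem ind_single3 {G : SimpleGraph V} (v : V) : Ind G {v} := by
  intro a ha b hb hab
  rw [Finset.mem_singleton] at ha hb
  rw [ha, hb] at hab
  exact G.loopless.irrefl _ hab

/-- `R(3,3) ≤ 6` -/
theorem ramsey33 (G : SimpleGraph V) (S : Finset V) (hS : 6 ≤ S.card) :
    (∃ a ∈ S, ∃ b ∈ S, ∃ c ∈ S, G.Adj a b ∧ G.Adj b c ∧ G.Adj a c) ∨
    ∃ I ⊆ S, Ind G I ∧ 3 ≤ I.card := by
  classical
  by_contra hcon
  push Not at hcon
  obtain ⟨hT, hI⟩ := hcon
  obtain ⟨v, hv⟩ : S.Nonempty := Finset.card_pos.1 (by omega)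
  set S' := S.erase v with hS'
  have hc : S'.card + 1 = S.card := Finset.card_erase_add_one hv
  have h1 : (S'.filter (G.Adj v)).card + (S'.filter (fun w => ¬ G.Adj v w)).card = S'.card :=
    Finset.card_filter_add_card_filter_not _
  have hc5 : 5 ≤ S'.card := by omega
  rcases Nat.lt_or_ge 2 (S'.filter (G.Adj v)).card with h2 | h2
  · have hind : Ind G (S'.filter (G.Adj v)) := by
      intro a ha b hb hab
      rw [Finset.mem_filter, hS', Finset.mem_erase] at ha hb
      exact hT v hv a ha.1.2 b hb.1.2 ha.2 hab hb.2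
    have := hI (S'.filter (G.Adj v)) ((Finset.filter_subset _ _).trans (Finset.erase_subset _ _))
      hind
    omega
  · set T := S'.filter (fun w => ¬ G.Adj v w) with hTdef
    have hTc : 3 ≤ T.card := by omega
    have hTS : T ⊆ S := (Finset.filter_subset _ _).trans (Finset.erase_subset _ _)
    have hclq : Clq G T := by
      intro a ha b hb hab
      by_contra hnadj
      have h3 : Ind G {v, a, b} := by
        refine ind_insert3 (ind_insert3 (ind_single3 b) ?_) ?_
        · intro w hw
          rw [Finset.mem_singleton.1 hw]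
          exact hnadj
        · intro w hw
          rw [Finset.mem_insert, Finset.mem_singleton] at hw
          rcases hw with rfl | rfl
          · exact (Finset.mem_filter.1 ha).2
          · exact (Finset.mem_filter.1 hb).2
      have hva : v ≠ a := fun h => by
        rw [← h, hTdef, Finset.mem_filter, hS'] at ha
        exact absurd ha.1 (Finset.notMem_erase _ _)
      have hvb : v ≠ b := fun h => by
        rw [← h, hTdef, Finset.mem_filter, hS'] at hb
        exact absurd hb.1 (Finset.notMem_erase _ _)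
      have h4 := hI {v, a, b} (by
        intro w hw
        rw [Finset.mem_insert, Finset.mem_insert, Finset.mem_singleton] at hw
        rcases hw with rfl | rfl | rfl
        · exact hv
        · exact hTS ha
        · exact hTS hb) h3
      rw [Finset.card_insert_of_notMem (by simp [hva, hvb]),
        Finset.card_insert_of_notMem (by simpa using hab), Finset.card_singleton] at h4
      omega
    obtain ⟨a, ha, b, hb, c, hc', hab, hac, hbc⟩ := Finset.two_lt_card.1 hTc
    exact hT a (hTS ha) b (hTS hb) c (hTS hc') (hclq a ha b hb hab) (hclq b hb c hc' hbc)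
      (hclq a ha c hc' hac)

theorem case3 (G : SimpleGraph V) (H : Finset V) (a : ℕ) (ha : a ≤ 3)
    (hno : ¬ HasC G 4) (hdeg : ∀ v ∈ H, 3 ≤ dg G H v) (hal : AlLe G H a)
    (hH : 3 * a + 1 ≤ H.card) : False := by
  classical
  have hdeg' : ∀ v ∈ H, 3 ≤ (H.filter (G.Adj v)).card := by
    intro v hv
    have := hdeg v hv
    rwa [dg_eq_filter] at this
  -- a triangle
  obtain ⟨x1, hx1, x2, hx2, x3, hx3, h12, h23, h13⟩ : ∃ a ∈ H, ∃ b ∈ H, ∃ c ∈ H,
      G.Adj a b ∧ G.Adj b c ∧ G.Adj a c := by
    by_contra hT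
    push Not at hT
    obtain ⟨r, hr⟩ : H.Nonempty := Finset.card_pos.1 (by omega)
    have hind : Ind G (H.filter (G.Adj r)) := by
      intro a ha b hb hab
      rw [Finset.mem_filter] at ha hb
      exact hT r hr a ha.1 b hb.1 ha.2 hab hb.2
    have h1 := hal _ (Finset.filter_subset _ _) hind
    have h2 := hdeg' r hr
    set S := (H.erase r).filter (fun w => ¬ G.Adj r w) with hS
    have h3 : ((H.erase r).filter (G.Adj r)).card + S.card = (H.erase r).card :=
      Finset.card_filter_add_card_filter_not _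
    have h4 : (H.erase r).card + 1 = H.card := Finset.card_erase_add_one hr
    have h5 : ((H.erase r).filter (G.Adj r)).card ≤ (H.filter (G.Adj r)).card :=
      Finset.card_le_card (Finset.filter_subset_filter _ (Finset.erase_subset _ _))
    have hSH : S ⊆ H := (Finset.filter_subset _ _).trans (Finset.erase_subset _ _)
    rcases ramsey33 G S (by omega) with ⟨a, ha, b, hb, c, hc, hab, hbc, hac⟩ | ⟨I, hI, hIi, hIc⟩
    · exact hT a (hSH ha) b (hSH hb) c (hSH hc) hab hbc hac
    · have h6 : Ind G (insert r I) := ind_insert3 hIi (fun w hw => (Finset.mem_filter.1 (hI hw)).2)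
      have hrI : r ∉ I := fun h => by
        have := hI h
        rw [hS, Finset.mem_filter] at this
        exact absurd this.1 (Finset.notMem_erase _ _)
      have h7 := hal _ (Finset.insert_subset hr (hI.trans hSH)) h6
      rw [Finset.card_insert_of_notMem hrI] at h7
      omega
  -- the three outside neighbourhoods
  set x : Fin 3 → V := ![x1, x2, x3] with hx
  have hxH : ∀ i, x i ∈ H := by
    intro i
    fin_cases i
    · exact hx1
    · exact hx2
    · exact hx3
  have hxx : ∀ i j, i ≠ j → G.Adj (x i) (x j) := by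
    intro i j hij
    fin_cases i <;> fin_cases j
    · exact absurd rfl hij
    · exact h12
    · exact h13
    · exact h12.symm
    · exact absurd rfl hij
    · exact h23
    · exact h13.symm
    · exact h23.symm
    · exact absurd rfl hij
  have hthird : ∀ i j : Fin 3, i ≠ j → ∃ k, k ≠ i ∧ k ≠ j := by decide
  have hother : ∀ i : Fin 3, ∃ j k, i ≠ j ∧ i ≠ k ∧ j ≠ k := by decide
  set Y : Fin 3 → Finset V := fun i => H.filter (fun w => G.Adj (x i) w ∧ ∀ j, w ≠ x j) with hYdef
  have hY : ∀ i w, w ∈ Y i ↔ w ∈ H ∧ G.Adj (x i) w ∧ ∀ j, w ≠ x j := by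
    intro i w
    rw [hYdef, Finset.mem_filter]
  have hYne : ∀ i, (Y i).Nonempty := by
    intro i
    by_contra h0
    rw [Finset.not_nonempty_iff_eq_empty] at h0
    have h1 : H.filter (G.Adj (x i)) ⊆ (Finset.univ.image x).erase (x i) := by
      intro w hw
      rw [Finset.mem_filter] at hw
      rw [Finset.mem_erase]
      refine ⟨hw.2.ne.symm, ?_⟩
      by_contra h2
      have : w ∈ Y i := (hY i w).2 ⟨hw.1, hw.2, fun j hj => h2 (by
        rw [hj]; exact Finset.mem_image_of_mem _ (Finset.mem_univ _))⟩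
      rw [h0] at this
      exact absurd this (Finset.notMem_empty _)
    have h2 := Finset.card_le_card h1
    rw [Finset.card_erase_of_mem (Finset.mem_image_of_mem _ (Finset.mem_univ _))] at h2
    have h3 : (Finset.univ.image x).card ≤ 3 := Finset.card_image_le.trans (by simp)
    have := hdeg' (x i) (hxH i)
    omega
  -- separation
  have hsep : ∀ i j, i ≠ j → ∀ w ∈ Y i, ∀ w' ∈ Y j, w ≠ w' ∧ ¬ G.Adj w w' := by
    intro i j hij w hw w' hw'
    rw [hY] at hw hw'
    obtain ⟨k, hki, hkj⟩ := hthird i j hij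
    constructor
    · rintro rfl
      exact hno (hasC_four hw.2.1.symm (hxx i k hki.symm) (hxx k j hkj) hw'.2.1 (hw.2.2 k)
        (hxx i j hij).ne)
    · intro hadj
      exact hno (hasC_four hw.2.1 hadj hw'.2.1.symm (hxx j i hij.symm) (hw'.2.2 i).symm (hw.2.2 j))
  have hYH : ∀ i, Y i ⊆ H := fun i w hw => ((hY i w).1 hw).1
  -- the sets are cliques
  have hYclq : ∀ i, Clq G (Y i) := by
    intro i w hw w' hw' hne
    by_contra hnadj
    obtain ⟨j, k, hij, hik, hjk⟩ := hother i
    obtain ⟨u, hu⟩ := hYne j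
    obtain ⟨v, hv⟩ := hYne k
    have h1 := hsep i j hij w hw u hu
    have h2 := hsep i j hij w' hw' u hu
    have h3 := hsep i k hik w hw v hv
    have h4 := hsep i k hik w' hw' v hv
    have h5 := hsep j k hjk u hu v hv
    have h6 : Ind G {w, w', u, v} := by
      refine ind_insert3 (ind_insert3 (ind_insert3 (ind_single3 v) ?_) ?_) ?_
      · intro z hz
        rw [Finset.mem_singleton.1 hz]
        exact h5.2
      · intro z hz
        rw [Finset.mem_insert, Finset.mem_singleton] at hz
        rcases hz with rfl | rfl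
        · exact h2.2
        · exact h4.2
      · intro z hz
        rw [Finset.mem_insert, Finset.mem_insert, Finset.mem_singleton] at hz
        rcases hz with rfl | rfl | rfl
        · exact hnadj
        · exact h1.2
        · exact h3.2
    have h7 := hal {w, w', u, v} (by
      intro z hz
      rw [Finset.mem_insert, Finset.mem_insert, Finset.mem_insert, Finset.mem_singleton] at hz
      rcases hz with rfl | rfl | rfl | rfl
      · exact hYH i hw
      · exact hYH i hw'
      · exact hYH j hu
      · exact hYH k hv) h6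
    rw [Finset.card_insert_of_notMem (by simp [hne, h1.1, h3.1]),
      Finset.card_insert_of_notMem (by simp [h2.1, h4.1]),
      Finset.card_insert_of_notMem (by simp [h5.1]), Finset.card_singleton] at h7
    omega
  have hYc : ∀ i, (Y i).card ≤ 2 := by
    intro i
    by_contra hlt
    push Not at hlt
    obtain ⟨a, ha, b, hb, c, hc, hab, hac, hbc⟩ := Finset.two_lt_card.1 hlt
    exact hno (hasC_four ((hY i a).1 ha).2.1 (hYclq i a ha b hb hab) (hYclq i b hb c hc hbc)
      ((hY i c).1 hc).2.1.symm (((hY i b).1 hb).2.2 i).symm hac)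
  -- the rest
  set Z := H.filter (fun z => (∀ j, z ≠ x j) ∧ ∀ j, z ∉ Y j) with hZ
  have hZx : ∀ z ∈ Z, ∀ i, ¬ G.Adj (x i) z := by
    intro z hz i hadj
    rw [hZ, Finset.mem_filter] at hz
    exact hz.2.2 i ((hY i z).2 ⟨hz.1, hadj, hz.2.1⟩)
  have hZtwo : ∀ z ∈ Z, ∀ i j, i ≠ j → (∀ y ∈ Y i, G.Adj z y) ∨ (∀ y ∈ Y j, G.Adj z y) := by
    intro z hz i j hij
    by_contra hcon
    push Not at hcon
    obtain ⟨⟨u, hu, hzu⟩, ⟨v, hv, hzv⟩⟩ := hcon
    obtain ⟨k, hki, hkj⟩ := hthird i j hij
    have h5 := hsep i j hij u hu v hv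
    have hzx := hZx z hz k
    have hz' := hz
    rw [hZ, Finset.mem_filter] at hz'
    have hxu : ¬ G.Adj (x k) u := fun h =>
      (hsep k i hki u ((hY k u).2 ⟨hYH i hu, h, ((hY i u).1 hu).2.2⟩) u hu).1 rfl
    have hxv : ¬ G.Adj (x k) v := fun h =>
      (hsep k j hkj v ((hY k v).2 ⟨hYH j hv, h, ((hY j v).1 hv).2.2⟩) v hv).1 rfl
    have h6 : Ind G {x k, z, u, v} := by
      refine ind_insert3 (ind_insert3 (ind_insert3 (ind_single3 v) ?_) ?_) ?_
      · intro w hw
        rw [Finset.mem_singleton.1 hw]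
        exact h5.2
      · intro w hw
        rw [Finset.mem_insert, Finset.mem_singleton] at hw
        rcases hw with rfl | rfl
        · exact hzu
        · exact hzv
      · intro w hw
        rw [Finset.mem_insert, Finset.mem_insert, Finset.mem_singleton] at hw
        rcases hw with rfl | rfl | rfl
        · exact hzx
        · exact hxu
        · exact hxv
    have h7 := hal {x k, z, u, v} (by
      intro w hw
      rw [Finset.mem_insert, Finset.mem_insert, Finset.mem_insert, Finset.mem_singleton] at hw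
      rcases hw with rfl | rfl | rfl | rfl
      · exact hxH k
      · exact hz'.1
      · exact hYH i hu
      · exact hYH j hv) h6
    have h8 : x k ≠ z := (hz'.2.1 k).symm
    have h9 : x k ≠ u := (((hY i u).1 hu).2.2 k).symm
    have h10 : x k ≠ v := (((hY j v).1 hv).2.2 k).symm
    have h11 : z ≠ u := fun h => hz'.2.2 i (h ▸ hu)
    have h12 : z ≠ v := fun h => hz'.2.2 j (h ▸ hv)
    rw [Finset.card_insert_of_notMem (by simp [h8, h9, h10]),
      Finset.card_insert_of_notMem (by simp [h11, h12]),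
      Finset.card_insert_of_notMem (by simp [h5.1]), Finset.card_singleton] at h7
    omega
  have hZone : ∀ z ∈ Z, ∀ i, (∀ y ∈ Y i, G.Adj z y) → (Y i).card ≤ 1 := by
    intro z hz i hzi
    rw [Finset.card_le_one]
    intro a ha b hb
    by_contra hab
    have hz' := hz
    rw [hZ, Finset.mem_filter] at hz'
    exact hno (hasC_four (hzi a ha) ((hY i a).1 ha).2.1.symm ((hY i b).1 hb).2.1
      (hzi b hb).symm (hz'.2.1 i) hab)
  set P : Fin 3 → Finset V := fun k => Z.filter (fun z => ∀ i, i ≠ k → ∀ y ∈ Y i, G.Adj z y)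
    with hP
  have hPone : ∀ k, (P k).card ≤ 1 := by
    intro k
    rw [Finset.card_le_one]
    intro a ha b hb
    by_contra hab
    rw [hP, Finset.mem_filter] at ha hb
    obtain ⟨i, j, hik', hjk', hij⟩ := hother k
    have hik := hik'.symm
    have hjk := hjk'.symm
    obtain ⟨u, hu⟩ := hYne i
    obtain ⟨v, hv⟩ := hYne j
    exact hno (hasC_four (ha.2 i hik u hu) (hb.2 i hik u hu).symm (hb.2 j hjk v hv)
      (ha.2 j hjk v hv).symm hab (hsep i j hij u hu v hv).1)
  have hfail : ∀ z ∈ Z, ∀ k, ¬ (∀ y ∈ Y k, G.Adj z y) → z ∈ P k := by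
    intro z hz k hk
    rw [hP, Finset.mem_filter]
    refine ⟨hz, fun i hik => ?_⟩
    rcases hZtwo z hz i k hik with h | h
    · exact h
    · exact absurd h hk
  have hZP : Z ⊆ P 0 ∪ (P 1 ∪ P 2) := by
    intro z hz
    rw [Finset.mem_union, Finset.mem_union]
    by_contra hcon
    push Not at hcon
    have h0 : ∀ y ∈ Y 0, G.Adj z y := by
      by_contra h
      exact hcon.1 (hfail z hz 0 h)
    have h1 : ∀ y ∈ Y 1, G.Adj z y := by
      by_contra h
      exact hcon.2.1 (hfail z hz 1 h)
    have h2 : ∀ y ∈ Y 2, G.Adj z y := by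
      by_contra h
      exact hcon.2.2 (hfail z hz 2 h)
    apply hcon.1
    rw [hP, Finset.mem_filter]
    refine ⟨hz, fun i _ => ?_⟩
    fin_cases i
    · exact h0
    · exact h1
    · exact h2
  have hZ3 : Z.card ≤ 3 := by
    have h1 := (Finset.card_le_card hZP).trans (Finset.card_union_le _ _)
    have h2 := Finset.card_union_le (P 1) (P 2)
    have := hPone 0
    have := hPone 1
    have := hPone 2
    omega
  have hcover : H ⊆ Finset.univ.image x ∪ (Finset.univ.biUnion Y ∪ Z) := by
    intro w hw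
    by_cases h1 : w ∈ Finset.univ.image x
    · exact Finset.mem_union_left _ h1
    · apply Finset.mem_union_right
      by_cases h2 : w ∈ Finset.univ.biUnion Y
      · exact Finset.mem_union_left _ h2
      · apply Finset.mem_union_right
        rw [hZ, Finset.mem_filter]
        refine ⟨hw, fun j hj => h1 ?_, fun j hj => h2 ?_⟩
        · rw [hj]; exact Finset.mem_image_of_mem _ (Finset.mem_univ _)
        · exact Finset.mem_biUnion.2 ⟨j, Finset.mem_univ _, hj⟩
  have hcard := (Finset.card_le_card hcover).trans (Finset.card_union_le _ _)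
  have hcard2 := Finset.card_union_le (Finset.univ.biUnion Y) Z
  have hcard3 : (Finset.univ.image x).card ≤ 3 := Finset.card_image_le.trans (by simp)
  have hcard4 : (Finset.univ.biUnion Y).card ≤ (Y 0).card + (Y 1).card + (Y 2).card := by
    refine Finset.card_biUnion_le.trans ?_
    rw [Fin.sum_univ_three]
  -- `a = 3`
  have ha3 : 3 ≤ a := by
    obtain ⟨u, hu⟩ := hYne 0
    obtain ⟨v, hv⟩ := hYne 1
    obtain ⟨w, hw⟩ := hYne 2
    have h1 := hsep 0 1 (by decide) u hu v hv
    have h2 := hsep 0 2 (by decide) u hu w hw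
    have h3 := hsep 1 2 (by decide) v hv w hw
    have h6 : Ind G {u, v, w} := by
      refine ind_insert3 (ind_insert3 (ind_single3 w) ?_) ?_
      · intro z hz
        rw [Finset.mem_singleton.1 hz]
        exact h3.2
      · intro z hz
        rw [Finset.mem_insert, Finset.mem_singleton] at hz
        rcases hz with rfl | rfl
        · exact h1.2
        · exact h2.2
    have h7 := hal {u, v, w} (by
      intro z hz
      rw [Finset.mem_insert, Finset.mem_insert, Finset.mem_singleton] at hz
      rcases hz with rfl | rfl | rfl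
      · exact hYH 0 hu
      · exact hYH 1 hv
      · exact hYH 2 hw) h6
    rw [Finset.card_insert_of_notMem (by simp [h1.1, h2.1]),
      Finset.card_insert_of_notMem (by simp [h3.1]), Finset.card_singleton] at h7
    exact h7
  -- numbers
  have hbig : ∀ i, 2 ≤ (Y i).card → Z.card ≤ 1 ∧ (1 ≤ Z.card → ∀ j, j ≠ i → (Y j).card ≤ 1) := by
    intro i hi
    have h1 : ∀ z ∈ Z, z ∈ P i := by
      intro z hz
      apply hfail z hz i
      intro h
      have := hZone z hz i h
      omega
    refine ⟨(Finset.card_le_card (fun z hz => h1 z hz)).trans (hPone i), ?_⟩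
    intro hZpos j hj
    obtain ⟨z, hz⟩ := Finset.card_pos.1 hZpos
    have h2 := h1 z hz
    rw [hP, Finset.mem_filter] at h2
    exact hZone z hz j (h2.2 j hj)
  have hb0 := hbig 0
  have hb1 := hbig 1
  have hb2 := hbig 2
  have hc0 := hYc 0
  have hc1 := hYc 1
  have hc2 := hYc 2
  rcases Nat.lt_or_ge (Y 0).card 2 with h0 | h0
  · rcases Nat.lt_or_ge (Y 1).card 2 with h1 | h1
    · rcases Nat.lt_or_ge (Y 2).card 2 with h2 | h2
      · omega
      · obtain ⟨h3, h4⟩ := hb2 h2
        omega
    · obtain ⟨h3, h4⟩ := hb1 h1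
      rcases Nat.lt_or_ge Z.card 1 with h5 | h5
      · omega
      · have := h4 h5 2 (by decide)
        omega
  · obtain ⟨h3, h4⟩ := hb0 h0
    rcases Nat.lt_or_ge Z.card 1 with h5 | h5
    · omega
    · have := h4 h5 2 (by decide)
      have := h4 h5 1 (by decide)
      omega

/-- the case of cycles of length four -/
theorem small3 (G : SimpleGraph V) (W : Finset V) (k : ℕ) (hk : k ≤ 3) (hal : AlLe G W k)
    (hW : 3 * k + 1 ≤ W.card) : HasC G 4 := by
  by_contra hno
  obtain ⟨H, hHW, j, hj, h1, h2, h3⟩ := exists_expd G 3 W.card W k le_rfl hal hW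
  exact case3 G H j (hj.trans hk) hno (fun v hv => h3.deg hv) h1 h2

end Vale.Agent.P048
end
end

section

section

/-!
The case of the cycle with five vertices.
-/

namespace Vale.Agent.P048

open Finset

variable {V : Type*}

/-- an expanding subset with the exact number of vertices -/
theorem exists_exact (G : SimpleGraph V) (θ : ℕ) (W : Finset V) (k : ℕ) (hal : AlLe G W k)
    (hW : θ * k + 1 ≤ W.card) :
    ∃ H ⊆ W, ∃ j ≤ k, AlLe G H j ∧ H.card = θ * j + 1 ∧ Expd G H θ := by
  classical
  have hex : ∃ j, ∃ H ⊆ W, AlLe G H j ∧ θ * j + 1 ≤ H.card := ⟨k, W, subset_rfl, hal, hW⟩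
  obtain ⟨H, hHW, hHal, hHc⟩ := Nat.find_spec hex
  have hmin := fun t => Nat.find_min hex (m := t)
  have hjk : Nat.find hex ≤ k := Nat.find_min' hex ⟨W, subset_rfl, hal, hW⟩
  set j := Nat.find hex with hj
  obtain ⟨H0, hH0, hH0c⟩ := Finset.exists_subset_card_eq hHc
  obtain ⟨H1, hH1, j1, hj1, h1, h2, h3⟩ := exists_expd G θ H0.card H0 j le_rfl (hHal.mono hH0)
    hH0c.ge
  have hjj : j1 = j := by
    rcases hj1.lt_or_eq with hlt | heq
    · exact absurd ⟨H1, (hH1.trans hH0).trans hHW, h1, h2⟩ (hmin j1 hlt)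
    · exact heq
  subst hjj
  have hHH : H1 = H0 := Finset.eq_of_subset_of_card_le hH1 (by omega)
  subst hHH
  exact ⟨H1, hH0.trans hHW, _, hjk, h1, hH0c, h3⟩

theorem hasC5 {G : SimpleGraph V} {a b c d e : V} (hnd : [a, b, c, d, e].Nodup)
    (h1 : G.Adj a b) (h2 : G.Adj b c) (h3 : G.Adj c d) (h4 : G.Adj d e) (h5 : G.Adj e a) :
    HasC G 5 := by
  refine ⟨[a, b, c, d, e], rfl, ?_, hnd, ?_⟩
  · simp [h1, h2, h3, h4]
  · simp only [List.getLast?_cons_cons, List.getLast?_singleton, Option.mem_def, Option.some.injEq, List.head?_cons, forall_eq', h5]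

/-- four clique exists -/
theorem clq4 (G : SimpleGraph V) (W : Finset V) (a : ℕ) (ha : a ≤ 4) (hno : ¬ HasC G 5)
    (hexp : Expd G W 4) (hal : AlLe G W a) (hW : 4 * a + 1 ≤ W.card) :
    ∃ K ⊆ W, Clq G K ∧ K.card = 4 := by
  classical
  by_contra hcon
  have hcl : ∀ K ⊆ W, Clq G K → K.card ≤ 4 / 2 + 1 := by
    intro K hK hKc
    by_contra hlt
    obtain ⟨K', hK', hc⟩ := Finset.exists_subset_card_eq (s := K) (n := 4) (by omega)
    exact hcon ⟨K', hK'.trans hK, fun u hu v hv => hKc u (hK' hu) v (hK' hv), hc⟩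
  obtain ⟨r, hr, I, hI, hInd, hrI, hIc⟩ := exists_root G W 4 a le_rfl hno hexp hal hW hcl
  obtain ⟨J, hJI, hJc⟩ := Finset.exists_subset_card_eq hIc
  have hJW := hJI.trans hI
  have hJind : Ind G J := fun u hu v hv => hInd u (hJI hu) v (hJI hv)
  have hJe := hexp J hJW hJind (Finset.card_pos.1 (by omega))
  have hrJ : r ∉ J := fun h => G.loopless.irrefl _ (hrI r (hJI h))
  set U := nbc G W J \ insert r J with hU
  have hUc : 9 ≤ U.card := by
    have h1 : (nbc G W J).card - (insert r J).card ≤ U.card := Finset.le_card_sdiff _ _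
    rw [Finset.card_insert_of_notMem hrJ, hJc] at h1
    omega
  have hUW : U ⊆ W := Finset.sdiff_subset.trans (nbc_subset _ _ _)
  have hpar : ∀ w ∈ U, ∃ z ∈ J, G.Adj z w ∧ w ≠ r ∧ w ∉ J := by
    intro w hw
    rw [hU, Finset.mem_sdiff, mem_nbc, Finset.mem_insert, not_or] at hw
    obtain ⟨⟨-, h1⟩, h2, h3⟩ := hw
    rcases h1 with h1 | ⟨z, hz, hzw⟩
    · exact absurd h1 h3
    · exact ⟨z, hz, hzw, h2, h3⟩
  -- adjacent vertices have the same parents
  have hsame : ∀ w ∈ U, ∀ w' ∈ U, G.Adj w w' → ∀ z ∈ J, ∀ z' ∈ J, G.Adj z w → G.Adj z' w' →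
      z = z' := by
    intro w hw w' hw' hww z hz z' hz' h1 h2
    by_contra hne
    obtain ⟨-, -, -, hwr, hwJ⟩ := hpar w hw
    obtain ⟨-, -, -, hwr', hwJ'⟩ := hpar w' hw'
    apply hno
    have a1 : w ≠ z := fun h => hwJ (h ▸ hz)
    have a2 : w ≠ z' := fun h => hwJ (h ▸ hz')
    have a3 : w' ≠ z := fun h => hwJ' (h ▸ hz)
    have a4 : w' ≠ z' := fun h => hwJ' (h ▸ hz')
    have a5 : r ≠ z := fun h => hrJ (h ▸ hz)
    have a6 : r ≠ z' := fun h => hrJ (h ▸ hz')
    refine hasC5 (a := w) (b := w') (c := z') (d := r) (e := z) ?_ hww h2.symm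
      (hrI z' (hJI hz')).symm (hrI z (hJI hz)) h1
    simp only [List.nodup_cons, List.mem_cons, List.not_mem_nil, or_false, not_or,
      List.nodup_nil, and_true, not_false_eq_true]
    exact ⟨⟨hww.ne, a2, hwr, a1⟩, ⟨a4, hwr', a3⟩, ⟨a6.symm, fun h => hne h.symm⟩, a5⟩
  obtain ⟨H, hHU, j, hj, -, h2, h3⟩ := exists_expd G 2 U.card U 4 le_rfl
    (fun I hI hInd => (hal I (hI.trans hUW) hInd).trans ha) (by omega)
  have hHne : H.Nonempty := Finset.card_pos.1 (by omega)
  rcases long_cycle G H 2 (by norm_num) hHne h3 with ⟨K, hKH, hKc, hK3⟩ | ⟨N, x, hN, hx, hxU, -⟩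
  · obtain ⟨w, hw⟩ : K.Nonempty := Finset.card_pos.1 (by omega)
    obtain ⟨z, hz, hzw, -, -⟩ := hpar w (hHU (hKH hw))
    have hall : ∀ w' ∈ K, G.Adj z w' := by
      intro w' hw'
      rcases eq_or_ne w w' with h | h
      · rw [← h]; exact hzw
      · obtain ⟨z', hz', hzw', -, -⟩ := hpar w' (hHU (hKH hw'))
        rw [hsame w (hHU (hKH hw)) w' (hHU (hKH hw')) (hKc w hw w' hw' h) z hz z' hz' hzw hzw']
        exact hzw'
    have hzK : z ∉ K := fun h => G.loopless.irrefl _ (hall z h)
    have hcl' := hcl (insert z K) (by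
      intro v hv
      rcases Finset.mem_insert.1 hv with h | h
      · rw [h]; exact hJW hz
      · exact hUW (hHU (hKH h))) (by
      intro u hu v hv huv
      rcases Finset.mem_insert.1 hu with h | h <;> rcases Finset.mem_insert.1 hv with h' | h'
      · exact absurd (h.trans h'.symm) huv
      · rw [h]; exact hall v h'
      · rw [h']; exact (hall u h).symm
      · exact hKc u h v h' huv)
    rw [Finset.card_insert_of_notMem hzK] at hcl'
    omega
  · have hxU' : ∀ i, x i ∈ U := fun i => hHU (hxU i)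
    obtain ⟨z, hz, hz0, -, -⟩ := hpar (x 0) (hxU' 0)
    have hstep : ∀ i, G.Adj z (x i) → G.Adj z (x (i + 1)) := by
      intro i hi
      obtain ⟨z', hz', hzw', -, -⟩ := hpar (x (i + 1)) (hxU' (i + 1))
      rw [hsame _ (hxU' i) _ (hxU' (i + 1)) (hx.1 i) z hz z' hz' hi hzw']
      exact hzw'
    have hz1 := hstep 0 hz0
    have hz2 := hstep 1 hz1
    have hz3 := hstep 2 hz2
    have hzx : ∀ i, z ≠ x i := by
      intro i h
      obtain ⟨-, -, -, -, hJ'⟩ := hpar (x i) (hxU' i)
      exact hJ' (h ▸ hz)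
    have hinj : ∀ i j, i < 5 → j < 5 → i ≠ j → x i ≠ x j := fun i j hi hj hij h =>
      hij (hx.2.2 i j (by omega) (by omega) h)
    apply hno
    refine hasC5 (a := z) (b := x 0) (c := x 1) (d := x 2) (e := x 3) ?_ hz0 (hx.1 0) (hx.1 1)
      (hx.1 2) hz3.symm
    simp only [List.nodup_cons, List.mem_cons, List.not_mem_nil, or_false, not_or,
      List.nodup_nil, and_true, not_false_eq_true]
    exact ⟨⟨hzx 0, hzx 1, hzx 2, hzx 3⟩,
      ⟨hinj 0 1 (by omega) (by omega) (by omega), hinj 0 2 (by omega) (by omega) (by omega),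
        hinj 0 3 (by omega) (by omega) (by omega)⟩,
      ⟨hinj 1 2 (by omega) (by omega) (by omega), hinj 1 3 (by omega) (by omega) (by omega)⟩,
      hinj 2 3 (by omega) (by omega) (by omega)⟩

/-- the case of the five-cycle, at most five independent vertices excluded -/
theorem small4 (G : SimpleGraph V) (W : Finset V) (k : ℕ) (hk : k ≤ 4) (hal : AlLe G W k)
    (hW : 4 * k + 1 ≤ W.card) : HasC G (4 + 1) := by
  classical
  by_contra hno
  obtain ⟨H, hHW, j, hj, h1, h2, h3⟩ := exists_exact G 4 W k hal hW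
  obtain ⟨K, hKH, hKc, hK4⟩ := clq4 G H j (hj.trans hk) hno h3 h1 h2.ge
  -- two further vertices of the clique
  have hrest : ∀ x ∈ K, ∀ x' ∈ K, x ≠ x' → ∃ c ∈ K, ∃ d ∈ K, c ≠ d ∧ c ≠ x ∧ c ≠ x' ∧ d ≠ x ∧
      d ≠ x' := by
    intro x hx x' hx' hne
    have hc : 2 ≤ ((K.erase x).erase x').card := by
      rw [Finset.card_erase_of_mem (Finset.mem_erase.2 ⟨hne.symm, hx'⟩),
        Finset.card_erase_of_mem hx]
      omega
    obtain ⟨c, hc1, d, hd1, hcd⟩ := Finset.one_lt_card.1 hc
    rw [Finset.mem_erase, Finset.mem_erase] at hc1 hd1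
    exact ⟨c, hc1.2.2, d, hd1.2.2, hcd, hc1.2.1, hc1.1, hd1.2.1, hd1.1⟩
  -- no outside paths with one, two or three vertices
  have hP1 : ∀ x ∈ K, ∀ x' ∈ K, x ≠ x' → ∀ o, o ∉ K → G.Adj x o → ¬ G.Adj o x' := by
    intro x hx x' hx' hne o ho h4 h5
    obtain ⟨c, hc, d, hd, hcd, hcx, hcx', hdx, hdx'⟩ := hrest x hx x' hx' hne
    apply hno
    have ho' : ∀ v ∈ K, o ≠ v := fun v hv h => ho (h ▸ hv)
    refine hasC5 (a := o) (b := x') (c := c) (d := d) (e := x) ?_ h5
      (hKc x' hx' c hc hcx'.symm) (hKc c hc d hd hcd) (hKc d hd x hx hdx) h4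
    simp only [List.nodup_cons, List.mem_cons, List.not_mem_nil, or_false, not_or,
      List.nodup_nil, and_true, not_false_eq_true]
    exact ⟨⟨ho' _ hx', ho' _ hc, ho' _ hd, ho' _ hx⟩, ⟨hcx'.symm, hdx'.symm, hne.symm⟩,
      ⟨hcd, hcx⟩, hdx⟩
  have hP2 : ∀ x ∈ K, ∀ x' ∈ K, x ≠ x' → ∀ o p, o ∉ K → p ∉ K → G.Adj x o → G.Adj o p →
      ¬ G.Adj p x' := by
    intro x hx x' hx' hne o p ho hp h4 h5 h6
    obtain ⟨c, hc, d, hd, hcd, hcx, hcx', hdx, hdx'⟩ := hrest x hx x' hx' hne
    apply hno
    have ho' : ∀ v ∈ K, o ≠ v := fun v hv h => ho (h ▸ hv)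
    have hp' : ∀ v ∈ K, p ≠ v := fun v hv h => hp (h ▸ hv)
    refine hasC5 (a := o) (b := p) (c := x') (d := c) (e := x) ?_ h5 h6
      (hKc x' hx' c hc hcx'.symm) (hKc c hc x hx hcx) h4
    simp only [List.nodup_cons, List.mem_cons, List.not_mem_nil, or_false, not_or,
      List.nodup_nil, and_true, not_false_eq_true]
    exact ⟨⟨h5.ne, ho' _ hx', ho' _ hc, ho' _ hx⟩, ⟨hp' _ hx', hp' _ hc, hp' _ hx⟩,
      ⟨hcx'.symm, hne.symm⟩, hcx⟩
  have hP3 : ∀ x ∈ K, ∀ x' ∈ K, x ≠ x' → ∀ o p q, o ∉ K → p ∉ K → q ∉ K → G.Adj x o →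
      G.Adj o p → G.Adj p q → ¬ G.Adj q x' := by
    intro x hx x' hx' hne o p q ho hp hq h4 h5 h6 h7
    have hoq : o ≠ q := fun h => hP1 x hx x' hx' hne o ho h4 (h ▸ h7)
    apply hno
    have ho' : ∀ v ∈ K, o ≠ v := fun v hv h => ho (h ▸ hv)
    have hp' : ∀ v ∈ K, p ≠ v := fun v hv h => hp (h ▸ hv)
    have hq' : ∀ v ∈ K, q ≠ v := fun v hv h => hq (h ▸ hv)
    refine hasC5 (a := o) (b := p) (c := q) (d := x') (e := x) ?_ h5 h6 h7
      (hKc x' hx' x hx hne.symm) h4
    simp only [List.nodup_cons, List.mem_cons, List.not_mem_nil, or_false, not_or,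
      List.nodup_nil, and_true, not_false_eq_true]
    exact ⟨⟨h5.ne, hoq, ho' _ hx', ho' _ hx⟩, ⟨h6.ne, hp' _ hx', hp' _ hx⟩,
      ⟨hq' _ hx', hq' _ hx⟩, hne.symm⟩
  -- outside neighbours
  have hy : ∀ x, ∃ y, x ∈ K → y ∈ H ∧ y ∉ K ∧ G.Adj x y := by
    intro x
    by_cases hx : x ∈ K
    · have hdeg := h3.deg (hKH hx)
      by_contra hcon
      push Not at hcon
      have hsub : H.filter (G.Adj x) ⊆ K.erase x := by
        intro v hv
        rw [Finset.mem_filter] at hv
        rw [Finset.mem_erase]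
        refine ⟨hv.2.ne', ?_⟩
        by_contra hvK
        exact (hcon v).2 hv.1 hvK hv.2
      have hle := Finset.card_le_card hsub
      rw [Finset.card_erase_of_mem hx] at hle
      have hdd : dg G H x = (H.filter (G.Adj x)).card := by
        unfold dg
        congr
      omega
    · exact ⟨x, fun h => absurd h hx⟩
  choose y hy using hy
  set B : V → Finset V := fun x => nbc G (H \ K) {y x} with hB
  have hBc : ∀ x ∈ K, 4 ≤ (B x).card := by
    intro x hx
    obtain ⟨hyH, hyK, hxy⟩ := hy x hx
    have h4 := h3 {y x} (by simpa using hyH) (by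
      intro a ha b hb
      simp only [Finset.mem_singleton] at ha hb
      rw [ha, hb]
      exact G.loopless.irrefl _) (by simp)
    rw [Finset.card_singleton] at h4
    have h5 : nbc G H {y x} ⊆ insert x (B x) := by
      intro v hv
      rw [mem_nbc] at hv
      rw [Finset.mem_insert]
      by_cases hvK : v ∈ K
      · left
        rcases hv.2 with h6 | ⟨u, hu, h6⟩
        · rw [Finset.mem_singleton] at h6
          exact absurd (h6 ▸ hvK) hyK
        · rw [Finset.mem_singleton] at hu
          subst hu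
          by_contra hvx
          exact hP1 x hx v hvK (fun h => hvx h.symm) (y x) hyK hxy h6
      · right
        rw [hB]
        exact mem_nbc.2 ⟨Finset.mem_sdiff.2 ⟨hv.1, hvK⟩, hv.2⟩
    have h6 := (Finset.card_le_card h5).trans (Finset.card_insert_le _ _)
    omega
  have hBmem : ∀ x ∈ K, ∀ v ∈ B x, v ∈ H ∧ v ∉ K ∧ (v = y x ∨ G.Adj (y x) v) := by
    intro x hx v hv
    rw [hB] at hv
    obtain ⟨h4, h5⟩ := mem_nbc.1 hv
    refine ⟨(Finset.mem_sdiff.1 h4).1, (Finset.mem_sdiff.1 h4).2, ?_⟩
    rcases h5 with h5 | ⟨u, hu, h5⟩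
    · left; exact Finset.mem_singleton.1 h5
    · right; rw [Finset.mem_singleton] at hu; exact hu ▸ h5
  have hdisj : ∀ x ∈ K, ∀ x' ∈ K, x ≠ x' → Disjoint (B x) (B x') := by
    intro x hx x' hx' hne
    rw [Finset.disjoint_left]
    intro v hv hv'
    obtain ⟨hyH, hyK, hxy⟩ := hy x hx
    obtain ⟨hyH', hyK', hxy'⟩ := hy x' hx'
    obtain ⟨-, hvK, h4⟩ := hBmem x hx v hv
    obtain ⟨-, -, h5⟩ := hBmem x' hx' v hv'
    rcases h4 with h4 | h4 <;> rcases h5 with h5 | h5
    · exact hP1 x hx x' hx' hne v hvK (h4 ▸ hxy) (h5 ▸ hxy'.symm)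
    · exact hP2 x hx x' hx' hne v (y x') hvK hyK' (h4 ▸ hxy) h5.symm hxy'.symm
    · exact hP2 x hx x' hx' hne (y x) v hyK hvK hxy h4 (h5 ▸ hxy'.symm)
    · exact hP3 x hx x' hx' hne (y x) v (y x') hyK hvK hyK' hxy h4 h5.symm hxy'.symm
  have hcard : (K.biUnion B).card = ∑ x ∈ K, (B x).card :=
    Finset.card_biUnion hdisj
  have hsum : 16 ≤ ∑ x ∈ K, (B x).card := by
    have := Finset.card_nsmul_le_sum K (fun x => (B x).card) 4 hBc
    rw [hK4, smul_eq_mul] at this
    omega
  have hd : Disjoint K (K.biUnion B) := by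
    rw [Finset.disjoint_left]
    intro v hv hv'
    obtain ⟨x, hx, hvx⟩ := Finset.mem_biUnion.1 hv'
    exact (hBmem x hx v hvx).2.1 hv
  have hsub : K ∪ K.biUnion B ⊆ H := by
    intro v hv
    rcases Finset.mem_union.1 hv with h | h
    · exact hKH h
    · obtain ⟨x, hx, hvx⟩ := Finset.mem_biUnion.1 h
      exact (hBmem x hx v hvx).1
  have hfin := Finset.card_le_card hsub
  rw [Finset.card_union_of_disjoint hd, hcard] at hfin
  omega

end Vale.Agent.P048
end
end

section

section

/-!
The clique lemma for cycles of lengths 5 and 6.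
-/

namespace Vale.Agent.P048.SC

open Finset

variable {V : Type*}

theorem clq_chain {G : SimpleGraph V} {K : Finset V} (hK : Clq G K) {l : List V}
    (hnd : l.Nodup) (hlK : ∀ v ∈ l, v ∈ K) : l.IsChain G.Adj := by
  have h : l.Pairwise G.Adj := by
    refine List.Pairwise.imp_of_mem ?_ hnd
    intro a b ha hb hab
    exact hK a (hlK a ha) b (hlK b hb) hab
  exact h.isChain

theorem clq_path {G : SimpleGraph V} {K : Finset V} (hK : Clq G K) {w w' : V} (hw : w ∈ K)
    (hw' : w' ∈ K) (hne : w ≠ w') (n : ℕ) (hn : n + 2 ≤ K.card) :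
    ∃ l : List V, IsPath G w w' l ∧ l.length = n + 2 ∧ ∀ v ∈ l, v ∈ K := by
  classical
  have h1 : n ≤ ((K.erase w).erase w').card := by
    rw [Finset.card_erase_of_mem (Finset.mem_erase.2 ⟨hne.symm, hw'⟩),
      Finset.card_erase_of_mem hw]
    omega
  obtain ⟨T, hT, hTn⟩ := Finset.exists_subset_card_eq h1
  have hT' : ∀ v ∈ T, v ∈ K ∧ v ≠ w ∧ v ≠ w' := by
    intro v hv
    have := hT hv
    simp only [Finset.mem_erase] at this
    exact ⟨this.2.2, this.2.1, this.1⟩
  have hnd : (w :: (T.toList ++ [w'])).Nodup := by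
    rw [List.nodup_cons, List.nodup_append']
    refine ⟨?_, Finset.nodup_toList T, by simp, ?_⟩
    · intro h
      rcases List.mem_append.1 h with h | h
      · exact (hT' w (Finset.mem_toList.1 h)).2.1 rfl
      · exact hne (by simpa using h)
    · intro v hv hv2
      exact (hT' v (Finset.mem_toList.1 hv)).2.2 (by simpa using hv2)
  have hmem : ∀ v ∈ (w :: (T.toList ++ [w'])), v ∈ K := by
    intro v hv
    rcases List.mem_cons.1 hv with rfl | hv
    · exact hw
    · rcases List.mem_append.1 hv with h | h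
      · exact (hT' v (Finset.mem_toList.1 h)).1
      · rw [List.mem_singleton] at h
        rw [h]; exact hw'
  refine ⟨_, ⟨⟨clq_chain hK hnd hmem, hnd⟩, rfl, ?_⟩, ?_, hmem⟩
  · rw [List.getLast?_cons_of_ne_nil (by simp), List.getLast?_append_of_ne_nil _ (by simp)]
    rfl
  · simp [hTn]

theorem arc_isPath {G : SimpleGraph V} {N : ℕ} {x : ℕ → V} (hx : IsF G N x) (i t : ℕ)
    (ht : t < N) : IsPath G (x i) (x (i + t)) (arc x i t) :=
  ⟨⟨arc_chain hx _ _, arc_nodup hx _ _ ht⟩, arc_head _ _ _, arc_last _ _ _⟩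

/-- the first level is `2`-light for cycles of lengths `5` and `6` -/
theorem ear_light45 (G : SimpleGraph V) (W I U : Finset V) (r : V) (M : ℕ) (hM : M = 4 ∨ M = 5)
    (hIW : I ⊆ W) (hUW : U ⊆ W) (hIr : ∀ i ∈ I, G.Adj r i) (hrU : r ∉ U)
    (hIU : Disjoint I U) (hpar : ∀ w ∈ U, ∃ i ∈ I, G.Adj w i)
    (hno : ¬ HasC G (M + 1)) (hcl : ∀ K ⊆ W, Clq G K → K.card ≤ 3)
    (H : Finset V) (hHU : H ⊆ U) (hHne : H.Nonempty) (hexp : Expd G H 2) : False := by
  classical
  have hpar' : ∀ w : V, ∃ i : V, w ∈ U → i ∈ I ∧ G.Adj w i := by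
    intro w
    by_cases hw : w ∈ U
    · obtain ⟨i, hi, hi2⟩ := hpar w hw
      exact ⟨i, fun _ => ⟨hi, hi2⟩⟩
    · exact ⟨w, fun h => absurd h hw⟩
  choose par hp using hpar'
  have hRU : Disjoint (insert r I) U := by
    rw [Finset.disjoint_left]
    intro v hv hvU
    rcases Finset.mem_insert.1 hv with rfl | hv
    · exact hrU hvU
    · exact Finset.disjoint_left.1 hIU hv hvU
  have hrI : r ∉ I := fun h => G.loopless.irrefl _ (hIr r h)
  -- closing with an ear on three vertices
  have hB : ∀ (a b : V) (l : List V), IsPath G a b l → l.length = M - 2 →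
      (∀ v ∈ l, v ∈ U) → par a = par b := by
    intro a b l hl hll hlU
    by_contra hab
    have haU : a ∈ U := hlU a (List.mem_of_head? hl.2.1)
    have hbU : b ∈ U := hlU b (List.mem_of_getLast? hl.2.2)
    apply hno
    have := ear_close hRU hl hlU (a' := par a) (b' := par b) (Y := [par a, r, par b])
      ⟨⟨by simp [(hIr _ (hp a haU).1).symm, hIr _ (hp b hbU).1],
        by
          simp only [List.nodup_cons, List.mem_cons, List.not_mem_nil, or_false, not_or,
            not_false_eq_true, List.nodup_nil, and_true]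
          exact ⟨⟨fun h => hrI (h ▸ (hp a haU).1), hab⟩, fun h => hrI (h ▸ (hp b hbU).1)⟩⟩,
        by simp, by simp⟩
      (by
        intro v hv
        simp only [List.mem_cons, List.not_mem_nil, or_false] at hv
        rcases hv with rfl | rfl | rfl
        · exact Finset.mem_insert_of_mem (hp a haU).1
        · exact Finset.mem_insert_self _ _
        · exact Finset.mem_insert_of_mem (hp b hbU).1)
      (hp a haU).2 (hp b hbU).2.symm
    rw [hll] at this
    simpa only [List.length_cons, List.length_nil, zero_add, Nat.reduceAdd, show M - 2 + 3 = M + 1 by omega] using     this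
  -- closing with one vertex
  have hA : ∀ (a b : V) (l : List V), IsPath G a b l → l.length = M →
      (∀ v ∈ l, v ∈ U) → par a = par b → False := by
    intro a b l hl hll hlU hab
    have haU : a ∈ U := hlU a (List.mem_of_head? hl.2.1)
    have hbU : b ∈ U := hlU b (List.mem_of_getLast? hl.2.2)
    apply hno
    have := ear_close hRU hl hlU (a' := par a) (b' := par a) (Y := [par a])
      ⟨⟨by simp, by simp⟩, by simp, by simp⟩
      (by
        intro v hv
        rw [List.mem_singleton] at hv
        rw [hv]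
        exact Finset.mem_insert_of_mem (hp a haU).1)
      (hp a haU).2 (by rw [hab]; exact (hp b hbU).2.symm)
    rw [hll] at this
    simpa using this
  rcases long_cycle G H 2 (by omega) hHne hexp with ⟨K, hK, hKc, hKk⟩ |
    ⟨N, x, hN, hx, hxH, hclos⟩
  · have hKU : K ⊆ U := hK.trans hHU
    obtain ⟨w, hw⟩ : K.Nonempty := Finset.card_pos.1 (by omega)
    have hone : ∀ w' ∈ K, par w' = par w := by
      intro w' hw'
      by_cases hww : w' = w
      · rw [hww]
      · obtain ⟨l, hl, hll, hlK⟩ := clq_path hKc hw' hw hww (M - 4) (by omega)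
        exact hB _ _ l hl (by omega) (fun v hv => hKU (hlK v hv))
    have hzA : ∀ v ∈ K, G.Adj (par w) v := by
      intro v hv
      rw [← hone v hv]
      exact (hp v (hKU hv)).2.symm
    have hzK : par w ∉ K := fun h => G.loopless.irrefl _ (hzA _ h)
    have h4 := hcl (insert (par w) K) (by
      intro v hv
      rcases Finset.mem_insert.1 hv with rfl | hv
      · exact hIW (hp w (hKU hw)).1
      · exact hUW (hKU hv)) (by
      intro u hu v hv huv
      rcases Finset.mem_insert.1 hu with h5 | h5 <;> rcases Finset.mem_insert.1 hv with h6 | h6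
      · exact absurd (h5.trans h6.symm) huv
      · rw [h5]; exact hzA v h6
      · rw [h6]; exact (hzA u h5).symm
      · exact hKc u h5 v h6 huv)
    rw [Finset.card_insert_of_notMem hzK] at h4
    omega
  · have hxU : ∀ i, x i ∈ U := fun i => hHU (hxH i)
    have harcU : ∀ i t, ∀ v ∈ arc x i t, v ∈ U := by
      intro i t v hv
      obtain ⟨s, _, rfl⟩ := mem_arc.1 hv
      exact hxU _
    have hstep : ∀ i, par (x i) = par (x (i + (M - 3))) := by
      intro i
      exact hB _ _ _ (arc_isPath hx i (M - 3) (by omega)) (by rw [arc_length]; omega)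
        (harcU _ _)
    refine hA _ _ _ (arc_isPath hx 0 (M - 1) (by omega)) (by rw [arc_length]; omega)
      (harcU _ _) ?_
    rcases hM with rfl | rfl
    · rw [hstep 0, hstep (0 + (4 - 3)), hstep (0 + (4 - 3) + (4 - 3))]
    · rw [hstep 0, hstep (0 + (5 - 3))]

/-- lightness from the absence of expanding subsets -/
theorem light_of (G : SimpleGraph V) (θ : ℕ) (U : Finset V) (k : ℕ) (hal : AlLe G U k)
    (hl : ∀ H ⊆ U, H.Nonempty → Expd G H θ → False) : U.card ≤ θ * k := by
  by_contra hcon
  obtain ⟨H, hHU, j, hj, h5, h6, h7⟩ := exists_expd G θ U.card U k le_rfl hal (by omega)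
  exact hl H hHU (Finset.card_pos.1 (by omega)) h7

/-- one step of the breadth first search, without lightness -/
theorem bfs_raw [DecidableEq V] (G : SimpleGraph V) (W : Finset V) (M : ℕ)
    (hexp : Expd G W M) (h : ℕ)
    (R U I : Finset V) (hRW : R ⊆ W) (hUW : U ⊆ W) (hRU : Disjoint R U)
    (hU1 : ∀ w ∈ W, w ∉ R → (∃ z ∈ R, G.Adj z w) → w ∈ U)
    (hE : Ear G R U h) (hI : I ⊆ U) (hIi : Ind G I) (hImax : AlLe G U I.card)
    (hIne : I.Nonempty) :
    ∃ U' : Finset V, R ∪ I ⊆ W ∧ U' ⊆ W ∧ Disjoint (R ∪ I) U' ∧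
      (∀ w ∈ W, w ∉ R ∪ I → (∃ z ∈ R ∪ I, G.Adj z w) → w ∈ U') ∧ Ear G (R ∪ I) U' (h + 1) ∧
      (∀ w ∈ U', ∃ i ∈ I, G.Adj w i) ∧ (R ∪ I).card = R.card + I.card ∧
      M * I.card + 1 ≤ R.card + I.card + U'.card := by
  classical
  set U' := W.filter (fun w => w ∉ R ∪ I ∧ ∃ z ∈ R ∪ I, G.Adj z w) with hU'
  have hR'W : R ∪ I ⊆ W := Finset.union_subset hRW (hI.trans hUW)
  have hU'W : U' ⊆ W := Finset.filter_subset _ _
  have hdisj : Disjoint (R ∪ I) U' := by
    rw [Finset.disjoint_left]
    intro w hw hw'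
    exact (Finset.mem_filter.1 hw').2.1 hw
  have hRI : Disjoint R I := Finset.disjoint_of_subset_right hI hRU
  have hR'card : (R ∪ I).card = R.card + I.card := Finset.card_union_of_disjoint hRI
  have hpar : ∀ w ∈ U', ∃ i ∈ I, G.Adj w i := by
    intro w hw
    obtain ⟨hwW, hwR', z, hz, hzw⟩ := Finset.mem_filter.1 hw
    rcases Finset.mem_union.1 hz with hz | hz
    · by_contra hcon
      push Not at hcon
      have hwR : w ∉ R := fun h => hwR' (Finset.mem_union_left _ h)
      have hwI : w ∉ I := fun h => hwR' (Finset.mem_union_right _ h)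
      have hwU : w ∈ U := hU1 w hwW hwR ⟨z, hz, hzw⟩
      have h1 : Ind G (insert w I) := hIi.insert fun i hi hadj => hcon i hi hadj.symm
      have h2 := hImax _ (Finset.insert_subset hwU hI) h1
      rw [Finset.card_insert_of_notMem hwI] at h2
      omega
    · exact ⟨z, hz, hzw.symm⟩
  have hE' : Ear G (R ∪ I) U' (h + 1) := hE.step hRU hI hpar
  refine ⟨U', hR'W, hU'W, hdisj, ?_, hE', hpar, hR'card, ?_⟩
  · intro w hw hwR hz
    exact Finset.mem_filter.2 ⟨hw, hwR, hz⟩
  · -- the neighbourhood of `I`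
    have h1 : nbc G W I ⊆ (R ∪ I) ∪ U' := by
      intro v hv
      rw [mem_nbc] at hv
      by_cases hvR : v ∈ R ∪ I
      · exact Finset.mem_union_left _ hvR
      · refine Finset.mem_union_right _ (Finset.mem_filter.2 ⟨hv.1, hvR, ?_⟩)
        rcases hv.2 with h2 | ⟨j, hj, hjv⟩
        · exact absurd (Finset.mem_union_right _ h2) hvR
        · exact ⟨j, Finset.mem_union_right _ hj, hjv⟩
    have h2 := hexp I (hI.trans hUW) hIi hIne
    have h3 := (Finset.card_le_card h1).trans (Finset.card_union_le _ _)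
    omega

/-- the start of the breadth first search -/
theorem bfs_start [DecidableEq V] (G : SimpleGraph V) (W : Finset V) (M a : ℕ) (hM : 4 ≤ M)
    (hno : ¬ HasC G (M + 1)) (hexp : Expd G W M) (hal : AlLe G W a)
    (hW : M * a + 1 ≤ W.card) (hcl : ∀ K ⊆ W, Clq G K → K.card ≤ M / 2 + 1) :
    ∃ (r : V) (I U : Finset V), r ∈ W ∧ I ⊆ W ∧ Ind G I ∧ (∀ i ∈ I, G.Adj r i) ∧
      3 ≤ I.card ∧ {r} ∪ I ⊆ W ∧ U ⊆ W ∧ Disjoint ({r} ∪ I) U ∧
      (∀ w ∈ W, w ∉ {r} ∪ I → (∃ z ∈ {r} ∪ I, G.Adj z w) → w ∈ U) ∧ Ear G ({r} ∪ I) U 1 ∧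
      (∀ w ∈ U, ∃ i ∈ I, G.Adj w i) ∧ ({r} ∪ I).card = 1 + I.card ∧
      M * I.card + 1 ≤ 1 + I.card + U.card := by
  classical
  obtain ⟨r, hr, I0, hI0W, hI0i, hI0r, hI0c⟩ := exists_root G W M a hM hno hexp hal hW hcl
  obtain ⟨I, hIU, hIi, hImax⟩ := exists_max_ind G (W.filter (G.Adj r))
  have h3 : 3 ≤ I.card := by
    have := hImax I0 (fun w hw => Finset.mem_filter.2 ⟨hI0W hw, hI0r w hw⟩) hI0i
    omega
  obtain ⟨U, h4, h5, h6, h7, h8, h9, h10, h11⟩ := bfs_raw G W M hexp 0 {r} (W.filter (G.Adj r)) I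
    (by simpa using hr) (Finset.filter_subset _ _) (by
      rw [Finset.disjoint_left]
      intro w hw hw'
      rw [Finset.mem_singleton.1 hw] at hw'
      exact G.loopless.irrefl _ (Finset.mem_filter.1 hw').2) (by
      rintro w hw - ⟨z, hz, hzw⟩
      rw [Finset.mem_singleton.1 hz] at hzw
      exact Finset.mem_filter.2 ⟨hw, hzw⟩)
    (Ear.zero G r _ (fun w hw => (Finset.mem_filter.1 hw).2)) hIU hIi hImax
    (Finset.card_pos.1 (by omega))
  exact ⟨r, I, U, hr, hIU.trans (Finset.filter_subset _ _), hIi,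
    fun i hi => (Finset.mem_filter.1 (hIU hi)).2, h3, h4, h5, h6, h7, h8, h9,
    by rw [h10, Finset.card_singleton], by rw [Finset.card_singleton] at h11; exact h11⟩

/-- the clique lemma for cycles of lengths `5` and `6` -/
theorem clique45 (G : SimpleGraph V) (W : Finset V) (M a : ℕ) (hM : M = 4 ∨ M = 5)
    (ha : a ≤ M) (hno : ¬ HasC G (M + 1)) (hexp : Expd G W M)
    (hal : AlLe G W a) (hW : M * a + 1 ≤ W.card) :
    ∃ K ⊆ W, Clq G K ∧ 4 ≤ K.card := by
  classical
  by_contra hcon
  push Not at hcon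
  have hcl : ∀ K ⊆ W, Clq G K → K.card ≤ 3 := by
    intro K hK hKc
    have := hcon K hK hKc
    omega
  obtain ⟨r, I, U, hr, hIW, hIi, hIr, hI3, hRW, hUW, hRU, hU1, hE, hpar, hRc, hstep⟩ :=
    bfs_start G W M a (by omega) hno hexp hal hW (fun K hK hKc => (hcl K hK hKc).trans (by omega))
  obtain ⟨J, hJU, hJi, hJmax⟩ := exists_max_ind G U
  have hJa : J.card ≤ a := hal J (hJU.trans hUW) hJi
  have hl : U.card ≤ 2 * J.card := light_of G 2 U J.card hJmax fun H hH hHne hHe => by
    refine ear_light45 G W I U r M hM hIW hUW hIr ?_ ?_ hpar hno hcl H hH hHne hHe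
    · intro h
      exact Finset.disjoint_left.1 hRU (Finset.mem_union_left _ (Finset.mem_singleton_self r)) h
    · exact Finset.disjoint_of_subset_left Finset.subset_union_right hRU
  rcases hM with rfl | rfl <;> omega

end Vale.Agent.P048.SC
end
end

section

section

/-!
The case of cycles of length six.
-/

namespace Vale.Agent.P048.SC

open Finset

variable {V : Type*}

/-- shortening of a path with at most five vertices through a clique with four vertices -/
theorem short4 (G : SimpleGraph V) (K : Finset V) (hK : Clq G K) (R : List V) (u v : V)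
    (hR : IsPath G u v R) (hKR : ∀ w ∈ K, w ∈ R) (h4 : K.card = 4)
    (hk : R.length ≤ 5) (τ : ℕ) (hτ : τ ≤ 2) :
    ∃ R' : List V, IsPath G u v R' ∧ R'.length + τ = R.length ∧ ∀ w ∈ R', w ∈ R := by
  classical
  have hsub : K ⊆ R.toFinset := fun w hw => List.mem_toFinset.2 (hKR w hw)
  have hRc : R.toFinset.card = R.length := List.toFinset_card_of_nodup hR.1.2
  have hle := Finset.card_le_card hsub
  -- at most one position is missed
  have hmiss : ∀ i j, i < R.length → j < R.length → i ≠ j → R.length + 1 ≤ 4 + 1 ∨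
      (∃ w ∈ K, R[i]? = some w) ∨ (∃ w ∈ K, R[j]? = some w) := by
    intro i j hi hj hij
    by_contra hcon
    push Not at hcon
    obtain ⟨h1, h2, h3⟩ := hcon
    have hKe : K ⊆ (R.toFinset.erase R[i]).erase R[j] := by
      intro w hw
      rw [Finset.mem_erase, Finset.mem_erase]
      refine ⟨?_, ?_, hsub hw⟩
      · rintro rfl
        exact h3 _ hw (List.getElem?_eq_getElem hj)
      · rintro rfl
        exact h2 _ hw (List.getElem?_eq_getElem hi)
    have h5 := Finset.card_le_card hKe
    have hne : R[j] ≠ R[i] := by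
      intro h
      exact hij ((List.Nodup.getElem_inj_iff hR.1.2).1 h).symm
    rw [Finset.card_erase_of_mem (Finset.mem_erase.2 ⟨hne, List.mem_toFinset.2
      (List.getElem_mem hj)⟩), Finset.card_erase_of_mem (List.mem_toFinset.2
      (List.getElem_mem hi)), hRc] at h5
    omega
  have hall : R.length = 4 → ∀ i, i < 4 → ∃ w ∈ K, R[i]? = some w := by
    intro hR4 i hi
    have h1 : K = R.toFinset := Finset.eq_of_subset_of_card_le hsub (by omega)
    refine ⟨R[i], ?_, List.getElem?_eq_getElem _⟩
    rw [h1]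
    exact List.mem_toFinset.2 (List.getElem_mem _)
  have hcut : ∀ i j, i < j → j < R.length → (∃ w ∈ K, R[i]? = some w) →
      (∃ w ∈ K, R[j]? = some w) → τ = j - i - 1 →
      ∃ R' : List V, IsPath G u v R' ∧ R'.length + τ = R.length ∧ ∀ w ∈ R', w ∈ R := by
    rintro i j hij hj ⟨a, ha, hia⟩ ⟨b, hb, hjb⟩ hτ'
    have hab : a ≠ b := by
      rintro rfl
      rw [List.getElem?_eq_getElem (by omega), Option.some.injEq] at hia hjb
      have := (List.Nodup.getElem_inj_iff hR.1.2).1 (hia.trans hjb.symm)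
      omega
    refine ⟨_, sh_cut hR hij hia hjb (hK a ha b hb hab), ?_, sh_cut_mem⟩
    rw [hτ']
    exact sh_cut_length hij hj
  rcases Nat.eq_or_lt_of_le (show 4 ≤ R.length by omega) with h | h
  · have hall' := hall h.symm
    interval_cases τ
    · exact ⟨R, hR, rfl, fun w hw => hw⟩
    · exact hcut 0 2 (by omega) (by omega) (hall' 0 (by omega)) (hall' 2 (by omega)) rfl
    · exact hcut 0 3 (by omega) (by omega) (hall' 0 (by omega)) (hall' 3 (by omega)) rfl
  · have h5 : R.length = 5 := by omega
    have hm : ∀ i j, i < 5 → j < 5 → i ≠ j →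
        (∃ w ∈ K, R[i]? = some w) ∨ (∃ w ∈ K, R[j]? = some w) := by
      intro i j hi hj hij
      rcases hmiss i j (by omega) (by omega) hij with h6 | h6
      · omega
      · exact h6
    interval_cases τ
    · exact ⟨R, hR, rfl, fun w hw => hw⟩
    · by_cases h0 : ∃ w ∈ K, R[0]? = some w
      · by_cases h2 : ∃ w ∈ K, R[2]? = some w
        · exact hcut 0 2 (by omega) (by omega) h0 h2 rfl
        · exact hcut 1 3 (by omega) (by omega) ((hm 1 2 (by omega) (by omega)
            (by omega)).resolve_right h2) ((hm 3 2 (by omega) (by omega)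
            (by omega)).resolve_right h2) rfl
      · exact hcut 1 3 (by omega) (by omega) ((hm 1 0 (by omega) (by omega)
            (by omega)).resolve_right h0) ((hm 3 0 (by omega) (by omega)
            (by omega)).resolve_right h0) rfl
    · by_cases h0 : ∃ w ∈ K, R[0]? = some w
      · by_cases h3 : ∃ w ∈ K, R[3]? = some w
        · exact hcut 0 3 (by omega) (by omega) h0 h3 rfl
        · exact hcut 1 4 (by omega) (by omega) ((hm 1 3 (by omega) (by omega)
            (by omega)).resolve_right h3) ((hm 4 3 (by omega) (by omega)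
            (by omega)).resolve_right h3) rfl
      · exact hcut 1 4 (by omega) (by omega) ((hm 1 0 (by omega) (by omega)
            (by omega)).resolve_right h0) ((hm 4 0 (by omega) (by omega)
            (by omega)).resolve_right h0) rfl

/-- no short ear at two different predecessors of clique vertices -/
theorem no_ear3 (G : SimpleGraph V) (W K : Finset V) (hno : ¬ HasC G 6)
    (hK : Clq G K) (ℓ : ℕ) (x : ℕ → V) (hx : IsF G ℓ x) (hℓM : ℓ ≤ 5) (hℓ4 : 4 ≤ ℓ)
    (hxW : ∀ i, x i ∈ W) (hKx : ∀ v ∈ K, ∃ i, x i = v) (h4 : K.card = 4)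
    (hmax : ∀ l, GCyc G W K 5 l → l.length ≤ ℓ) (i j : ℕ) (hi : i < ℓ) (hj : j < ℓ)
    (hij : i ≠ j) (hiK : x (i + 1) ∈ K) (hjK : x (j + 1) ∈ K)
    (u v : V) (Y : List V) (hY : IsPath G u v Y) (hYW : ∀ w ∈ Y, w ∈ W)
    (hYo : ∀ w ∈ Y, ∀ t, x t ≠ w)
    (hxu : G.Adj (x i) u) (hvx : G.Adj v (x j)) (h3 : Y.length ≤ 3) : False := by
  classical
  have main : ∀ i j : ℕ, i < j → j < ℓ → x (i + 1) ∈ K →
      x (j + 1) ∈ K → ∀ u v : V, ∀ Y : List V, IsPath G u v Y → (∀ w ∈ Y, w ∈ W) →
      (∀ w ∈ Y, ∀ t, x t ≠ w) →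
      G.Adj (x i) u → G.Adj v (x j) → Y.length ≤ 3 → False := by
    intro i j hij hj hiK hjK u v Y hY hYW hYo hxu hvx h3'
    have h3 : G.Adj (x (i + 1)) (x (j + 1)) := by
      apply hK _ hiK _ hjK
      intro h
      have := hx.inj (i := 1) (s := i) (t := j) (by omega) (by omega)
        (by rw [Nat.add_comm 1 i, Nat.add_comm 1 j]; exact h)
      omega
    obtain ⟨R, hR, hlen, hmem, hmem2⟩ := ce_path hx i j hij (by omega) h3
    have hYpos := hY.length_pos
    have hKR : ∀ w ∈ K, w ∈ R := by
      intro w hw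
      obtain ⟨t, ht⟩ := hKx w hw
      rw [← ht]
      exact hmem t
    have hd : ∀ w ∈ Y, w ∉ R := by
      intro w hw hw2
      obtain ⟨t, ht⟩ := hmem2 w hw2
      exact hYo w hw t ht
    rcases Nat.lt_or_ge 5 (Y.length + ℓ) with hlt | hle
    · obtain ⟨R', hR', hlen', hsub⟩ := short4 G K hK R _ _ hR hKR h4 (by omega)
        (Y.length + ℓ - 6) (by omega)
      apply hno
      refine ⟨Y ++ R', by rw [List.length_append]; omega, ?_⟩
      exact hY.close hR' (fun w hw hw2 => hd w hw (hsub w hw2)) hvx hxu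
    · have := hmax (Y ++ R) ⟨hY.close hR hd hvx hxu, ?_, ?_, ?_⟩
      · rw [List.length_append] at this
        omega
      · intro w hw
        rcases List.mem_append.1 hw with h | h
        · exact hYW w h
        · obtain ⟨t, ht⟩ := hmem2 w h
          rw [← ht]
          exact hxW t
      · intro w hw
        exact List.mem_append_right _ (hKR w hw)
      · rw [List.length_append]
        omega
  rcases Nat.lt_or_gt_of_ne hij with h | h
  · exact main i j h hj hiK hjK u v Y hY hYW hYo hxu hvx h3
  · exact main j i h hi hjK hiK v u Y.reverse hY.reverse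
      (fun w hw => hYW w (List.mem_reverse.1 hw)) (fun w hw => hYo w (List.mem_reverse.1 hw))
      hvx.symm hxu.symm (by rw [List.length_reverse]; exact h3)

/-- doubling for a maximum clique with four vertices, cycles of length six -/
theorem doubling4 (G : SimpleGraph V) (W K : Finset V)
    (hno : ¬ HasC G (5 + 1)) (hdeg : ∀ v ∈ W, 5 ≤ dg G W v) (hKW : K ⊆ W) (hK : Clq G K)
    (hmax : ∀ K' ⊆ W, Clq G K' → K'.card ≤ K.card) (h4 : K.card = 4) :
    ∃ J ⊆ W, Ind G J ∧ 6 ≤ J.card := by
  classical
  obtain ⟨l, hl, hlmax⟩ := exists_max_gcyc G W K 5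
    (clique_gcyc G W K 5 hKW hK (by omega) (by omega))
  have hKl : K.card ≤ l.length := by
    have h1 : K ⊆ l.toFinset := fun v hv => List.mem_toFinset.2 (hl.2.2.1 v hv)
    exact (Finset.card_le_card h1).trans (List.toFinset_card_le _)
  obtain ⟨x0, hx0, hxl0⟩ := IsC.exists_isF G l hl.1 (by omega)
  set ℓ := l.length with hℓ
  have hℓ1 : 1 ≤ ℓ := by omega
  have hℓM : ℓ ≤ 5 := hl.2.2.2
  have hlK : l.toFinset.card = ℓ := List.toFinset_card_of_nodup hl.1.2.1
  have hx0l : ∀ i, x0 i ∈ l := by
    intro i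
    rw [← hx0.mod i]
    exact (hxl0 _).2 ⟨i % ℓ, Nat.mod_lt _ hℓ1, rfl⟩
  -- rotate so that `x 1, …, x 4` are the clique vertices
  obtain ⟨a, ha⟩ : ∃ a, ∀ i, x0 (a + i) ∉ K → i % ℓ = 0 := by
    by_cases hex : ∃ a, x0 a ∉ K
    · obtain ⟨a, ha⟩ := hex
      refine ⟨a, fun i hi => ?_⟩
      by_contra hne
      have hne2 : x0 (a + i % ℓ) ≠ x0 (a + 0) := by
        intro h
        have := hx0.inj (i := a) (s := i % ℓ) (t := 0) (Nat.mod_lt _ hℓ1) (by omega) h
        omega
      have h5 : x0 (a + i % ℓ) = x0 (a + i) := by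
        rw [Nat.add_comm a (i % ℓ), hx0.mod_add, Nat.add_comm]
      rw [h5, Nat.add_zero] at hne2
      have h6 : K ⊆ (l.toFinset.erase (x0 a)).erase (x0 (a + i)) := by
        intro w hw
        rw [Finset.mem_erase, Finset.mem_erase, List.mem_toFinset]
        exact ⟨fun h => hi (h ▸ hw), fun h => ha (h ▸ hw), hl.2.2.1 w hw⟩
      have h7 := Finset.card_le_card h6
      rw [Finset.card_erase_of_mem (Finset.mem_erase.2 ⟨hne2, List.mem_toFinset.2 (hx0l _)⟩),
        Finset.card_erase_of_mem (List.mem_toFinset.2 (hx0l _))] at h7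
      omega
    · push Not at hex
      exact ⟨0, fun i hi => absurd (hex _) hi⟩
  set x : ℕ → V := fun i => x0 (a + i) with hxdef
  have hx : IsF G ℓ x := hx0.shift a
  have hxl' : ∀ i, x i ∈ l := fun i => hx0l _
  have hxK : ∀ i, i % ℓ ≠ 0 → x i ∈ K := by
    intro i hi
    by_contra h
    exact hi (ha i h)
  have hxall : ∀ v ∈ l, ∃ i, x i = v := by
    have h5 : ((range ℓ).image x) = l.toFinset := by
      apply Finset.eq_of_subset_of_card_le
      · intro w hw
        obtain ⟨t, _, rfl⟩ := Finset.mem_image.1 hw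
        exact List.mem_toFinset.2 (hxl' t)
      · rw [hlK, Finset.card_image_of_injOn, Finset.card_range]
        intro p hp q hq hpq
        exact hx.2.2 p q (by simpa using hp) (by simpa using hq) hpq
    intro v hv
    rw [← List.mem_toFinset, ← h5, Finset.mem_image] at hv
    obtain ⟨t, _, ht⟩ := hv
    exact ⟨t, ht⟩
  have hxW : ∀ i, x i ∈ W := fun i => hl.2.1 _ (hxl' i)
  have hKx : ∀ v ∈ K, ∃ i, x i = v := fun v hv => hxall v (hl.2.2.1 v hv)
  set O : Finset V := W.filter (fun w => ∀ t, x t ≠ w) with hO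
  have hOmem : ∀ w, w ∈ O ↔ w ∈ W ∧ ∀ t, x t ≠ w := by
    intro w
    rw [hO, Finset.mem_filter]
  have hear : ∀ i j, i < ℓ → j < ℓ → i ≠ j → x (i + 1) ∈ K → x (j + 1) ∈ K →
      ∀ u v : V, ∀ Y : List V, IsPath G u v Y → (∀ w ∈ Y, w ∈ O) → G.Adj (x i) u →
      G.Adj v (x j) → Y.length ≤ 3 → False := by
    intro i j hi hj hij hiK hjK u v Y hY hYO hxu hvx h3
    exact no_ear3 G W K hno hK ℓ x hx hℓM (by omega) hxW hKx h4 hlmax i j hi hj hij hiK hjK
      u v Y hY (fun w hw => ((hOmem w).1 (hYO w hw)).1)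
      (fun w hw => ((hOmem w).1 (hYO w hw)).2) hxu hvx h3
  -- ears with four vertices between two clique vertices
  have hear4 : ∀ i j, i < ℓ → j < ℓ → i ≠ j → x (i + 1) ∈ K → x (j + 1) ∈ K →
      x i ∈ K → x j ∈ K →
      ∀ u v : V, ∀ Y : List V, IsPath G u v Y → (∀ w ∈ Y, w ∈ O) → G.Adj (x i) u →
      G.Adj v (x j) → Y.length ≤ 4 → False := by
    intro i j hi hj hij hiK hjK hiK0 hjK0 u v Y hY hYO hxu hvx h4'
    rcases Nat.lt_or_ge 3 Y.length with h5 | h5
    · have hne : x j ≠ x i := fun h => hij (hx.2.2 j i hj hi h).symm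
      have hadj : G.Adj (x j) (x i) := hK _ hjK0 _ hiK0 hne
      apply hno
      refine ⟨Y ++ [x j, x i], by simp; omega, ?_⟩
      refine hY.close (a := x j) (b := x i) (R := [x j, x i])
        ⟨⟨by simpa using hadj, by simpa using hne⟩, by simp, by simp⟩ ?_ hvx hxu
      intro w hw hw2
      have h6 := ((hOmem w).1 (hYO w hw)).2
      simp only [List.mem_cons, List.not_mem_nil, or_false] at hw2
      rcases hw2 with rfl | rfl
      · exact h6 j rfl
      · exact h6 i rfl
    · exact hear i j hi hj hij hiK hjK u v Y hY hYO hxu hvx h5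
  have hone : ∀ i, ∃ w, Reach G O (x i) 1 w := by
    intro i
    have hxi := hdeg (x i) (hxW i)
    rw [dg_eq_filter] at hxi
    by_contra hcon
    push Not at hcon
    have hsub : W.filter (G.Adj (x i)) ⊆ l.toFinset.erase (x i) := by
      intro w hw
      rw [Finset.mem_filter] at hw
      rw [Finset.mem_erase, List.mem_toFinset]
      refine ⟨?_, ?_⟩
      · rintro rfl
        exact G.loopless.irrefl _ hw.2
      · by_contra hwl
        refine hcon w (Reach.of_adj (by omega) ?_ hw.2)
        rw [hOmem]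
        refine ⟨hw.1, ?_⟩
        intro t ht
        exact hwl (ht ▸ hxl' t)
    have h2 := Finset.card_le_card hsub
    rw [Finset.card_erase_of_mem (List.mem_toFinset.2 (hxl' i)), hlK] at h2
    omega
  have hear1 : ∀ i j, i < ℓ → j < ℓ → i ≠ j → x (i + 1) ∈ K → x (j + 1) ∈ K → ∀ y ∈ O,
      G.Adj (x i) y → ¬ G.Adj y (x j) := by
    intro i j hi hj hij hiK hjK y hy h1 h2
    exact hear i j hi hj hij hiK hjK y y [y] ⟨⟨by simp, by simp⟩, by simp, by simp⟩
      (by
        intro w hw
        rw [List.mem_singleton] at hw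
        rw [hw]; exact hy) h1 h2 (by simp)
  -- positions `2` and `3` are good
  have hgood : ∀ i, i = 2 ∨ i = 3 → ∃ w w', Reach G O (x i) 2 w ∧ Reach G O (x i) 2 w' ∧
      w ≠ w' ∧ ¬ G.Adj w w' := by
    intro i hi
    by_contra hcon
    push Not at hcon
    have hiK : x (i + 1) ∈ K := by
      by_cases h5 : (i + 1) % ℓ = 0
      · -- then `ℓ = 4` and all vertices of the cycle are in the clique
        have hℓ4 : ℓ = 4 := by
          rcases hi with rfl | rfl <;> (have : ℓ = 4 ∨ ℓ = 5 := by omega) <;>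
            rcases this with h6 | h6 <;> rw [h6] at h5 <;> omega
        have h6 : K = l.toFinset := Finset.eq_of_subset_of_card_le
          (fun v hv => List.mem_toFinset.2 (hl.2.2.1 v hv)) (by omega)
        rw [h6]
        exact List.mem_toFinset.2 (hxl' _)
      · exact hxK _ h5
    obtain ⟨hℓ5, hstep⟩ := bad_struct G W K 5 hno hK hKW hdeg hmax ℓ x hx hℓ1 hℓM hxW hKx O
      hOmem hear1 i (by omega) hiK (fun w w' h1 h2 h3 => hcon w w' h1 h2 h3)
    have hx0K : x 0 ∉ K := by
      intro h0
      have h6 : l.toFinset ⊆ K := by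
        intro w hw
        obtain ⟨t, rfl⟩ := hxall w (List.mem_toFinset.1 hw)
        by_cases h7 : t % ℓ = 0
        · rw [← hx.mod t, h7]
          exact h0
        · exact hxK t h7
      have h7 := Finset.card_le_card h6
      omega
    rcases hstep 0 hx0K with h6 | h6
    · exact h6 (hxK 2 (by rw [hℓ5]; decide))
    · have := hx.2.2 1 i (by omega) (by omega) h6
      omega
  have hK1 : ∀ i, i < 4 → x (i + 1) ∈ K := by
    intro i hi
    by_cases h5 : (i + 1) % ℓ = 0
    · have hℓ4 : ℓ = 4 := by
        have : ℓ = 4 ∨ ℓ = 5 := by omega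
        rcases this with h6 | h6
        · exact h6
        · rw [h6] at h5
          omega
      have h6 : K = l.toFinset := Finset.eq_of_subset_of_card_le
        (fun v hv => List.mem_toFinset.2 (hl.2.2.1 v hv)) (by omega)
      rw [h6]
      exact List.mem_toFinset.2 (hxl' _)
    · exact hxK _ h5
  set d : ℕ → ℕ := fun i => if 2 ≤ i then 2 else 1 with hd
  have hP : ∀ i, ∃ P : Finset V, i < 4 → (∀ w ∈ P, Reach G O (x i) (d i) w) ∧ Ind G P ∧
      d i ≤ P.card := by
    intro i
    by_cases hi : i < 4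
    · by_cases hi2 : 2 ≤ i
      · obtain ⟨w, w', h1, h2, h3, h5⟩ := hgood i (by omega)
        have hdi : d i = 2 := by simp [hd, hi2]
        refine ⟨{w, w'}, fun _ => ⟨?_, ?_, ?_⟩⟩
        · intro z hz
          rw [hdi]
          simp only [Finset.mem_insert, Finset.mem_singleton] at hz
          rcases hz with rfl | rfl
          · exact h1
          · exact h2
        · intro p hp q hq hpq
          simp only [Finset.mem_insert, Finset.mem_singleton] at hp hq
          rcases hp with rfl | rfl <;> rcases hq with rfl | rfl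
          · exact G.loopless.irrefl _ hpq
          · exact h5 hpq
          · exact h5 hpq.symm
          · exact G.loopless.irrefl _ hpq
        · rw [hdi, Finset.card_pair h3]
      · obtain ⟨w, hw⟩ := hone i
        have hdi : d i = 1 := by simp [hd, hi2]
        refine ⟨{w}, fun _ => ⟨?_, ?_, ?_⟩⟩
        · intro z hz
          rw [hdi, Finset.mem_singleton.1 hz]
          exact hw
        · intro p hp q hq
          rw [Finset.mem_singleton] at hp hq
          rw [hp, hq]
          exact G.loopless.irrefl _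
        · rw [hdi, Finset.card_singleton]
    · exact ⟨∅, fun h => absurd h hi⟩
  choose P hP using hP
  obtain ⟨h5, h6⟩ := glue_ind G (range 4) P (fun i hi => (hP i (Finset.mem_range.1 hi)).2.1) (by
    intro i hi j hj hij w hw w' hw'
    rw [Finset.mem_range] at hi hj
    have hw1 := (hP i hi).1 w hw
    have hw2 := (hP j hj).1 w' hw'
    have key : ¬ (w = w' ∨ G.Adj w w') := by
      intro hcon
      obtain ⟨u, v, Y, hY, hYl, hYO, h1, h2⟩ := hw1.join hw2 hcon
      by_cases h23 : 2 ≤ i ∧ 2 ≤ j
      · have hdi : d i = 2 := by simp [hd, h23.1]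
        have hdj : d j = 2 := by simp [hd, h23.2]
        refine hear4 i j (by omega) (by omega) hij (hK1 i hi) (hK1 j hj) ?_ ?_ u v Y hY hYO h1 h2
          (by omega)
        · obtain ⟨i', rfl⟩ : ∃ i', i = i' + 1 := ⟨i - 1, by omega⟩
          exact hK1 i' (by omega)
        · obtain ⟨j', rfl⟩ : ∃ j', j = j' + 1 := ⟨j - 1, by omega⟩
          exact hK1 j' (by omega)
      · have hdij : d i + d j ≤ 3 := by
          simp only [hd]
          split_ifs <;> omega
        exact hear i j (by omega) (by omega) hij (hK1 i hi) (hK1 j hj) u v Y hY hYO h1 h2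
          (by omega)
    rw [not_or] at key
    exact key)
  refine ⟨(range 4).biUnion P, ?_, h5, ?_⟩
  · intro w hw
    rw [Finset.mem_biUnion] at hw
    obtain ⟨i, hi, hw⟩ := hw
    exact ((hOmem w).1 ((hP i (Finset.mem_range.1 hi)).1 w hw).1).1
  · rw [h6]
    have h7 : ∑ i ∈ range 4, d i ≤ ∑ i ∈ range 4, (P i).card :=
      Finset.sum_le_sum fun i hi => (hP i (Finset.mem_range.1 hi)).2.2
    have h8 : ∑ i ∈ range 4, d i = 6 := by
      simp only [hd, sum_range_succ, range_one, sum_singleton, nonpos_iff_eq_zero, OfNat.ofNat_ne_zero, ↓reduceIte, Nat.not_ofNat_le_one, Nat.reduceAdd, Std.le_refl, Nat.reduceLeDiff]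
    omega

end Vale.Agent.P048.SC

namespace Vale.Agent.P048

open Finset

variable {V : Type*}

/-- the case of cycles of length six -/
theorem small5 (G : SimpleGraph V) (W : Finset V) (k : ℕ) (hk : k ≤ 5)
    (hal : AlLe G W k) (hW : 5 * k + 1 ≤ W.card) : HasC G (5 + 1) := by
  classical
  by_contra hno
  obtain ⟨H, hHW, j, hj, h1, h2, h3⟩ := exists_expd G 5 W.card W k le_rfl hal hW
  obtain ⟨K0, hK0, hc0, hk0⟩ := SC.clique45 G H 5 j (Or.inr rfl) (hj.trans hk) hno h3 h1 h2
  -- a maximum clique
  obtain ⟨K, hK, hKmax⟩ := Finset.exists_max_image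
    (H.powerset.filter (fun K => Clq G K)) Finset.card
    ⟨K0, by simp [hK0, hc0]⟩
  rw [Finset.mem_filter, Finset.mem_powerset] at hK
  have hle : K0.card ≤ K.card := hKmax K0 (by simp [hK0, hc0])
  have hmax : ∀ K' ⊆ H, Clq G K' → K'.card ≤ K.card :=
    fun K' hK' hc' => hKmax K' (by simp [hK', hc'])
  have hJ : ∃ J ⊆ H, Ind G J ∧ 6 ≤ J.card := by
    rcases Nat.eq_or_lt_of_le (hk0.trans hle) with h4 | h4
    · exact SC.doubling4 G H K hno (fun v hv => h3.deg hv) hK.1 hK.2 hmax h4.symm
    · exact doubling5 G H K 5 le_rfl hno (fun v hv => h3.deg hv) hK.1 hK.2 hmax (by omega) h4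
  obtain ⟨J, hJ, hJi, hJc⟩ := hJ
  have := h1 J hJ hJi
  omega

end Vale.Agent.P048
end
end

section

section

/-!
General forms of the ear lemma (for the small cases).
-/

namespace Vale.Agent.P048

open Finset

variable {V : Type*}

/-- general form: in a level, an expanding set contains a clique -/
theorem ear_clique (G : SimpleGraph V) (R U : Finset V) (h M κ A : ℕ) (hMκ : M ≤ 2 * κ + 1)
    (hκ : 3 ≤ κ) (hA : A < (κ - 1) * κ + 1)
    (hE : Ear G R U h) (hRU : Disjoint R U) (hh : 2 * (h + 1) ≤ M) (hno : ¬ HasC G (M + 1))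
    (H : Finset V) (hHU : H ⊆ U) (hHne : H.Nonempty) (hexp : Expd G H κ)
    (hal : AlLe G H A) : ∃ K ⊆ H, Clq G K ∧ κ + 1 ≤ K.card := by
  classical
  by_contra hcon
  rcases long_cycle G H κ (by omega) hHne hexp with ⟨K, hK, hKc, hKk⟩ |
    ⟨N, x, hN, hx, hxH, hclos⟩
  · exact hcon ⟨K, hK, hKc, hKk⟩
  have hNpos : 0 < N := by omega
  have hdisj := Finset.disjoint_left.1 hRU
  -- the positions
  have hpos : ∀ i, x i = x (i % N) := fun i => (hx.mod i).symm
  set D : Finset V := (Finset.range N).image x with hD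
  have hDmem : ∀ i, x i ∈ D := fun i => by
    rw [hpos i]
    exact Finset.mem_image_of_mem _ (Finset.mem_range.2 (Nat.mod_lt _ hNpos))
  have hDH : D ⊆ H := by
    intro v hv
    obtain ⟨i, _, rfl⟩ := Finset.mem_image.1 hv
    exact hxH i
  rcases hE D (hDH.trans hHU) ⟨x 0, hDmem 0⟩ with ⟨z, hz, hzA⟩ | ⟨j, hj2, hjh, c, hc, hcY⟩
  · -- all on one vertex
    apply hno
    have := ear_close (G := G) (R := R) (U := U) hRU (a := x 0) (b := x (0 + (M - 1)))
      (a' := z) (b' := z) (l := arc x 0 (M - 1)) (Y := [z])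
      ⟨⟨arc_chain hx _ _, arc_nodup hx _ _ (by omega)⟩, arc_head _ _ _, arc_last _ _ _⟩
      (by
        intro v hv
        obtain ⟨r, _, hr⟩ := mem_arc.1 hv
        rw [← hr]
        exact hHU (hxH _))
      ⟨⟨by simp, by simp⟩, by simp, by simp⟩ (by simpa using hz) (hzA _ (hDmem _)).symm
      (hzA _ (hDmem _))
    rw [arc_length] at this
    simpa only [show M - 1 + 1 = M by omega, List.length_cons, List.length_nil, zero_add] using this
  · -- a colouring
    have hcx : ∃ i i', c (x i) ≠ c (x i') := by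
      obtain ⟨w, hw, w', hw', hne⟩ := hc
      obtain ⟨i, _, rfl⟩ := Finset.mem_image.1 hw
      obtain ⟨i', _, rfl⟩ := Finset.mem_image.1 hw'
      exact ⟨i, i', hne⟩
    obtain ⟨ℓ, hℓ⟩ : ∃ ℓ, ℓ + 2 * j = M + 1 := ⟨M + 1 - 2 * j, by omega⟩
    -- no path with different end colours
    have hnopath : ∀ (a b : V) (l : List V), IsPath G a b l → l.length = ℓ + 1 →
        (∀ v ∈ l, v ∈ D) → c a = c b := by
      intro a b l hl hll hlD
      by_contra hab
      have haD : a ∈ D := hlD a (List.mem_of_head? hl.2.1)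
      have hbD : b ∈ D := hlD b (List.mem_of_getLast? hl.2.2)
      obtain ⟨a', b', Y, hY, hYl, hYR, h1, h2⟩ := hcY a haD b hbD hab
      apply hno
      have := ear_close hRU hl (fun v hv => hHU (hDH (hlD v hv))) hY hYR h1 h2
      rw [hll, hYl] at this
      rwa [show ℓ + 1 + (2 * j - 1) = M + 1 by omega] at this
    -- chords
    have hchord : ∀ i r, 2 ≤ r → r + 2 ≤ N → G.Adj (x i) (x (i + r)) →
        (∀ t, c (x (t + 2)) = c (x t)) ∧ r % 2 = 1 := by
      intro i r hr hrN hch
      rcases theta (hx.shift i) hr hrN (by simpa using hch) c (by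
        obtain ⟨s, t, hst⟩ := hcx
        refine ⟨s + (N - 1) * i, t + (N - 1) * i, ?_⟩
        have key : ∀ s, x (i + (s + (N - 1) * i)) = x s := by
          intro s
          rw [show i + (s + (N - 1) * i) = s + N * i by
            obtain ⟨n, rfl⟩ : ∃ n, N = n + 1 := ⟨N - 1, by omega⟩
            simp only [Nat.add_sub_cancel]
            ring]
          rw [hpos (s + N * i), Nat.add_mul_mod_self_left, ← hpos]
        rw [key, key]
        exact hst) (by omega : 1 ≤ ℓ) (by omega) with ⟨a, b, l, hl, hll, hlx, hne⟩ | ⟨h1, h2⟩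
      · exfalso
        apply hne
        apply hnopath a b l hl hll
        intro v hv
        obtain ⟨t, rfl⟩ := hlx v hv
        exact hDmem _
      · refine ⟨fun t => ?_, h2⟩
        have key : ∀ s, x (i + (s + (N - 1) * i)) = x s := by
          intro s
          rw [show i + (s + (N - 1) * i) = s + N * i by
            obtain ⟨n, rfl⟩ : ∃ n, N = n + 1 := ⟨N - 1, by omega⟩
            simp only [Nat.add_sub_cancel]
            ring]
          rw [hpos (s + N * i), Nat.add_mul_mod_self_left, ← hpos]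
        have h3 := h1 (t + (N - 1) * i)
        rw [show t + (N - 1) * i + 2 = (t + 2) + (N - 1) * i by ring, key, key] at h3
        exact h3
    -- the neighbours of `x 0`
    set T : Finset ℕ := (Finset.range N).filter (fun t => G.Adj (x 0) (x t)) with hT
    have hTmem : ∀ t, t ∈ T ↔ t < N ∧ G.Adj (x 0) (x t) := by
      intro t
      rw [hT, Finset.mem_filter, Finset.mem_range]
    have hlast : G.Adj (x 0) (x (N - 1)) := by
      have h1 := hx.1 (N - 1)
      rw [show N - 1 + 1 = 0 + N by omega, hx.2.1] at h1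
      exact h1.symm
    have hN0 : ∀ v ∈ H, G.Adj (x 0) v → ∃ i, x i = v := by
      intro v hv hadj
      apply hclos (N - 1) hlast v hv
      rw [show N - 1 + 1 = 0 + N by omega, hx.2.1]
      exact hadj
    have hTcard : κ ≤ T.card := by
      have h1 := hexp.deg (hxH 0)
      have h2 : dg G H (x 0) ≤ T.card := by
        unfold dg
        calc _ ≤ (T.image x).card := by
              apply Finset.card_le_card
              intro v hv
              simp only [Finset.mem_filter] at hv
              obtain ⟨i, hi⟩ := hN0 v hv.1 hv.2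
              rw [Finset.mem_image]
              refine ⟨i % N, ?_, by rw [← hpos, hi]⟩
              rw [hTmem]
              refine ⟨Nat.mod_lt _ hNpos, ?_⟩
              rw [← hpos, hi]
              exact hv.2
          _ ≤ T.card := Finset.card_image_le
      omega
    -- a chord at `x 0`
    obtain ⟨r, hrT⟩ : ∃ r, r ∈ T \ {1, N - 1} := by
      have h1 : ({1, N - 1} : Finset ℕ).card ≤ 2 := Finset.card_le_two
      have h2 := Finset.le_card_sdiff ({1, N - 1} : Finset ℕ) T
      apply Finset.card_pos.1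
      omega
    rw [Finset.mem_sdiff, hTmem] at hrT
    have hr0 : r ≠ 0 := by
      rintro rfl
      exact G.loopless.irrefl _ hrT.1.2
    have hr1 : r ≠ 1 ∧ r ≠ N - 1 := by
      have := hrT.2
      simp only [Finset.mem_insert, Finset.mem_singleton, not_or] at this
      exact this
    obtain ⟨hper2, _⟩ := hchord 0 r (by omega) (by omega) (by simpa using hrT.1.2)
    have hperk : ∀ k t, c (x (t + 2 * k)) = c (x t) := by
      intro k
      induction k with
      | zero => intro t; rfl
      | succ k ih =>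
        intro t
        rw [show t + 2 * (k + 1) = (t + 2 * k) + 2 by ring, hper2, ih]
    -- `N` is even
    have hNe : N % 2 = 0 := by
      by_contra hodd
      obtain ⟨n, hn⟩ : ∃ n, N + 1 = 2 * n := ⟨(N + 1) / 2, by (clear * - hodd; omega)⟩
      have hstep : ∀ t, c (x (t + 1)) = c (x t) := by
        intro t
        rw [← hx.2.1 (t + 1), show t + 1 + N = t + 2 * n by omega, hperk]
      have hconst : ∀ t, c (x t) = c (x 0) := by
        intro t
        induction t with
        | zero => rfl
        | succ t ih => rw [hstep, ih]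
      obtain ⟨s, t, hst⟩ := hcx
      exact hst (by rw [hconst s, hconst t])
    -- all chords are odd
    have hodd : ∀ i s, s < N → G.Adj (x i) (x (i + s)) → s % 2 = 1 := by
      intro i s hs hadj
      rcases Nat.lt_or_ge s 2 with h2 | h2
      · have : s ≠ 0 := by
          rintro rfl
          exact G.loopless.irrefl _ hadj
        omega
      · rcases Nat.lt_or_ge N (s + 2) with h3 | h3
        · omega
        · exact (hchord i s h2 h3 hadj).2
    have hpar : ∀ p q, p < N → q < N → G.Adj (x p) (x q) → p % 2 ≠ q % 2 := by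
      intro p q hp hq hadj
      rcases Nat.lt_or_ge p q with h1 | h1
      · have := hodd p (q - p) (by omega) (by rwa [show p + (q - p) = q by omega])
        omega
      · have := hodd q (p - q) (by omega) (by rw [show q + (p - q) = p by omega]; exact hadj.symm)
        (clear * - h1 this; omega)
    have hTodd : ∀ t ∈ T, t % 2 = 1 := by
      intro t ht
      rw [hTmem] at ht
      have := hpar 0 t hNpos ht.1 ht.2
      omega
    -- the shifted neighbours
    set E : Finset V := T.image (fun t => x (t + 1)) with hEdef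
    have hEpos : ∀ v ∈ E, ∃ p, p < N ∧ p % 2 = 0 ∧ x p = v ∧ ∃ t ∈ T, x (t + 1) = v := by
      intro v hv
      obtain ⟨t, ht, rfl⟩ := Finset.mem_image.1 hv
      have h1 := hTodd t ht
      have h2 := (hTmem t).1 ht
      refine ⟨(t + 1) % N, Nat.mod_lt _ hNpos, ?_, (hpos _).symm, t, ht, rfl⟩
      rcases Nat.lt_or_ge (t + 1) N with h3 | h3
      · rw [Nat.mod_eq_of_lt h3]
        omega
      · have h4 : t + 1 = N := by omega
        rw [h4, Nat.mod_self]
    have hEcard : E.card = T.card := by
      apply Finset.card_image_of_injOn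
      intro s hs t ht hst
      have hs' := (hTmem s).1 hs
      have ht' := (hTmem t).1 ht
      have := hx.inj (i := 1) hs'.1 ht'.1 (by
        simp only at hst
        rw [Nat.add_comm 1 s, Nat.add_comm 1 t]
        exact hst)
      exact this
    have hEH : E ⊆ H := by
      intro v hv
      obtain ⟨t, _, rfl⟩ := Finset.mem_image.1 hv
      exact hxH _
    have hEind : Ind G E := by
      intro a ha b hb hab
      obtain ⟨p, hp, hp2, rfl, _⟩ := hEpos a ha
      obtain ⟨q, hq, hq2, rfl, _⟩ := hEpos b hb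
      exact hpar p q hp hq hab (by rw [hp2, hq2])
    have hEne : E.Nonempty := by
      rw [← Finset.card_pos, hEcard]
      omega
    have hbig := hexp E hEH hEind hEne
    -- the odd vertices
    set O : Finset V := nbc G H E \ E with hO
    have hOpos : ∀ v ∈ O, ∃ q, q < N ∧ q % 2 = 1 ∧ x q = v := by
      intro v hv
      rw [hO, Finset.mem_sdiff, mem_nbc] at hv
      rcases hv.1.2 with h1 | ⟨e, he, hev⟩
      · exact absurd h1 hv.2
      obtain ⟨p, hp, hp2, hpe, t, ht, hte⟩ := hEpos e he
      obtain ⟨i, hi⟩ := hclos t ((hTmem t).1 ht).2 v hv.1.1 (by rw [hte]; exact hev)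
      refine ⟨i % N, Nat.mod_lt _ hNpos, ?_, by rw [← hpos, hi]⟩
      have := hpar p (i % N) hp (Nat.mod_lt _ hNpos) (by
        rw [hpe, ← hpos, hi]
        exact hev)
      omega
    have hOind : Ind G O := by
      intro a ha b hb hab
      obtain ⟨p, hp, hp2, rfl⟩ := hOpos a ha
      obtain ⟨q, hq, hq2, rfl⟩ := hOpos b hb
      exact hpar p q hp hq hab (by rw [hp2, hq2])
    have hOcard := hal O (Finset.sdiff_subset.trans (nbc_subset _ _ _)) hOind
    have h3 : (nbc G H E).card ≤ O.card + E.card := by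
      rw [hO]
      have := Finset.le_card_sdiff E (nbc G H E)
      omega
    obtain ⟨p, hp⟩ : ∃ p, κ = p + 1 := ⟨κ - 1, by omega⟩
    have h4 : p * κ ≤ p * E.card := by
      apply Nat.mul_le_mul_left
      rw [hEcard]
      exact hTcard
    have h5 : κ * E.card = p * E.card + E.card := by rw [hp]; ring
    rw [show κ - 1 = p by omega] at hA
    omega

/-- a clique in a level: all vertices have a common neighbour in `R`, or there is a cycle -/
theorem ear_clq (G : SimpleGraph V) (R U : Finset V) (h M : ℕ)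
    (hE : Ear G R U h) (hRU : Disjoint R U) (hh : 2 * (h + 1) ≤ M) (hno : ¬ HasC G (M + 1))
    (K : Finset V) (hKU : K ⊆ U) (hKne : K.Nonempty) (hK : Clq G K) (hM : M ≤ K.card + 2) :
    ∃ z ∈ R, ∀ w ∈ K, G.Adj z w := by
  classical
  rcases hE K hKU hKne with h1 | ⟨j, hj2, hjh, c, ⟨w, hw, w', hw', hne⟩, hcY⟩
  · exact h1
  · exfalso
    apply hno
    obtain ⟨a', b', Y, hY, hYl, hYR, h1, h2⟩ := hcY w hw w' hw' hne
    obtain ⟨l, hl, hll, hlK⟩ := clique_path G K hK w w' hw hw' (fun h => hne (by rw [h]))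
      (M + 2 - 2 * j) (by omega) (by omega)
    have := ear_close hRU hl (fun v hv => hKU (hlK v hv)) hY hYR h1 h2
    rw [hll, hYl] at this
    rwa [show M + 2 - 2 * j + (2 * j - 1) = M + 1 by omega] at this

end Vale.Agent.P048
end
end

section

section

/-!
Clique lemmas for `M = 6` and `M = 7`.
-/

namespace Vale.Agent.P048

open Finset

variable {V : Type*}

/-- start of the breadth first search -/
theorem bfs_start (G : SimpleGraph V) (W : Finset V) (r : V) (hr : r ∈ W) (I0 : Finset V)
    (hI0W : I0 ⊆ W) (hI0i : Ind G I0) (hI0r : ∀ w ∈ I0, G.Adj r w) :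
    ∃ R U I : Finset V, R.card = 1 ∧ R ⊆ W ∧ U ⊆ W ∧ Disjoint R U ∧
      (∀ w ∈ W, w ∉ R → (∃ z ∈ R, G.Adj z w) → w ∈ U) ∧ Ear G R U 0 ∧
      I ⊆ U ∧ Ind G I ∧ AlLe G U I.card ∧ I0.card ≤ I.card := by
  classical
  obtain ⟨I, hIU, hIi, hImax⟩ := exists_max_ind G (W.filter (G.Adj r))
  refine ⟨{r}, W.filter (G.Adj r), I, by simp, by simpa using hr, Finset.filter_subset _ _, ?_, ?_,
    Ear.zero G r _ (fun w hw => (Finset.mem_filter.1 hw).2), hIU, hIi, hImax, ?_⟩
  · rw [Finset.disjoint_left]
    intro w hw hw'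
    rw [Finset.mem_singleton.1 hw] at hw'
    exact G.loopless.irrefl _ (Finset.mem_filter.1 hw').2
  · rintro w hw - ⟨z, hz, hzw⟩
    rw [Finset.mem_singleton.1 hz] at hzw
    exact Finset.mem_filter.2 ⟨hw, hzw⟩
  · exact hImax I0 (fun w hw => Finset.mem_filter.2 ⟨hI0W hw, hI0r w hw⟩) hI0i

/-- one step of the breadth first search, without lightness -/
theorem bfs_step0 (G : SimpleGraph V) (W : Finset V) (M : ℕ) (hexp : Expd G W M) (h : ℕ)
    (R U I : Finset V) (hRW : R ⊆ W) (hUW : U ⊆ W) (hRU : Disjoint R U)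
    (hU1 : ∀ w ∈ W, w ∉ R → (∃ z ∈ R, G.Adj z w) → w ∈ U)
    (hE : Ear G R U h) (hI : I ⊆ U) (hIi : Ind G I) (hImax : AlLe G U I.card)
    (hIne : I.Nonempty) :
    ∃ R' U' I' : Finset V, R' ⊆ W ∧ U' ⊆ W ∧ Disjoint R' U' ∧
      (∀ w ∈ W, w ∉ R' → (∃ z ∈ R', G.Adj z w) → w ∈ U') ∧ Ear G R' U' (h + 1) ∧
      (∀ w ∈ U', ∃ i ∈ I, G.Adj w i) ∧
      I' ⊆ U' ∧ Ind G I' ∧ AlLe G U' I'.card ∧ R'.card = R.card + I.card ∧ I ⊆ R' ∧
      M * I.card + 1 ≤ R.card + I.card + U'.card := by
  classical
  set R' := R ∪ I with hR'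
  set U' := W.filter (fun w => w ∉ R' ∧ ∃ z ∈ R', G.Adj z w) with hU'
  obtain ⟨I', hI'U, hI'i, hI'max⟩ := exists_max_ind G U'
  have hR'W : R' ⊆ W := Finset.union_subset hRW (hI.trans hUW)
  have hU'W : U' ⊆ W := Finset.filter_subset _ _
  have hdisj : Disjoint R' U' := by
    rw [Finset.disjoint_left]
    intro w hw hw'
    exact (Finset.mem_filter.1 hw').2.1 hw
  have hRI : Disjoint R I := Finset.disjoint_of_subset_right hI hRU
  have hR'card : R'.card = R.card + I.card := Finset.card_union_of_disjoint hRI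
  have hpar : ∀ w ∈ U', ∃ i ∈ I, G.Adj w i := by
    intro w hw
    obtain ⟨hwW, hwR', z, hz, hzw⟩ := Finset.mem_filter.1 hw
    rcases Finset.mem_union.1 hz with hz | hz
    · by_contra hcon
      push Not at hcon
      have hwR : w ∉ R := fun h => hwR' (Finset.mem_union_left _ h)
      have hwI : w ∉ I := fun h => hwR' (Finset.mem_union_right _ h)
      have hwU : w ∈ U := hU1 w hwW hwR ⟨z, hz, hzw⟩
      have h1 : Ind G (insert w I) := hIi.insert fun i hi hadj => hcon i hi hadj.symm
      have h2 := hImax _ (Finset.insert_subset hwU hI) h1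
      rw [Finset.card_insert_of_notMem hwI] at h2
      omega
    · exact ⟨z, hz, hzw.symm⟩
  have hE' : Ear G R' U' (h + 1) := hE.step hRU hI hpar
  refine ⟨R', U', I', hR'W, hU'W, hdisj, ?_, hE', hpar, hI'U, hI'i, hI'max, hR'card,
    Finset.subset_union_right, ?_⟩
  · intro w hw hwR hz
    exact Finset.mem_filter.2 ⟨hw, hwR, hz⟩
  · -- the neighbourhood of `I`
    have h1 : nbc G W I ⊆ R' ∪ U' := by
      intro v hv
      rw [mem_nbc] at hv
      by_cases hvR : v ∈ R'
      · exact Finset.mem_union_left _ hvR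
      · refine Finset.mem_union_right _ (Finset.mem_filter.2 ⟨hv.1, hvR, ?_⟩)
        rcases hv.2 with h2 | ⟨j, hj, hjv⟩
        · exact absurd (Finset.mem_union_right _ h2) hvR
        · exact ⟨j, Finset.mem_union_right _ hj, hjv⟩
    have h2 := hexp I (hI.trans hUW) hIi hIne
    have h3 := (Finset.card_le_card h1).trans (Finset.card_union_le _ _)
    omega

/-- for `M = 6` the first levels are `3`-light -/
theorem light6 (G : SimpleGraph V) (W R U : Finset V) (h : ℕ) (hno : ¬ HasC G 7)
    (hcl : ∀ K ⊆ W, Clq G K → K.card ≤ 4) (hRW : R ⊆ W) (hUW : U ⊆ W) (hRU : Disjoint R U)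
    (hE : Ear G R U h) (hh : h ≤ 2) (k : ℕ) (hal : AlLe G U k) (hk : k ≤ 6) :
    U.card ≤ 3 * k := by
  classical
  by_contra hcon
  push Not at hcon
  obtain ⟨H, hHU, j, hj, h1, h2, h3⟩ := exists_expd G 3 U.card U k le_rfl hal (by omega)
  have hHne : H.Nonempty := Finset.card_pos.1 (by (clear * - hk hj h2; omega))
  obtain ⟨K, hKH, hKc, hK4⟩ := ear_clique G R U h 6 3 6 (by omega) le_rfl (by norm_num) hE hRU
    (by omega) hno H hHU hHne h3 (fun J hJ hJi => (h1 J hJ hJi).trans (by omega))
  obtain ⟨z, hz, hzK⟩ := ear_clq G R U h 6 hE hRU (by omega) hno K (hKH.trans hHU)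
    (Finset.card_pos.1 (by omega)) hKc (by omega)
  have hzK' : z ∉ K := by
    intro hzin
    rw [Finset.disjoint_left] at hRU
    exact hRU hz (hHU (hKH hzin))
  have h5 := hcl (insert z K)
    (Finset.insert_subset (hRW hz) (hKH.trans (hHU.trans hUW))) (by
      intro a ha b hb hab
      rw [Finset.mem_insert] at ha hb
      rcases ha with rfl | ha <;> rcases hb with rfl | hb
      · exact absurd rfl hab
      · exact hzK b hb
      · exact (hzK a ha).symm
      · exact hKc a ha b hb hab)
  rw [Finset.card_insert_of_notMem hzK'] at h5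
  omega

/-- clique lemma for `m = 7` -/
theorem clique6 (G : SimpleGraph V) (W : Finset V) (a : ℕ) (ha : a ≤ 6)
    (hno : ¬ HasC G 7) (hexp : Expd G W 6) (hal : AlLe G W a)
    (hW : 6 * a + 1 ≤ W.card) : ∃ K ⊆ W, Clq G K ∧ 5 ≤ K.card := by
  classical
  by_contra hcon
  push Not at hcon
  have hcl : ∀ K ⊆ W, Clq G K → K.card ≤ 4 := by
    intro K hK hKc
    have := hcon K hK hKc
    omega
  obtain ⟨r, hr, I0, hI0W, hI0i, hI0r, hI0c⟩ := exists_root G W 6 a (by omega) hno hexp hal hW
    (fun K hK hKc => by simpa only [Nat.reduceDiv, Nat.reduceAdd] using hcl K hK hKc)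
  obtain ⟨R, U, I, hRc, hRW, hUW, hRU, hU1, hE, hI, hIi, hImax, hIc⟩ :=
    bfs_start G W r hr I0 hI0W hI0i hI0r
  obtain ⟨R1, U1, I1, hRW1, hUW1, hRU1, hU11, hE1, -, hI1, hIi1, hImax1, hRc1, -, hst1⟩ :=
    bfs_step0 G W 6 hexp 0 R U I hRW hUW hRU hU1 hE hI hIi hImax (Finset.card_pos.1 (by omega))
  have hu1 := hal I1 (hI1.trans hUW1) hIi1
  have hL1 := light6 G W R1 U1 1 hno hcl hRW1 hUW1 hRU1 hE1 (by omega) _ hImax1 (by omega)
  obtain ⟨R2, U2, I2, hRW2, hUW2, hRU2, hU12, hE2, -, hI2, hIi2, hImax2, hRc2, -, hst2⟩ :=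
    bfs_step0 G W 6 hexp 1 R1 U1 I1 hRW1 hUW1 hRU1 hU11 hE1 hI1 hIi1 hImax1
      (Finset.card_pos.1 (by omega))
  have hu2 := hal I2 (hI2.trans hUW2) hIi2
  have hL2 := light6 G W R2 U2 2 hno hcl hRW2 hUW2 hRU2 hE2 (by omega) _ hImax2 (by omega)
  omega

/-- nine vertices without a `K_5` and without three independent vertices contain a `C_8` -/
theorem nine_eight (G : SimpleGraph V) (X : Finset V) (hX : 9 ≤ X.card)
    (hcl : ∀ K ⊆ X, Clq G K → K.card ≤ 4) (hal : AlLe G X 2) : HasC G 8 := by
  classical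
  obtain ⟨Y, hYX, hYc⟩ := Finset.exists_subset_card_eq hX
  obtain ⟨H, hHY, j, hj, h1, h2, h3⟩ := exists_expd G 4 Y.card Y 2 le_rfl (hal.mono hYX) (by omega)
  have hHne : H.Nonempty := Finset.card_pos.1 (by omega)
  rcases long_cycle G H 4 (by omega) hHne h3 with ⟨K, hK, hKc, hKk⟩ | ⟨N, x, hN, hx, hxH, -⟩
  · have := hcl K (hK.trans (hHY.trans hYX)) hKc
    omega
  have hN9 : N = 9 := by
    have h4 : ((Finset.range N).image x).card = N := by
      rw [Finset.card_image_of_injOn, Finset.card_range]
      intro s hs t ht hst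
      exact hx.2.2 s t (by simpa using hs) (by simpa using ht) hst
    have h5 : ((Finset.range N).image x).card ≤ Y.card := by
      apply Finset.card_le_card
      intro v hv
      obtain ⟨i, _, rfl⟩ := Finset.mem_image.1 hv
      exact hHY (hxH i)
    omega
  subst hN9
  by_cases hshort : ∃ i, G.Adj (x i) (x (i + 2))
  · obtain ⟨i, hi⟩ := hshort
    refine ⟨x i :: arc x (i + 2) 6, by rw [List.length_cons, arc_length], ?_, ?_, ?_⟩
    · rw [List.isChain_cons]
      refine ⟨?_, arc_chain hx _ _⟩
      intro y hy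
      rw [arc_head, Option.mem_def, Option.some.injEq] at hy
      rw [← hy]
      exact hi
    · rw [List.nodup_cons]
      refine ⟨?_, arc_nodup hx _ _ (by omega)⟩
      intro hmem
      obtain ⟨s, hs, hs2⟩ := mem_arc.1 hmem
      have := hx.inj (i := i) (s := 2 + s) (t := 0) (by omega) (by omega) (by
        rw [← Nat.add_assoc, hs2, Nat.add_zero])
      omega
    · intro u hu v hv
      rw [List.getLast?_cons, arc_last, Option.mem_def, Option.getD_some, Option.some.injEq] at hu
      simp only [List.head?_cons, Option.mem_def, Option.some.injEq] at hv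
      rw [← hu, ← hv]
      have h4 := hx.1 (i + 2 + 6)
      rw [show i + 2 + 6 + 1 = i + 9 by omega, hx.2.1] at h4
      exact h4
  · push Not at hshort
    have h4 : ∀ i, G.Adj (x i) (x (i + 4)) := by
      intro i
      by_contra hna
      have hne1 : x i ≠ x (i + 2) := fun h => by
        have := hx.inj (i := i) (s := 0) (t := 2) (by omega) (by omega) (by simpa using h)
        omega
      have hne2 : x i ≠ x (i + 4) := fun h => by
        have := hx.inj (i := i) (s := 0) (t := 4) (by omega) (by omega) (by simpa using h)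
        omega
      have hne3 : x (i + 2) ≠ x (i + 4) := fun h => by
        have := hx.inj (i := i) (s := 2) (t := 4) (by omega) (by omega) h
        omega
      have h5 := hal {x i, x (i + 2), x (i + 4)} (by
        intro v hv
        simp only [Finset.mem_insert, Finset.mem_singleton] at hv
        rcases hv with rfl | rfl | rfl <;> exact hYX (hHY (hxH _))) (by
        have h6 := hshort (i + 2)
        rw [show i + 2 + 2 = i + 4 by omega] at h6
        intro a ha b hb hab
        simp only [Finset.mem_insert, Finset.mem_singleton] at ha hb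
        rcases ha with rfl | rfl | rfl <;> rcases hb with rfl | rfl | rfl
        · exact G.loopless.irrefl _ hab
        · exact hshort i hab
        · exact hna hab
        · exact hshort i hab.symm
        · exact G.loopless.irrefl _ hab
        · exact h6 hab
        · exact hna hab.symm
        · exact h6 hab.symm
        · exact G.loopless.irrefl _ hab)
      rw [Finset.card_insert_of_notMem, Finset.card_insert_of_notMem, Finset.card_singleton] at h5
      · omega
      · simpa using hne3
      · simp [hne1, hne2]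
    have hp : ∀ i, x (i + 9) = x i := hx.2.1
    have e08 : G.Adj (x 0) (x 8) := by
      have := hx.1 8
      rw [show 8 + 1 = 0 + 9 by omega, hp] at this
      exact this.symm
    have e83 : G.Adj (x 8) (x 3) := by
      have := h4 8
      rwa [show 8 + 4 = 3 + 9 by omega, hp] at this
    have e37 : G.Adj (x 3) (x 7) := h4 3
    have e72 : G.Adj (x 7) (x 2) := by
      have := h4 7
      rwa [show 7 + 4 = 2 + 9 by omega, hp] at this
    have e26 : G.Adj (x 2) (x 6) := h4 2
    have e61 : G.Adj (x 6) (x 1) := by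
      have := h4 6
      rwa [show 6 + 4 = 1 + 9 by omega, hp] at this
    have e15 : G.Adj (x 1) (x 5) := h4 1
    have e50 : G.Adj (x 5) (x 0) := by
      have := h4 5
      rwa [show 5 + 4 = 0 + 9 by omega, hp] at this
    refine ⟨[0, 8, 3, 7, 2, 6, 1, 5].map x, by simp, ?_, ?_, ?_⟩
    · simp [e08, e83, e37, e72, e26, e61, e15]
    · apply List.Nodup.map_on
      · intro s hs t ht hst
        refine hx.2.2 s t ?_ ?_ hst
        · simp only [List.mem_cons, List.not_mem_nil, or_false] at hs
          omega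
        · simp only [List.mem_cons, List.not_mem_nil, or_false] at ht
          omega
      · decide
    · simpa only [List.map_cons, List.map_nil, List.getLast?_cons_cons, List.getLast?_singleton, Option.mem_def,     Option.some.injEq, List.head?_cons, forall_eq'] using e50

/-- clique lemma for `m = 8` -/
theorem clique7 (G : SimpleGraph V) (W : Finset V) (a : ℕ) (ha : a ≤ 7)
    (hno : ¬ HasC G 8) (hexp : Expd G W 7) (hal : AlLe G W a)
    (hW : 7 * a + 1 ≤ W.card) : ∃ K ⊆ W, Clq G K ∧ 5 ≤ K.card := by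
  classical
  by_contra hcon
  push Not at hcon
  have hcl : ∀ K ⊆ W, Clq G K → K.card ≤ 4 := by
    intro K hK hKc
    have := hcon K hK hKc
    omega
  have light : ∀ (R U : Finset V) (h : ℕ), U ⊆ W → Disjoint R U → Ear G R U h → h ≤ 2 →
      ∀ k, AlLe G U k → U.card ≤ 4 * k := by
    intro R U h hUW hRU hE hh k halU
    by_contra hcon
    obtain ⟨H, hHU, j, hj, h5, h6, h7⟩ := exists_expd G (7 / 2 + 1) U.card U k le_rfl
      halU (by omega)
    exact ear_light G R U h 7 (by omega) hE hRU (by omega) hno H hHU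
      (Finset.card_pos.1 (by omega)) h7 (fun K hK => hcl K (hK.trans (hHU.trans hUW)))
      (fun J hJ hJi => (hal J (hJ.trans (hHU.trans hUW)) hJi).trans ha)
  obtain ⟨r, hr, I0, hI0W, hI0i, hI0r, hI0c⟩ := exists_root G W 7 a (by omega) hno hexp hal hW
    (fun K hK hKc => by simpa only [Nat.reduceDiv, Nat.reduceAdd] using hcl K hK hKc)
  obtain ⟨R, U, I, hRc, hRW, hUW, hRU, hU1, hE, hI, hIi, hImax, hIc⟩ :=
    bfs_start G W r hr I0 hI0W hI0i hI0r
  have hu0 := hal I (hI.trans hUW) hIi
  obtain ⟨R1, U1, I1, hRW1, hUW1, hRU1, hU11, hE1, -, hI1, hIi1, hImax1, hRc1, -, hst1⟩ :=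
    bfs_step0 G W 7 hexp 0 R U I hRW hUW hRU hU1 hE hI hIi hImax (Finset.card_pos.1 (by omega))
  have hu1 := hal I1 (hI1.trans hUW1) hIi1
  have hL1 := light R1 U1 1 hUW1 hRU1 hE1 (by omega) _ hImax1
  obtain ⟨R2, U2, I2, hRW2, hUW2, hRU2, hU12, hE2, -, hI2, hIi2, hImax2, hRc2, hIR2, hst2⟩ :=
    bfs_step0 G W 7 hexp 1 R1 U1 I1 hRW1 hUW1 hRU1 hU11 hE1 hI1 hIi1 hImax1
      (Finset.card_pos.1 (by omega))
  have hu2 := hal I2 (hI2.trans hUW2) hIi2
  have hL2 := light R2 U2 2 hUW2 hRU2 hE2 (by omega) _ hImax2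
  -- the remaining vertices
  set X : Finset V := W \ (R2 ∪ U2) with hX
  have hXc : W.card ≤ X.card + (R2.card + U2.card) := by
    have h1 := Finset.card_union_le R2 U2
    have h2 : W.card - (R2 ∪ U2).card ≤ X.card := Finset.le_card_sdiff (R2 ∪ U2) W
    omega
  refine hno (nine_eight G X (by omega) (fun K hK => hcl K (hK.trans Finset.sdiff_subset)) ?_)
  intro J hJ hJi
  have hJX : ∀ w ∈ J, w ∈ W ∧ w ∉ R2 ∧ w ∉ U2 := by
    intro w hw
    have := hJ hw
    rw [hX, Finset.mem_sdiff, Finset.mem_union, not_or] at this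
    exact ⟨this.1, this.2.1, this.2.2⟩
  have hno2 : ∀ w ∈ J, ∀ i ∈ I1, ¬ G.Adj i w := by
    intro w hw i hi hadj
    obtain ⟨h1, h2, h3⟩ := hJX w hw
    exact h3 (hU12 w h1 h2 ⟨i, hIR2 hi, hadj⟩)
  have hdisj : Disjoint J I1 := by
    rw [Finset.disjoint_left]
    intro w hw hw1
    exact (hJX w hw).2.1 (hIR2 hw1)
  have h1 := hal (J ∪ I1) (Finset.union_subset (hJ.trans Finset.sdiff_subset)
    (hI1.trans hUW1)) (by
      intro p hp q hq hpq
      rcases Finset.mem_union.1 hp with hp | hp <;> rcases Finset.mem_union.1 hq with hq | hq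
      · exact hJi p hp q hq hpq
      · exact hno2 p hp q hq hpq.symm
      · exact hno2 q hq p hp hpq
      · exact hIi1 p hp q hq hpq)
  rw [Finset.card_union_of_disjoint hdisj] at h1
  omega

end Vale.Agent.P048
end
end

section

section

/-!
The cases `m = 7` and `m = 8`.
-/

namespace Vale.Agent.P048

open Finset

variable {V : Type*}

theorem small7 (G : SimpleGraph V) (W : Finset V) (k : ℕ) (hk : k ≤ 7) (hal : AlLe G W k)
    (hW : 7 * k + 1 ≤ W.card) : HasC G 8 := by
  classical
  by_contra hno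
  obtain ⟨H, hHW, j, hj, h1, h2, h3⟩ := exists_expd G 7 W.card W k le_rfl hal hW
  obtain ⟨K0, hK0, hc0, hk0⟩ := clique7 G H j (by omega) hno h3 h1 h2
  obtain ⟨K, hK, hKmax⟩ := Finset.exists_max_image
    (H.powerset.filter (fun K => Clq G K)) Finset.card
    ⟨K0, by simp [hK0, hc0]⟩
  rw [Finset.mem_filter, Finset.mem_powerset] at hK
  have hle : K0.card ≤ K.card := hKmax K0 (by simp [hK0, hc0])
  obtain ⟨J, hJ, hJi, hJc⟩ := doubling5 G H K 7 (by omega) hno (fun v hv => h3.deg hv) hK.1 hK.2
    (fun K' hK' hc' => hKmax K' (by simp [hK', hc'])) (by omega) (by omega)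
  have := h1 J hJ hJi
  omega

theorem small6 (G : SimpleGraph V) (W : Finset V) (k : ℕ) (hk : k ≤ 6) (hal : AlLe G W k)
    (hW : 6 * k + 1 ≤ W.card) : HasC G 7 := by
  classical
  by_contra hno
  obtain ⟨H, hHW, j, hj, h1, h2, h3⟩ := exists_expd G 6 W.card W k le_rfl hal hW
  obtain ⟨K0, hK0, hc0, hk0⟩ := clique6 G H j (by omega) hno h3 h1 h2
  obtain ⟨K, hK, hKmax⟩ := Finset.exists_max_image
    (H.powerset.filter (fun K => Clq G K)) Finset.card
    ⟨K0, by simp [hK0, hc0]⟩
  rw [Finset.mem_filter, Finset.mem_powerset] at hK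
  have hle : K0.card ≤ K.card := hKmax K0 (by simp [hK0, hc0])
  obtain ⟨J, hJ, hJi, hJc⟩ := doubling5 G H K 6 (by omega) hno (fun v hv => h3.deg hv) hK.1 hK.2
    (fun K' hK' hc' => hKmax K' (by simp only [mem_filter, mem_powerset, hK', hc', and_self])) (by omega) (by omega)
  have := h1 J hJ hJi
  omega

end Vale.Agent.P048
end
end

section

section

/-!
The full range `m ≥ n ≥ 3`, `(m, n) ≠ (3, 3)`.
-/

namespace Vale.Agent.P048

open Finset

theorem upper_all {V : Type*} (G : SimpleGraph V) (W : Finset V) (M k : ℕ) (hM : 3 ≤ M)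
    (hkM : k ≤ M) (hal : AlLe G W k) (hW : M * k + 1 ≤ W.card) : HasC G (M + 1) := by
  rcases Nat.lt_or_ge M 8 with h8 | h8
  · obtain rfl | rfl | rfl | rfl | rfl : M = 3 ∨ M = 4 ∨ M = 5 ∨ M = 6 ∨ M = 7 := by omega
    · exact small3 G W k hkM hal hW
    · exact small4 G W k hkM hal hW
    · exact small5 G W k hkM hal hW
    · exact small6 G W k hkM hal hW
    · exact small7 G W k hkM hal hW
  · exact upper3 G W M k h8 hkM hal hW

/-- the identity for all `m ≥ n`, `m ≥ 4` -/
theorem all_range (m n : ℕ) (hn : 1 ≤ n) (hnm : n ≤ m) (hm : 4 ≤ m) :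
    IsLeast {N : ℕ | ∀ G : SimpleGraph (Fin N),
      (SimpleGraph.cycleGraph m).IsContained G ∨ ∃ s : Finset (Fin N), G.IsNIndepSet n s}
      ((m - 1) * (n - 1) + 1) := by
  classical
  apply isLeast_of_upper m n (by omega) (by omega)
  intro G hG
  by_contra hcon
  push Not at hcon
  apply hG
  have hal : AlLe G (Finset.univ : Finset (Fin ((m - 1) * (n - 1) + 1))) (n - 1) := by
    intro I _ hI
    by_contra hlt
    push Not at hlt
    obtain ⟨J, hJ, hc⟩ := Finset.exists_subset_card_eq (s := I) (n := n) (by omega)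
    exact hcon J (fun a ha b hb => hI a (hJ ha) b (hJ hb)) hc
  have h1 := upper_all G Finset.univ (m - 1) (n - 1) (by omega) (by omega) hal
    (by rw [Finset.card_univ, Fintype.card_fin])
  rwa [show m - 1 + 1 = m by omega] at h1

end Vale.Agent.P048
end
end
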